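import Vale.Agent.P181.H699.Glue7
import Vale.Agent.P181.H914.Alg7
import Vale.Agent.P181.H498.Cols
import Vale.Agent.P181.T4.Asm

set_option autoImplicit false

/-!
# P181, T7: from heads (`Top7`) to the multiplicity
-/

open MvPolynomial
open scoped Classical

namespace Vale.Agent.P181.T7

open Vale.Agent.P181 Vale.Agent.P181.H280 Vale.Agent.P181.FR Vale.Agent.P181.H188W
open Vale.Agent.P181.T4 Vale.Agent.P181.H463 Vale.Agent.P181.H699

namespace Top7

variable {m R N : ℕ} {T C : Type} [Fintype T] [Fintype C] {cls : T → ℕ}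
  (Fr : Top7 m R N T cls C)

/-- the number of incidences of a letter with the rows `< R` -/
noncomputable def inc (p : T ⊕ Fin N) : ℕ :=
  ∑ c : C, ((Finset.range (Fr.len c)).filter (fun i => i < R ∧ Fr.srv c i = p)).card

omit [Fintype T] in
lemma inc_inr (q : Fin N) : Fr.inc (Sum.inr q) = ∑ i ∈ Finset.range R, Fr.typ q i := by
  have h1 : ∀ c, ((Finset.range (Fr.len c)).filter (fun i => i < R ∧ Fr.srv c i = Sum.inr q)).card =
      ∑ i ∈ Finset.range R, if i < R ∧ i < Fr.len c ∧ Fr.srv c i = Sum.inr q then 1 else 0 := by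
    intro c
    rw [← Finset.card_filter]
    congr 1
    ext i
    simp only [Finset.mem_filter, Finset.mem_range]
    tauto
  rw [inc, Finset.sum_congr rfl (fun c _ => h1 c), Finset.sum_comm]
  apply Finset.sum_congr rfl
  intro i _
  rw [typ, Finset.card_filter]

/-- The number of incidences with the top rows. -/
lemma sum_inc (lam : Fin m → ℕ)
    (hlam : ∀ i : Fin m, (Finset.univ.filter fun c => (i : ℕ) < Fr.len c).card = lam i) :
    ∑ p, Fr.inc p = ∑ i ∈ Finset.range R, T4.ex lam i := by
  have h1 : ∑ p, Fr.inc p =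
      ∑ c : C, ((Finset.range (Fr.len c)).filter (fun i => i < R)).card := by
    simp only [inc]
    rw [Finset.sum_comm]
    apply Finset.sum_congr rfl
    intro c _
    simp only [Finset.card_filter]
    rw [Finset.sum_comm]
    apply Finset.sum_congr rfl
    intro i _
    by_cases hi : i < R
    · simp [hi]
    · simp [hi]
  have h2 : ∀ c, ((Finset.range (Fr.len c)).filter (fun i => i < R)).card =
      ∑ i ∈ Finset.range R, if i < Fr.len c then 1 else 0 := by
    intro c
    rw [← Finset.card_filter]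
    congr 1
    ext i
    simp only [Finset.mem_filter, Finset.mem_range]
    tauto
  rw [h1, Finset.sum_congr rfl (fun c _ => h2 c), Finset.sum_comm]
  apply Finset.sum_congr rfl
  intro i _
  rw [← Finset.card_filter]
  by_cases him : i < m
  · rw [ex_of_lt lam him, ← hlam ⟨i, him⟩]
  · rw [T4.ex, dif_neg him, Finset.card_eq_zero, Finset.filter_eq_empty_iff]
    intro c _
    have := Fr.len_le c
    omega

omit [Fintype T] in
/-- Every letter is used `k` times. -/
lemma deg {b k : ℕ} (e : Fin b ≃ T ⊕ Fin N)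
    (lo : (c : C) → Fin (Fr.len c - R) → Fin N) (htop : ∀ t, Fr.inc (Sum.inl t) = k)
    (hpt : ∀ q, Fr.inc (Sum.inr q) +
      ∑ c, (Finset.univ.filter fun s : Fin (Fr.len c - R) => lo c s = q).card = k) (j : Fin b) :
    ∑ c, (Finset.univ.filter fun i => e.symm (Fr.J c (lo c) i) = j).card = k := by
  have h1 : ∀ c, (Finset.univ.filter fun i : Fin (Fr.len c) => e.symm (Fr.J c (lo c) i) = j).card =
      ((Finset.range (Fr.len c)).filter (fun i => i < R ∧ Fr.srv c i = e j)).card +
      (Finset.univ.filter fun s : Fin (Fr.len c - R) => Sum.inr (lo c s) = e j).card := by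
    intro c
    rw [← card_pos (Fr.srv c) (lo c) (Fr.J c (lo c)) (fun j hj => by rw [Top7.J, dif_pos hj])
      (fun s => by
        rw [Top7.J, dif_neg (by simp)]
        congr 2
        exact Fin.ext (by simp))]
    congr 1
    ext i
    rw [Finset.mem_filter, Finset.mem_filter, Equiv.symm_apply_eq]
  rw [Finset.sum_congr rfl (fun c _ => h1 c), Finset.sum_add_distrib]
  rcases hj : e j with t | q
  · have h2 := htop t
    rw [inc] at h2
    rw [h2]
    have h3 : ∑ c, (Finset.univ.filter fun s : Fin (Fr.len c - R) =>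
        (Sum.inr (lo c s) : T ⊕ Fin N) = Sum.inl t).card = 0 := by
      apply Finset.sum_eq_zero
      intro c _
      rw [Finset.card_eq_zero, Finset.filter_eq_empty_iff]
      intro s _ h
      exact absurd h (by simp)
    rw [h3, add_zero]
  · rw [← hpt q, inc]
    congr 1
    apply Finset.sum_congr rfl
    intro c _
    congr 1
    ext s
    simp

/-- The content of the lower part. -/
lemma sum_content {b k : ℕ} (hR : R ≤ m) (lam : Fin m → ℕ) (hsum : ∑ i, lam i = k * b)
    (hcard : Fintype.card T + N = b)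
    (hrows : ∀ i : Fin m, (Finset.univ.filter fun c => (i : ℕ) < Fr.len c).card = lam i)
    (htop : ∀ t, Fr.inc (Sum.inl t) = k) (d : Fin N → ℕ)
    (hpt : ∀ q, Fr.inc (Sum.inr q) + d q = k) : ∑ q, d q = ∑ i, T4.low R lam i := by
  have h1 := Fr.sum_inc lam hrows
  rw [Fintype.sum_sum_type, Finset.sum_congr rfl (fun t _ => htop t)] at h1
  have h2 := T4.sum_split hR lam
  have h3 : ∑ q, (Fr.inc (Sum.inr q) + d q) = N * k := by
    rw [Finset.sum_congr rfl (fun q _ => hpt q)]
    simp
  rw [Finset.sum_add_distrib] at h3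
  rw [Finset.sum_const, Finset.card_univ, smul_eq_mul] at h1
  have h4 : Fintype.card T * k + N * k = k * b := by
    rw [← add_mul, hcard, mul_comm]
  omega

end Top7

/-- **(G1)** Families of fillings over frames. -/
theorem plethMult_ge_top7 {m R N b k : ℕ} {T : Type} [Fintype T] {cls : T → ℕ}
    {U : Type*} [Fintype U] (C : U → Type) [∀ u, Fintype (C u)]
    (Fr : ∀ u, Top7 m R N T cls (C u)) (ι : U → Type*) [∀ u, Fintype (ι u)]
    (lo : ∀ u, ι u → (c : C u) → Fin ((Fr u).len c - R) → Fin N)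
    (e : Fin b ≃ T ⊕ Fin N) (lam : Fin m → ℕ)
    (hrows : ∀ u (i : Fin m), (Finset.univ.filter fun c => (i : ℕ) < (Fr u).len c).card = lam i)
    (htop : ∀ u t, (Fr u).inc (Sum.inl t) = k)
    (hpt : ∀ u β q, (Fr u).inc (Sum.inr q) +
      ∑ c, (Finset.univ.filter fun s => lo u β c s = q).card = k)
    (hli : LinearIndependent ℂ (fun (x : Σ u, ι u) (p : Fin b → Fin m → ℂ) =>
      ∑ s : Equiv.Perm (Fin b), (∏ c, dt ((Fr x.1).len_le c)
        (fun j => e.symm ((Fr x.1).J c (lo x.1 x.2 c) j))) (fun j => p (s j)))) :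
    ∑ u, Fintype.card (ι u) ≤ plethMult b k m lam := by
  rw [← Fintype.card_sigma]
  exact plethMult_ge_fill (fun x : Σ u, ι u => C x.1) (fun x => (Fr x.1).len)
    (fun x => (Fr x.1).len_le) (fun x c j => e.symm ((Fr x.1).J c (lo x.1 x.2 c) j))
    (fun x => hrows x.1) (fun x j => (Fr x.1).deg e (lo x.1 x.2) (htop x.1) (hpt x.1 x.2) j)
    hli

/-- **(G2)** Frames with pairwise inequivalent types with trivial stabilisers. -/
theorem low_le7 {m R N b k : ℕ} {T : Type} [Fintype T] {cls : T → ℕ} (hR : R ≤ m)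
    (hcls : ∀ t, cls t < R) {U : Type*} [Fintype U] (C : U → Type) [∀ u, Fintype (C u)]
    (Fr : ∀ u, Top7 m R N T cls (C u)) (d : U → Fin N → ℕ) (t : ℕ → ℕ)
    (lam : Fin m → ℕ) (hsum : ∑ i, lam i = k * b) (hcard : Fintype.card T + N = b)
    (hrows : ∀ u (i : Fin m), (Finset.univ.filter fun c => (i : ℕ) < (Fr u).len c).card = lam i)
    (htop : ∀ u x, (Fr u).inc (Sum.inl x) = k)
    (hpt : ∀ u q, ∑ i ∈ Finset.range R, (Fr u).typ q i + d u q = k)
    (hd : ∀ u i j, d u i ≤ d u j + 1)
    (hF : ∀ u (lo : (c : C u) → Fin ((Fr u).len c - R) → Fin N),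
      (∀ q, ∑ c, (Finset.univ.filter fun s => lo c s = q).card = d u q) → (Fr u).Forced t lo)
    (ht : ∀ u, ∀ i < R, ∑ q, (Fr u).typ q i = t i)
    (hU : ∀ u u', (∃ σ : Equiv.Perm (Fin N), ∀ q, ∀ i < R,
      (Fr u).typ q i = (Fr u').typ (σ q) i) → u = u')
    (hinj : ∀ u q q', (∀ i < R, (Fr u).typ q i = (Fr u).typ q' i) → q = q') :
    Fintype.card U * gt (m - R) N (low R lam) ≤
      ((∑ i, low R lam i) + N - 1).choose (N - 1) * plethMult b k m lam := by
  have hpt' : ∀ u q, (Fr u).inc (Sum.inr q) + d u q = k := fun u q => by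
    rw [Top7.inc_inr]
    exact hpt u q
  have hη : ∀ u (i : Fin (m - R)), (Finset.univ.filter fun c => R + (i : ℕ) < (Fr u).len c).card =
      low R lam i := by
    intro u i
    have hi := i.2
    rw [low, ex_of_lt lam (by omega : R + (i : ℕ) < m), ← hrows u]
  choose ι hι lo hlo hli hgt using fun u => exists_lower (N := N) (Fr u).len (Fr u).len_le
    (low R lam) (hη u) (d u) (hd u)
    ((Fr u).sum_content hR lam hsum hcard (hrows u) (htop u) (d u) (hpt' u))
  have e : Fin b ≃ T ⊕ Fin N := (Fintype.equivFinOfCardEq (by simpa using hcard)).symm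
  have h1 := plethMult_ge_top7 C Fr ι lo e lam hrows htop (fun u β q => by
    rw [hlo u β q]
    exact hpt' u q) (linInd7_inj hcls C Fr lo t (fun u β => hF u (lo u β) (hlo u β)) ht hU hinj e
      hli)
  calc Fintype.card U * gt (m - R) N (low R lam)
      = ∑ _u : U, gt (m - R) N (low R lam) := by
        rw [Finset.sum_const, Finset.card_univ, smul_eq_mul]
    _ ≤ ∑ u : U, ((∑ i, low R lam i) + N - 1).choose (N - 1) * Fintype.card (ι u) :=
        Finset.sum_le_sum fun u _ => hgt u
    _ = ((∑ i, low R lam i) + N - 1).choose (N - 1) * ∑ u : U, Fintype.card (ι u) := by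
        rw [Finset.mul_sum]
    _ ≤ _ := Nat.mul_le_mul_left _ h1

end Vale.Agent.P181.T7
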