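import Vale.Agent.P181.S6.Spec

set_option autoImplicit false

/-!
# P181, S6: the star systems of helper502 exist ([S6-STR])
-/

namespace Vale.Agent.P181.H699.Str6

open Finset Vale.Agent.P181.S6

/-- multiplication modulo `M` -/
def th (M a p : ℕ) : ℕ := a * p % M

lemma th_lt {M a p : ℕ} (hM : 0 < M) : th M a p < M := Nat.mod_lt _ hM

lemma th_inj {M a p q : ℕ} (hc : Nat.Coprime a M) (hp : p < M) (hq : q < M)
    (h : th M a p = th M a q) : p = q := by
  have h1 : a * p ≡ a * q [MOD M] := h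
  have h2 : p ≡ q [MOD M] := Nat.ModEq.cancel_left_of_coprime (by rw [Nat.gcd_comm]; exact hc) h1
  exact Nat.ModEq.eq_of_lt_of_lt h2 hp hq

lemma th_comp (M a a' p : ℕ) : th M (a' * a) p = th M a' (th M a p) := by
  unfold th
  rw [Nat.mul_mod_mod, mul_assoc]

lemma card_th {M a x l : ℕ} (hM : 0 < M) (hc : Nat.Coprime a M) (hxl : x + l ≤ M) :
    ((range M).filter fun p => x ≤ th M a p ∧ th M a p < x + l).card = l := by
  have himg : (range M).image (th M a) = range M := by
    apply Finset.eq_of_subset_of_card_le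
    · intro y hy
      rw [mem_image] at hy
      obtain ⟨p, -, rfl⟩ := hy
      exact mem_range.2 (th_lt hM)
    · rw [Finset.card_image_of_injOn]
      intro p hp q hq h
      exact th_inj hc (by simpa using hp) (by simpa using hq) h
  have h1 : ((range M).filter fun p => x ≤ th M a p ∧ th M a p < x + l).image (th M a) =
      Ico x (x + l) := by
    ext y
    simp only [mem_image, mem_filter, mem_range, mem_Ico]
    constructor
    · rintro ⟨p, ⟨_, h1⟩, rfl⟩
      exact h1
    · intro hy
      have h2 : y ∈ (range M).image (th M a) := by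
        rw [himg, mem_range]
        omega
      rw [mem_image] at h2
      obtain ⟨p, hp, rfl⟩ := h2
      exact ⟨p, ⟨mem_range.1 hp, hy⟩, rfl⟩
  have h2 := congrArg Finset.card h1
  rw [Finset.card_image_of_injOn, Nat.card_Ico] at h2
  · omega
  · intro p hp q hq h
    have hp' := mem_range.1 (mem_filter.1 hp).1
    have hq' := mem_range.1 (mem_filter.1 hq).1
    exact th_inj hc hp' hq' h

/-- a star -/
def star (b M a x l : ℕ) : Finset (Fin b) :=
  univ.filter fun p => x ≤ th M a p ∧ th M a p < x + l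

lemma mem_star {b M a x l : ℕ} {p : Fin b} :
    p ∈ star b M a x l ↔ x ≤ th M a p ∧ th M a p < x + l := by
  simp [star]

lemma star_card (b M a x l : ℕ) : (star b M a x l).card =
    ((range b).filter fun p => x ≤ th M a p ∧ th M a p < x + l).card := by
  rw [← Finset.card_map Fin.valEmbedding]
  congr 1
  ext y
  simp only [mem_map, mem_star, mem_filter, mem_range, Fin.valEmbedding_apply]
  constructor
  · rintro ⟨p, hp, rfl⟩
    exact ⟨p.2, hp⟩
  · rintro ⟨hy, hp⟩
    exact ⟨⟨y, hy⟩, hp, rfl⟩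

lemma star_card_le {b M a x l : ℕ} (hM : 0 < M) (hc : Nat.Coprime a M) (hxl : x + l ≤ M)
    (hbM : b ≤ M) : (star b M a x l).card ≤ l := by
  rw [star_card]
  conv_rhs => rw [← card_th hM hc hxl]
  exact card_le_card (filter_subset_filter _ (range_mono hbM))

lemma star_card_ge {b M a x l : ℕ} (hM : 0 < M) (hc : Nat.Coprime a M) (hxl : x + l ≤ M)
    (hMb : M ≤ b + 1) : l ≤ (star b M a x l).card + 1 := by
  rw [star_card]
  conv_lhs => rw [← card_th hM hc hxl]
  refine (card_le_card (?_ : _ ⊆ insert b ((range b).filter fun p =>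
    x ≤ th M a p ∧ th M a p < x + l))).trans (card_insert_le _ _)
  intro p hp
  rw [mem_filter, mem_range] at hp
  rw [mem_insert, mem_filter, mem_range]
  by_cases hpb : p = b
  · exact Or.inl hpb
  · exact Or.inr ⟨by omega, hp.2⟩

lemma card_fib {v z L : ℕ} (hv : 0 < v) (s : Finset ℕ)
    (hs : ∀ q ∈ s, z ≤ v * q ∧ v * q < z + L) : s.card ≤ L / v + 1 := by
  obtain ⟨w, hw⟩ : ∃ w, w = (z + v - 1) / v := ⟨_, rfl⟩
  have hw1 : v * w ≤ z + v - 1 := by rw [hw]; exact Nat.mul_div_le _ _
  have hw2 : z + v - 1 < v * (w + 1) := by rw [hw]; exact Nat.lt_mul_div_succ _ hv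
  have hL : L < v * (L / v + 1) := Nat.lt_mul_div_succ _ hv
  have h1 : s ⊆ Ico w (w + (L / v + 1)) := by
    intro q hq
    obtain ⟨h1, h2⟩ := hs q hq
    rw [mem_Ico]
    constructor
    · by_contra h3
      push Not at h3
      have h4 : v * (q + 1) ≤ v * w := Nat.mul_le_mul_left _ h3
      have h5 : v * (q + 1) = v * q + v := by ring
      omega
    · by_contra h3
      push Not at h3
      have h4 : v * (w + (L / v + 1)) ≤ v * q := Nat.mul_le_mul_left _ h3
      have h5 : v * (w + (L / v + 1)) = v * w + v * (L / v + 1) := by ring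
      have h6 : v * (w + 1) = v * w + v := by ring
      omega
  refine (card_le_card h1).trans (le_of_eq ?_)
  rw [Nat.card_Ico, Nat.add_sub_cancel_left]

lemma card_two {M v x L y L' : ℕ} (hM : 0 < M) (hv : 0 < v) :
    ((Ico x (x + L)).filter fun q => y ≤ th M v q ∧ th M v q < y + L').card ≤
      (L' / v + 1) * (v * L / M + 2) := by
  obtain ⟨s, hs⟩ : ∃ s, s = (Ico x (x + L)).filter fun q => y ≤ th M v q ∧ th M v q < y + L' :=
    ⟨_, rfl⟩
  rw [← hs]
  have h1 := Finset.card_le_mul_card_image (f := fun q => v * q / M) s (L' / v + 1) (by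
    intro t _
    apply card_fib hv (z := M * t + y)
    intro q hq
    rw [mem_filter, hs, mem_filter] at hq
    obtain ⟨⟨_, h2, h3⟩, h4⟩ := hq
    have h := Nat.div_add_mod (v * q) M
    rw [h4] at h
    unfold th at h2 h3
    omega)
  refine h1.trans (Nat.mul_le_mul_left _ ?_)
  have h2 : (s.image fun q => v * q / M) ⊆ Ico (v * x / M) (v * x / M + (v * L / M + 2)) := by
    intro t ht
    rw [mem_image] at ht
    obtain ⟨q, hq, rfl⟩ := ht
    rw [hs, mem_filter, mem_Ico] at hq
    rw [mem_Ico]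
    refine ⟨Nat.div_le_div_right (Nat.mul_le_mul_left _ hq.1.1), ?_⟩
    have h3 : v * q / M ≤ (v * x + v * L) / M := by
      apply Nat.div_le_div_right
      rw [← Nat.mul_add]
      exact Nat.mul_le_mul_left _ hq.1.2.le
    rw [Nat.add_div hM] at h3
    split_ifs at h3 <;> omega
  refine (card_le_card h2).trans (le_of_eq ?_)
  rw [Nat.card_Ico, Nat.add_sub_cancel_left]

/-- two stars of different directions -/
lemma star_inter {b M u d e x l y l' : ℕ} (hM : 0 < M) (hbM : b ≤ M) (hu : 0 < u)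
    (hc : Nat.Coprime (u ^ d) M) :
    (star b M (u ^ d) x l ∩ star b M (u ^ (d + e)) y l').card ≤
      (l' / u ^ e + 1) * (u ^ e * l / M + 2) := by
  refine le_trans ?_ (card_two (M := M) (v := u ^ e) (x := x) (L := l) (y := y) (L' := l') hM
    (pow_pos hu _))
  apply Finset.card_le_card_of_injOn (fun p : Fin b => th M (u ^ d) p)
  · intro p hp
    have hp' : p ∈ star b M (u ^ d) x l ∩ star b M (u ^ (d + e)) y l' := hp
    rw [mem_inter, mem_star, mem_star] at hp'
    rw [add_comm d e, pow_add, th_comp] at hp'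
    simp only [coe_filter, mem_Ico, Set.mem_ofPred_eq]
    exact hp'
  · intro p _ q _ h
    apply Fin.ext
    exact th_inj hc (by have := p.2; omega) (by have := q.2; omega) h

section

variable (h n : ℕ)

/-- lengths -/
def ln (d c : ℕ) : ℕ := h + 1 + 2 * (d * n + c)

/-- left ends -/
def lft (d c : ℕ) : ℕ := ∑ i ∈ range c, ln h n d i

lemma lft_succ (d c : ℕ) : lft h n d (c + 1) = lft h n d c + ln h n d c := by
  unfold lft
  rw [Finset.sum_range_succ]

lemma lft_mono (d : ℕ) : Monotone (lft h n d) :=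
  monotone_nat_of_le_succ fun c => by rw [lft_succ]; exact Nat.le_add_right _ _

lemma le_lft (d c : ℕ) : c * (h + 1) ≤ lft h n d c := by
  induction c with
  | zero => simp
  | succ c ih =>
    rw [lft_succ, Nat.succ_mul]
    unfold ln
    omega

lemma lft_uniq {d c c' z : ℕ} (h1 : lft h n d c ≤ z) (h2 : z < lft h n d c + ln h n d c)
    (h3 : lft h n d c' ≤ z) (h4 : z < lft h n d c' + ln h n d c') : c = c' := by
  rw [← lft_succ] at h2 h4
  rcases Nat.lt_trichotomy c c' with h5 | h5 | h5
  · have := lft_mono h n d (show c + 1 ≤ c' by omega)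
    omega
  · exact h5
  · have := lft_mono h n d (show c' + 1 ≤ c by omega)
    omega

lemma lft_cover (d : ℕ) {m z : ℕ} (hz : z < lft h n d m) :
    ∃ c < m, lft h n d c ≤ z ∧ z < lft h n d c + ln h n d c := by
  induction m with
  | zero => simp [lft] at hz
  | succ m ih =>
    by_cases h1 : z < lft h n d m
    · obtain ⟨c, hc, h2⟩ := ih h1
      exact ⟨c, by omega, h2⟩
    · push Not at h1
      rw [lft_succ] at hz
      exact ⟨m, by omega, h1, hz⟩

lemma exists_num {M : ℕ} (hM : M < (n + 1) * (h + 1)) (d : ℕ) :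
    ∃ m ≤ n, lft h n d m ≤ M ∧ M < lft h n d (m + 1) := by
  have h1 : M < lft h n d (n + 1) := lt_of_lt_of_le hM (le_lft h n d (n + 1))
  have h0 : lft h n d 0 ≤ M := by simp [lft]
  by_contra hcon
  push Not at hcon
  have h2 : ∀ m ≤ n + 1, lft h n d m ≤ M := by
    intro m
    induction m with
    | zero => intro _; exact h0
    | succ m ih =>
      intro hm
      exact hcon m (by omega) (ih (by omega))
  have := h2 (n + 1) le_rfl
  omega

end

/-- numbers -/
lemma nums {b h j g M n : ℕ} (hj : 2 ≤ j) (h2 : 64 * 2 ^ (g * (j - 1)) ≤ b)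
    (h4 : 64 * h ≤ b) (h5 : 100 * j * b ≤ h ^ 2) (hMb : M ≤ b + 1)
    (hn : n * h ≤ M) : 12800 ≤ h ∧ 10 + 20 * (j * n) ≤ h := by
  have hpos : 0 < 2 ^ (g * (j - 1)) := by positivity
  have hb : 64 ≤ b := by omega
  have hh0 : 0 < h := by
    rcases Nat.eq_zero_or_pos h with h0 | h0
    · subst h0
      have : 0 < 100 * j * b := by positivity
      simp at h5
      omega
    · exact h0
  have hjb : 2 * b ≤ j * b := Nat.mul_le_mul_right _ hj
  have h6 : 100 * (j * b) ≤ h * h := by
    calc 100 * (j * b) = 100 * j * b := by ring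
      _ ≤ h ^ 2 := h5
      _ = h * h := by ring
  constructor
  · have h7 : 12800 * h ≤ h * h := by omega
    exact Nat.le_of_mul_le_mul_right h7 hh0
  · have h8 : j * (n * h) ≤ j * (b + 1) := Nat.mul_le_mul_left _ (hn.trans hMb)
    have h9 : j * (b + 1) ≤ 2 * (j * b) := by
      have : j * (b + 1) = j * b + j := by ring
      have h10 : j * 1 ≤ j * b := Nat.mul_le_mul_left _ (by omega)
      omega
    have h11 : (10 + 20 * (j * n)) * h = 10 * h + 20 * (j * (n * h)) := by ring
    have h12 : (10 + 20 * (j * n)) * h ≤ h * h := by omega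
    exact Nat.le_of_mul_le_mul_right h12 hh0

lemma inter_num {h M v l l' : ℕ} (hh : 12800 ≤ h) (hM : 64 * h ≤ M) (hv : 64 ≤ v)
    (hvM : 64 * v ≤ M) (hl : 10 * l ≤ 11 * h) (hl' : 10 * l' ≤ 11 * h) :
    10 * ((l' / v + 1) * (v * l / M + 2)) ≤ h := by
  have hv0 : 0 < v := by omega
  have hM0 : 0 < M := by omega
  obtain ⟨B, hB⟩ : ∃ B, B = l' / v := ⟨_, rfl⟩
  obtain ⟨A, hA⟩ : ∃ A, A = v * l / M := ⟨_, rfl⟩
  have hB1 : v * B ≤ l' := by rw [hB]; exact Nat.mul_div_le _ _
  have hA1 : M * A ≤ v * l := by rw [hA]; exact Nat.mul_div_le _ _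
  rw [← hA, ← hB]
  have hB2 : 64 * B ≤ l' := (Nat.mul_le_mul_right _ hv).trans hB1
  have hA2 : 64 * A ≤ l := by
    have h1 : v * (64 * A) ≤ v * l := by
      calc v * (64 * A) = 64 * v * A := by ring
        _ ≤ M * A := Nat.mul_le_mul_right _ hvM
        _ ≤ v * l := hA1
    exact Nat.le_of_mul_le_mul_left h1 hv0
  have hAB : M * (A * B) ≤ l * l' := by
    have h1 : v * (M * (A * B)) ≤ v * (l * l') := by
      calc v * (M * (A * B)) = (M * A) * (v * B) := by ring
        _ ≤ (v * l) * l' := Nat.mul_le_mul hA1 hB1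
        _ = v * (l * l') := by ring
    exact Nat.le_of_mul_le_mul_left h1 hv0
  have hAB2 : 6400 * (A * B) ≤ 121 * h := by
    have e1 : 64 * h * (A * B) ≤ l * l' := (Nat.mul_le_mul_right _ hM).trans hAB
    have e2 : (10 * l) * (10 * l') ≤ (11 * h) * (11 * h) := Nat.mul_le_mul hl hl'
    have e3 : h * (6400 * (A * B)) ≤ h * (121 * h) := by
      calc h * (6400 * (A * B)) = 100 * (64 * h * (A * B)) := by ring
        _ ≤ 100 * (l * l') := Nat.mul_le_mul_left _ e1
        _ = (10 * l) * (10 * l') := by ring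
        _ ≤ (11 * h) * (11 * h) := e2
        _ = h * (121 * h) := by ring
    exact Nat.le_of_mul_le_mul_left e3 (by omega)
  have h1 : 10 * ((B + 1) * (A + 2)) = 10 * (A * B) + 20 * B + 10 * A + 20 := by ring
  rw [h1]
  omega

/-- **[S6-STR]** -/
theorem str_stmt : StrStmt := by
  intro b h j g hj hg h1 h2 h3 h4 h5
  obtain ⟨M, hMdef⟩ : ∃ M, M = 2 * (b / 2) + 1 := ⟨_, rfl⟩
  have hbM : b ≤ M := by omega
  have hMb : M ≤ b + 1 := by omega
  have hM0 : 0 < M := by omega
  obtain ⟨n, hn⟩ : ∃ n, n = M / h := ⟨_, rfl⟩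
  have hnh : n * h ≤ M := by rw [hn]; exact Nat.div_mul_le_self _ _
  obtain ⟨hh, hjn⟩ := nums hj h2 h4 h5 hMb hnh
  have hh0 : 0 < h := by omega
  have hn1 : 1 ≤ n := by
    rw [hn]
    exact (Nat.one_le_div_iff hh0).2 (by omega)
  have hMn : M < (n + 1) * (h + 1) := by
    have e1 : M < h * (n + 1) := by rw [hn]; exact Nat.lt_mul_div_succ _ hh0
    have e2 : (n + 1) * (h + 1) = h * (n + 1) + (n + 1) := by ring
    omega
  obtain ⟨u, hu⟩ : ∃ u, u = 2 ^ g := ⟨_, rfl⟩
  have hu64 : 64 ≤ u := by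
    rw [hu]
    calc 64 = 2 ^ 6 := by norm_num
      _ ≤ 2 ^ g := Nat.pow_le_pow_right (by norm_num) hg
  have hu0 : 0 < u := by omega
  have huj : 2 ^ (g * (j - 1)) = u ^ (j - 1) := by rw [hu, ← pow_mul]
  rw [huj] at h1 h2
  rw [← hu] at h3
  have hcop : ∀ d, Nat.Coprime (u ^ d) M := by
    intro d
    apply Nat.Coprime.pow_left
    rw [hu]
    apply Nat.Coprime.pow_left
    rw [hMdef, Nat.coprime_comm]
    simp
  choose nn hnn1 hnn2 hnn3 using exists_num h n hMn
  have hln : ∀ d c, d < j → c ≤ n → 10 * ln h n d c ≤ 11 * h := by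
    intro d c hd hc
    have e1 : (d + 1) * n ≤ j * n := Nat.mul_le_mul_right _ hd
    have e2 : (d + 1) * n = d * n + n := by ring
    unfold ln
    omega
  have hend : ∀ d c, c < nn d → lft h n d c + ln h n d c ≤ M := by
    intro d c hc
    rw [← lft_succ]
    exact (lft_mono h n d (by omega)).trans (hnn2 d)
  let I := Σ d : Fin j, Fin (nn d)
  let e : Fin (Fintype.card I) ≃ I := (Fintype.equivFin I).symm
  let ST : I → Finset (Fin b) := fun x =>
    star b M (u ^ (x.1 : ℕ)) (lft h n x.1 x.2) (ln h n x.1 x.2)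
  have hcard : Fintype.card I = ∑ d : Fin j, nn d := by
    simp [I, Fintype.card_sigma]
  have hle : ∀ x : I, (ST x).card ≤ ln h n x.1 x.2 := fun x =>
    star_card_le hM0 (hcop _) (hend _ _ x.2.2) hbM
  have hge : ∀ x : I, ln h n x.1 x.2 ≤ (ST x).card + 1 := fun x =>
    star_card_ge hM0 (hcop _) (hend _ _ x.2.2) hMb
  have hcn : ∀ x : I, (x.2 : ℕ) < n := fun x => lt_of_lt_of_le x.2.2 (hnn1 _)
  have hext : ∀ x y : I, (x.1 : ℕ) = y.1 → (x.2 : ℕ) = y.2 → x = y := by
    rintro ⟨d, c⟩ ⟨d', c'⟩ h1 h2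
    simp only at h1 h2
    have h3 : d = d' := Fin.ext h1
    subst h3
    have h4 : c = c' := Fin.ext h2
    subst h4
    rfl
  have hsame : ∀ x y : I, (x.1 : ℕ) = y.1 → ∀ p, p ∈ ST x → p ∈ ST y → x = y := by
    rintro ⟨d, c⟩ ⟨d', c'⟩ hxy p hp hq
    simp only at hxy
    have h6 : d = d' := Fin.ext hxy
    subst h6
    simp only [ST, mem_star] at hp hq
    exact hext _ _ rfl (lft_uniq h n hp.1 hp.2 hq.1 hq.2)
  have hinj : ∀ x y : I, (ST x).card = (ST y).card → x = y := by
    intro x y hxy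
    have e1 := hle x
    have e2 := hle y
    have e3 := hge x
    have e4 := hge y
    unfold ln at e1 e2 e3 e4
    have e5 : (x.1 : ℕ) * n + x.2 = y.1 * n + y.2 := by omega
    have e6 : (x.1 : ℕ) = y.1 := by
      have e7 : ((x.1 : ℕ) * n + x.2) / n = x.1 := by
        rw [mul_comm, Nat.mul_add_div (by omega), Nat.div_eq_of_lt (hcn x), add_zero]
      have e8 : ((y.1 : ℕ) * n + y.2) / n = y.1 := by
        rw [mul_comm, Nat.mul_add_div (by omega), Nat.div_eq_of_lt (hcn y), add_zero]
      rw [← e7, ← e8, e5]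
    refine hext x y e6 ?_
    have e9 : (x.1 : ℕ) * n = y.1 * n := congrArg (· * n) e6
    omega
  have hlt : ∀ x y : I, (x.1 : ℕ) < y.1 → 10 * (ST x ∩ ST y).card ≤ h := by
    intro x y hxy
    have hx := x.1.2
    have hy := y.1.2
    obtain ⟨e, he⟩ : ∃ e, (y.1 : ℕ) = x.1 + e := ⟨y.1 - x.1, by omega⟩
    have e1 : (ST x ∩ ST y).card ≤ (ln h n y.1 y.2 / u ^ e + 1) *
        (u ^ e * ln h n x.1 x.2 / M + 2) := by
      simp only [ST]
      have := star_inter (b := b) (M := M) (u := u) (d := x.1) (e := e) (x := lft h n x.1 x.2)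
        (l := ln h n x.1 x.2) (y := lft h n y.1 y.2) (l' := ln h n y.1 y.2) hM0 hbM hu0 (hcop _)
      rwa [← he] at this
    refine (Nat.mul_le_mul_left 10 e1).trans ?_
    apply inter_num hh (by omega)
    · calc 64 ≤ u := hu64
        _ = u ^ 1 := (pow_one u).symm
        _ ≤ u ^ e := Nat.pow_le_pow_right hu0 (by omega)
    · calc 64 * u ^ e ≤ 64 * u ^ (j - 1) :=
            Nat.mul_le_mul_left _ (Nat.pow_le_pow_right hu0 (by omega))
        _ ≤ b := h2
        _ ≤ M := hbM
    · exact hln _ _ hx (hcn x).le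
    · exact hln _ _ hy (hcn y).le
  have hdis : ∀ x y : I, x ≠ y → 10 * (ST x ∩ ST y).card ≤ h := by
    intro x y hxy
    rcases Nat.lt_trichotomy (x.1 : ℕ) y.1 with h6 | h6 | h6
    · exact hlt x y h6
    · have h7 : ST x ∩ ST y = ∅ := by
        rw [Finset.eq_empty_iff_forall_notMem]
        intro p hp
        rw [mem_inter] at hp
        exact hxy (hsame x y h6 p hp.1 hp.2)
      rw [h7]
      simp
    · rw [inter_comm]
      exact hlt y x h6
  have hsep : ∀ p q : Fin b, (∀ x : I, p ∈ ST x ↔ q ∈ ST x) → p = q := by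
    intro p q hpq
    obtain ⟨δ, hδ⟩ : ∃ δ : ℕ → ℤ, ∀ d, δ d = (th M (u ^ d) p : ℤ) - th M (u ^ d) q :=
      ⟨_, fun _ => rfl⟩
    have hb1 : ∀ d < j, 10 * |δ d| ≤ 11 * h := by
      intro d hd
      have hcase : ∃ c ≤ n, lft h n d c ≤ th M (u ^ d) p ∧
          th M (u ^ d) p < lft h n d c + ln h n d c ∧ lft h n d c ≤ th M (u ^ d) q ∧
          th M (u ^ d) q < lft h n d c + ln h n d c := by
        by_cases hp : th M (u ^ d) p < lft h n d (nn d)
        · obtain ⟨c, hc, hc1, hc2⟩ := lft_cover h n d hp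
          have h6 : p ∈ ST ⟨⟨d, hd⟩, ⟨c, hc⟩⟩ := by
            simp only [ST, mem_star]
            exact ⟨hc1, hc2⟩
          rw [hpq] at h6
          simp only [ST, mem_star] at h6
          exact ⟨c, (hc.trans_le (hnn1 d)).le, hc1, hc2, h6.1, h6.2⟩
        · by_cases hq : th M (u ^ d) q < lft h n d (nn d)
          · obtain ⟨c, hc, hc1, hc2⟩ := lft_cover h n d hq
            have h6 : q ∈ ST ⟨⟨d, hd⟩, ⟨c, hc⟩⟩ := by
              simp only [ST, mem_star]
              exact ⟨hc1, hc2⟩
            rw [← hpq] at h6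
            simp only [ST, mem_star] at h6
            exact ⟨c, (hc.trans_le (hnn1 d)).le, h6.1, h6.2, hc1, hc2⟩
          · push Not at hp hq
            refine ⟨nn d, hnn1 d, hp, ?_, hq, ?_⟩
            · rw [← lft_succ]
              exact (th_lt hM0).trans (hnn3 d)
            · rw [← lft_succ]
              exact (th_lt hM0).trans (hnn3 d)
      obtain ⟨c, hc, e1, e2, e3, e4⟩ := hcase
      have e5 := hln d c hd hc
      rw [hδ]
      have e6 : |(th M (u ^ d) p : ℤ) - th M (u ^ d) q| ≤ ln h n d c := by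
        rw [abs_le]
        constructor <;> omega
      have e7 : (10 : ℤ) * ln h n d c ≤ 11 * h := by exact_mod_cast e5
      linarith
    have hb2 : ∀ d, d + 1 < j → δ (d + 1) = u * δ d := by
      intro d hd
      have e1 := hb1 d (by omega)
      have e2 := hb1 (d + 1) hd
      have e3 : (M : ℤ) ∣ δ (d + 1) - u * δ d := by
        have e4 : ∀ r : ℕ, (M : ℤ) ∣ (th M (u ^ (d + 1)) r : ℤ) - u * th M (u ^ d) r := by
          intro r
          rw [pow_succ, mul_comm, th_comp]
          unfold th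
          push_cast
          exact ⟨-((u : ℤ) * ((u : ℤ) ^ d * r % M) / M), by rw [Int.emod_def]; ring⟩
        have e5 := dvd_sub (e4 p) (e4 q)
        rw [hδ, hδ]
        have e6 : ((th M (u ^ (d + 1)) p : ℤ) - u * th M (u ^ d) p) -
            ((th M (u ^ (d + 1)) q : ℤ) - u * th M (u ^ d) q) =
            ((th M (u ^ (d + 1)) p : ℤ) - th M (u ^ (d + 1)) q) -
              u * ((th M (u ^ d) p : ℤ) - th M (u ^ d) q) := by ring
        rwa [e6] at e5
      have e7 : |δ (d + 1) - u * δ d| < M := by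
        have e8 : |δ (d + 1) - u * δ d| ≤ |δ (d + 1)| + u * |δ d| := by
          have := abs_sub (δ (d + 1)) (u * δ d)
          rwa [abs_mul, Nat.abs_cast] at this
        have e9 : (u : ℤ) * (10 * |δ d|) ≤ u * (11 * h) :=
          mul_le_mul_of_nonneg_left e1 (Nat.cast_nonneg _)
        have e10 : (4 : ℤ) * u * h ≤ M := by
          have : 4 * u * h ≤ M := h3.trans hbM
          exact_mod_cast this
        have e11 : (64 : ℤ) * h ≤ u * h := by
          have : 64 * h ≤ u * h := Nat.mul_le_mul_right _ hu64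
          exact_mod_cast this
        have e12 : (0 : ℤ) < h := by exact_mod_cast hh0
        nlinarith
      have e13 := Int.eq_zero_of_abs_lt_dvd e3 e7
      linarith
    have hb3 : ∀ d < j, δ d = u ^ d * δ 0 := by
      intro d
      induction d with
      | zero => intro _; simp
      | succ d ih =>
        intro hd
        rw [hb2 d hd, ih (by omega)]
        ring
    have hb4 := hb3 (j - 1) (by omega)
    have hb5 := hb1 (j - 1) (by omega)
    have hzero : δ 0 = 0 := by
      by_contra hne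
      have e1 : 1 ≤ |δ 0| := Int.one_le_abs hne
      rw [hb4, abs_mul, abs_pow, Nat.abs_cast] at hb5
      have e2 : (2 : ℤ) * h ≤ u ^ (j - 1) := by exact_mod_cast h1
      have e3 : (0 : ℤ) < h := by exact_mod_cast hh0
      have e4 : (u : ℤ) ^ (j - 1) * 1 ≤ u ^ (j - 1) * |δ 0| :=
        mul_le_mul_of_nonneg_left e1 (by positivity)
      linarith
    rw [hδ] at hzero
    simp only [pow_zero] at hzero
    have e1 : th M 1 p = th M 1 q := by
      have : (th M 1 p : ℤ) = th M 1 q := by linarith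
      exact_mod_cast this
    have hp := p.2
    have hq := q.2
    exact Fin.ext (th_inj (Nat.coprime_one_left M) (by omega) (by omega) e1)
  refine ⟨Fintype.card I, ?_, ?_, ⟨⟨fun i => ST (e i), ?_, ?_, ?_, ?_, ?_, ?_⟩⟩⟩
  · rw [Fintype.card_pos_iff]
    have hn0 : 0 < nn 0 := by
      by_contra h6
      have h7 : nn 0 = 0 := by omega
      have h8 := hnn3 0
      rw [h7, lft_succ] at h8
      unfold ln lft at h8
      simp at h8
      omega
    exact ⟨⟨⟨0, by omega⟩, ⟨0, hn0⟩⟩⟩
  · rw [hcard, Finset.sum_mul]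
    calc ∑ d : Fin j, nn d * h ≤ ∑ _d : Fin j, (b + 1) := by
          refine Finset.sum_le_sum fun d _ => ?_
          calc nn d * h ≤ nn d * (h + 1) := Nat.mul_le_mul_left _ (by omega)
            _ ≤ lft h n d (nn d) := le_lft h n d _
            _ ≤ M := hnn2 d
            _ ≤ b + 1 := hMb
      _ = j * (b + 1) := by simp
  · intro i i' hii
    exact e.injective (hinj _ _ hii)
  · intro i
    have := hge (e i)
    unfold ln at this
    omega
  · intro i
    exact (Nat.mul_le_mul_left 10 (hle (e i))).trans (hln _ _ (e i).1.2 (hcn (e i)).le)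
  · intro i i' hii
    exact hdis _ _ fun h6 => hii (e.injective h6)
  · intro p
    have h6 : (univ.filter fun i => p ∈ ST (e i)).card ≤ (univ : Finset (Fin j)).card := by
      apply Finset.card_le_card_of_injOn (fun i => (e i).1)
      · intro i _
        simp
      · intro i hi i' hi' h7
        have hi1 : p ∈ ST (e i) := (mem_filter.1 hi).2
        have hi2 : p ∈ ST (e i') := (mem_filter.1 hi').2
        exact e.injective (hsame _ _ (by simp only at h7; rw [h7]) p hi1 hi2)
    simpa using h6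
  · intro p q hpq
    apply hsep
    intro x
    have := hpq (e.symm x)
    simpa using this

end Vale.Agent.P181.H699.Str6
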