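import Vale.Agent.P181.H699.Glue7
import Vale.Agent.P181.T6.Spec

set_option autoImplicit false

/-!
# P181, T6: a family bounds the multiplicity
-/

open scoped Classical

namespace Vale.Agent.P181.H699

open Vale.Agent.P181.T6

theorem use6 : UseStmt := by
  rintro k b n P lam ⟨C, ι, _, _, len, hlen, J, hrows, hdeg, hli, hP⟩
  exact hP.trans (plethMult_ge_fill (fun _ : ι => C) (fun _ => len) (fun _ => hlen) J
    (fun _ => hrows) hdeg hli)

end Vale.Agent.P181.H699
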