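import Vale.Agent.P181.T9.Spec
import Vale.Agent.P181.H503.CaseII

set_option autoImplicit false

/-!
# P181, T9 = (C): the case assembly, finite part (levels, all numbers, comparison)
-/

namespace Vale.Agent.P181.H699.CC

open Finset
open Vale.Agent.P181.T4 Vale.Agent.P181.T7 Vale.Agent.P181.T9 Vale.Agent.P181.H280
open Vale.Agent.P181.H463

/-- greedy choice: the last argument of the maximum of `g` on `(R - 1 - d, R]`, downwards -/
def rr (g : ℕ → ℕ) (R : ℕ) : ℕ → ℕ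
  | 0 => R
  | d + 1 => if g (rr g R d) ≤ g (R - 1 - d) then R - 1 - d else rr g R d

lemma rr_spec (g : ℕ → ℕ) (R d : ℕ) (hd : d < R) :
    R - 1 - d < rr g R d ∧ rr g R d ≤ R ∧
      ∀ j, R - 1 - d < j → j ≤ R → g j ≤ g (rr g R d) := by
  induction d with
  | zero =>
    unfold rr
    refine ⟨by omega, le_rfl, fun j h1 h2 => ?_⟩
    have : j = R := by omega
    rw [this]
  | succ d ih =>
    obtain ⟨h1, h2, h3⟩ := ih (by omega)
    unfold rr
    split_ifs with hc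
    · refine ⟨by omega, by omega, fun j h4 h5 => ?_⟩
      by_cases hj : R - 1 - d < j
      · exact (h3 j hj h5).trans hc
      · have : j = R - 1 - d := by omega
        rw [this]
    · refine ⟨by omega, h2, fun j h4 h5 => ?_⟩
      by_cases hj : R - 1 - d < j
      · exact h3 j hj h5
      · have : j = R - 1 - d := by omega
        rw [this]
        omega

/-- the levels -/
theorem exists_levels (g : ℕ → ℕ) {R l : ℕ} (h2 : 2 ≤ l)
    (hmax : ∀ j, 2 ≤ j → j ≤ R → g j ≤ g l) :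
    ∃ rho : ℕ → ℕ, (∀ i < l, rho i = l) ∧ (∀ i, l ≤ i → i < R → i < rho i ∧ rho i ≤ R) ∧
      (∀ i, i + 1 < R → rho i = i + 1 ∨ rho i = rho (i + 1)) ∧
      (∀ i, 1 ≤ i → i < R → ∀ j, i < j → j ≤ R → g j ≤ g (rho i)) := by
  have key : ∀ i, l ≤ i → i < R → (if i < l then l else rr g R (R - 1 - i)) =
      rr g R (R - 1 - i) := by
    intro i h1 _
    rw [if_neg (by omega)]
  refine ⟨fun i => if i < l then l else rr g R (R - 1 - i), fun i hi => if_pos hi, ?_, ?_, ?_⟩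
  · intro i h1 h3
    simp only [key i h1 h3]
    have h4 := rr_spec g R (R - 1 - i) (by omega)
    exact ⟨by omega, h4.2.1⟩
  · intro i hi
    simp only
    by_cases h1 : i + 1 < l
    · right
      rw [if_pos (by omega), if_pos h1]
    · by_cases h3 : i < l
      · left
        rw [if_pos h3]
        omega
      · rw [if_neg h3, if_neg h1]
        obtain ⟨d, hd⟩ : ∃ d, R - 1 - i = d + 1 := ⟨R - 1 - i - 1, by omega⟩
        have hd' : R - 1 - (i + 1) = d := by omega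
        rw [hd, hd']
        have e1 : rr g R (d + 1) = if g (rr g R d) ≤ g (R - 1 - d) then R - 1 - d else rr g R d :=
          rfl
        rw [e1]
        split_ifs
        · left; omega
        · right; rfl
  · intro i h1 h3 j h4 h5
    simp only
    by_cases h6 : i < l
    · rw [if_pos h6]
      exact hmax j (by omega) h5
    · rw [if_neg h6]
      have h7 := rr_spec g R (R - 1 - i) (by omega)
      exact h7.2.2 j (by omega) h5

lemma tel_le (ν f : ℕ → ℕ) (c R : ℕ) (i : ℕ) (hi : i ≤ R)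
    (h : ∀ j, i < j → j ≤ R → ν (j - 1) ≤ ν j + f j + c) :
    ν i ≤ ν R + (∑ j ∈ Ioc i R, f j + c * (R - i)) := by
  obtain ⟨d, rfl⟩ := Nat.exists_eq_add_of_le hi
  clear hi
  induction d with
  | zero => simp
  | succ d ih =>
    have h1 := ih fun j h2 h3 => h j h2 (by omega)
    have h2 := h (i + d + 1) (by omega) (by omega)
    have e1 : i + (d + 1) = i + d + 1 := by ring
    rw [e1, Finset.sum_Ioc_succ_top (by omega)]
    have e2 : i + d + 1 - 1 = i + d := by omega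
    rw [e2] at h2
    have e3 : i + d - i = d := by omega
    have e4 : i + d + 1 - i = d + 1 := by omega
    rw [e3] at h1
    rw [e4, Nat.mul_add, Nat.mul_one]
    omega

/-- the prescribed numbers of columns -/
def ee (l R N A C : ℕ) (rho h : ℕ → ℕ) (j : ℕ) : ℕ :=
  (if j = l then A else 0) + (if j ∈ Ioc l R then T9.mk R l N rho h j else 0) +
    (if j = R then C else 0)

lemma sum_mk {R l N : ℕ} {rho h : ℕ → ℕ} (hrho : ∀ i, l ≤ i → i < R → i < rho i ∧ rho i ≤ R) :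
    ∑ j ∈ Ioc l R, T9.mk R l N rho h j = N * (4 * ∑ i ∈ Ico l R, h i + (R - l)) := by
  unfold T9.mk
  rw [Finset.sum_fiberwise_of_maps_to (s := Ico l R) (t := Ioc l R) (g := rho)
    (f := fun i => N * (4 * h i + 1))]
  · rw [← Finset.mul_sum, Finset.sum_add_distrib, ← Finset.mul_sum, Finset.sum_const,
      Nat.card_Ico, smul_eq_mul, Nat.mul_one]
  · intro i hi
    rw [mem_Ico] at hi
    rw [mem_Ioc]
    have := hrho i hi.1 hi.2
    omega

lemma sum_ee {l R R0 N A C : ℕ} {rho h : ℕ → ℕ} (hl : 1 ≤ l) (hlR : l < R) (hR : R ≤ R0)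
    (hrho : ∀ i, l ≤ i → i < R → i < rho i ∧ rho i ≤ R) :
    ∑ j ∈ Icc 1 R0, ee l R N A C rho h j =
      A + N * (4 * ∑ i ∈ Ico l R, h i + (R - l)) + C := by
  unfold ee
  rw [Finset.sum_add_distrib, Finset.sum_add_distrib, Finset.sum_ite_eq', Finset.sum_ite_eq',
    if_pos (by rw [mem_Icc]; omega), if_pos (by rw [mem_Icc]; omega), ← Finset.sum_filter]
  have e1 : (Icc 1 R0).filter (fun j => j ∈ Ioc l R) = Ioc l R := by
    ext j
    simp only [mem_filter, mem_Icc, mem_Ioc]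
    omega
  rw [e1, sum_mk hrho]

lemma mk_le {R l N : ℕ} {rho h g : ℕ → ℕ} (j : ℕ) (hc : 1 ≤ R)
    (hh : ∀ i, l ≤ i → i < R → rho i = j → 16 * R * N * h i ≤ g j) :
    4 * T9.mk R l N rho h j ≤ g j + 4 * (R * N) := by
  have h1 : ∑ i ∈ (Ico l R).filter (fun i => rho i = j), 16 * R * N * h i ≤ R * g j := by
    refine (Finset.sum_le_card_nsmul _ _ (g j) ?_).trans ?_
    · intro i hi
      rw [mem_filter, mem_Ico] at hi
      exact hh i hi.1.1 hi.1.2 hi.2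
    · rw [smul_eq_mul]
      refine Nat.mul_le_mul_right _ ((card_filter_le _ _).trans ?_)
      rw [Nat.card_Ico]
      omega
  have h2 : 16 * N * ∑ i ∈ (Ico l R).filter (fun i => rho i = j), h i ≤ g j := by
    rw [← Finset.mul_sum] at h1
    have e1 : 16 * R * N * ∑ i ∈ (Ico l R).filter (fun i => rho i = j), h i =
        R * (16 * N * ∑ i ∈ (Ico l R).filter (fun i => rho i = j), h i) := by ring
    rw [e1] at h1
    exact Nat.le_of_mul_le_mul_left h1 (by omega)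
  have h3 : T9.mk R l N rho h j = 4 * N * (∑ i ∈ (Ico l R).filter (fun i => rho i = j), h i) +
      ((Ico l R).filter (fun i => rho i = j)).card * N := by
    unfold T9.mk
    rw [← Finset.mul_sum, Finset.sum_add_distrib, ← Finset.mul_sum, Finset.sum_const, smul_eq_mul]
    ring
  have h4 : ((Ico l R).filter (fun i => rho i = j)).card * N ≤ R * N := by
    refine Nat.mul_le_mul_right _ ((card_filter_le _ _).trans ?_)
    rw [Nat.card_Ico]
    omega
  rw [h3]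
  have h5 : 4 * (4 * N * (∑ i ∈ (Ico l R).filter (fun i => rho i = j), h i) +
      ((Ico l R).filter (fun i => rho i = j)).card * N) =
      16 * N * ∑ i ∈ (Ico l R).filter (fun i => rho i = j), h i +
        4 * (((Ico l R).filter (fun i => rho i = j)).card * N) := by ring
  rw [h5]
  omega

section numbers

variable {a R0 R1 l k0 k N Sh D M0 : ℕ}

lemma n_budget (h3 : 2000 * R0 ^ 3 ≤ k0) (hR : 3 ≤ R0) (hR1 : R1 ≤ R0)
    (hSh : 256 * Sh ≤ k0) (h5 : a * (R0 + 1) ≤ N) (h6 : 8 * (R0 * M0 + 2 * a * R0 ^ 2 + D) ≤ N * k0) :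
    20 * N * (k0 + 2 * R0) + N * (4 * Sh + (R1 - l)) + 46 * R1 * N + 2 * a * R0 + M0 ≤
      21 * (N * k0) ∧ N * (4 * Sh + (R1 - l)) + 46 * R1 * N + 2 * a * R0 + M0 ≤ 20 * (N * k0) := by
  have e0 : R0 ≤ R0 ^ 3 := by
    calc R0 = R0 ^ 1 := (pow_one _).symm
      _ ≤ R0 ^ 3 := Nat.pow_le_pow_right (by omega) (by norm_num)
  have e1 : 2000 * (N * R0) ≤ N * k0 := by
    calc 2000 * (N * R0) = N * (2000 * R0) := by ring
      _ ≤ N * k0 := Nat.mul_le_mul_left _ (by omega)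
  have e2 : N * (R1 - l) ≤ N * R0 := Nat.mul_le_mul_left _ (by omega)
  have e3 : 64 * (N * (4 * Sh)) ≤ N * k0 := by
    calc 64 * (N * (4 * Sh)) = N * (256 * Sh) := by ring
      _ ≤ N * k0 := Nat.mul_le_mul_left _ hSh
  have e4 : R1 * N ≤ N * R0 := by
    rw [Nat.mul_comm R1 N]
    exact Nat.mul_le_mul_left _ hR1
  have e5 : a * R0 ≤ N := by
    have : a * (R0 + 1) = a * R0 + a := by ring
    omega
  have e6 : M0 ≤ R0 * M0 := Nat.le_mul_of_pos_left _ (by omega)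
  have e7 : N * 1 ≤ N * R0 := Nat.mul_le_mul_left _ (by omega)
  have f1 : 20 * N * (k0 + 2 * R0) = 20 * (N * k0) + 40 * (N * R0) := by ring
  have f2 : N * (4 * Sh + (R1 - l)) = N * (4 * Sh) + N * (R1 - l) := by ring
  have f3 : 46 * R1 * N = 46 * (R1 * N) := by ring
  have f4 : 2 * a * R0 = 2 * (a * R0) := by ring
  have f5 : 8 * (R0 * M0 + 2 * a * R0 ^ 2 + D) = 8 * (R0 * M0) + 16 * (a * R0 ^ 2) + 8 * D := by
    ring
  rw [f1, f2, f3, f4]
  rw [f5] at h6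
  constructor <;> omega

end numbers


section pieces

variable {R0 R1 l m k0 k N : ℕ} {g rho h : ℕ → ℕ}

lemma digit_sum {Sh : ℕ} (hR1 : 0 < R1) (hSh : Sh = ∑ i ∈ Ico l R1, h i)
    (hh2 : ∀ i, 256 * R1 ^ 2 * h i ≤ k0) : 256 * R1 * Sh ≤ k0 := by
  have e1 : ∑ i ∈ Ico l R1, 256 * R1 ^ 2 * h i ≤ R1 * k0 := by
    refine (Finset.sum_le_card_nsmul _ _ k0 fun i _ => hh2 i).trans ?_
    rw [smul_eq_mul, Nat.card_Ico]
    exact Nat.mul_le_mul_right _ (by omega)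
  rw [← Finset.mul_sum, ← hSh] at e1
  have e2 : 256 * R1 ^ 2 * Sh = R1 * (256 * R1 * Sh) := by ring
  rw [e2] at e1
  exact Nat.le_of_mul_le_mul_left e1 hR1

lemma hmk_lemma {C : ℕ} (hR1 : 1 ≤ R1) (hC : C = 46 * (R1 * N)) (hR0N : 300 * (R1 * N) ≤ g R1)
    (hh1 : ∀ i, 16 * R1 * N * h i ≤ g (rho i)) (hl : 1 ≤ l)
    (hgR1 : ∀ i, 1 ≤ i → i < R1 → g R1 ≤ g (rho i)) (j : ℕ) :
    T9.mk R1 l N rho h j + (if j = R1 then C else 0) ≤ g j := by
  have f1 := mk_le (R := R1) (l := l) (N := N) (rho := rho) (h := h) (g := g) j hR1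
    (fun i g1 g2 g3 => by rw [← g3]; exact hh1 i)
  by_cases hne : ∃ i, l ≤ i ∧ i < R1 ∧ rho i = j
  · obtain ⟨i, g1, g2, g3⟩ := hne
    have f2 := hgR1 i (by omega) g2
    rw [g3] at f2
    split_ifs with g4
    · omega
    · omega
  · have f3 : T9.mk R1 l N rho h j = 0 := by
      unfold T9.mk
      rw [Finset.filter_eq_empty_iff.2, Finset.sum_empty]
      intro i hi g3
      rw [mem_Ico] at hi
      exact hne ⟨i, hi.1, hi.2, g3⟩
    rw [f3]
    split_ifs with g4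
    · rw [g4]
      omega
    · omega

lemma ee_le {A C : ℕ} (hlR : l < R1) (hA : A ≤ g l)
    (hmk : ∀ j, T9.mk R1 l N rho h j + (if j = R1 then C else 0) ≤ g j) (j : ℕ) :
    ee l R1 N A C rho h j ≤ g j := by
  unfold ee
  by_cases g1 : j = l
  · subst g1
    rw [if_pos rfl, if_neg (by rw [mem_Ioc]; omega), if_neg (by omega)]
    omega
  · rw [if_neg g1]
    by_cases g2 : j ∈ Ioc l R1
    · rw [if_pos g2, Nat.zero_add]
      exact hmk j
    · rw [if_neg g2, if_neg (by rw [mem_Ioc] at g2; omega)]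
      exact Nat.zero_le _

lemma ee_l {A C : ℕ} (hlR : l < R1) : ee l R1 N A C rho h l = A := by
  unfold ee
  rw [if_pos rfl, if_neg (by rw [mem_Ioc]; omega), if_neg (by omega)]
  ring

lemma le_ee {A C : ℕ} {j : ℕ} (e1 : l < j) (e2 : j ≤ R1) :
    T9.mk R1 l N rho h j ≤ ee l R1 N A C rho h j := by
  unfold ee
  rw [if_pos (show j ∈ Ioc l R1 by rw [mem_Ioc]; omega)]
  omega

lemma ee_R {A C : ℕ} (hlR : l < R1) :
    ee l R1 N A C rho h R1 = T9.mk R1 l N rho h R1 + C := by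
  unfold ee
  rw [if_neg (by omega), if_pos (show R1 ∈ Ioc l R1 by rw [mem_Ioc]; omega), if_pos rfl]
  ring

lemma ee_zero {A C : ℕ} (hlR : l < R1) {j : ℕ} (e1 : R1 < j) : ee l R1 N A C rho h j = 0 := by
  unfold ee
  rw [if_neg (by omega), if_neg (by rw [mem_Ioc]; omega), if_neg (by omega)]

lemma sum_ee_mid {A C : ℕ} (hlR : l < R1)
    (hrho : ∀ i, l ≤ i → i < R1 → i < rho i ∧ rho i ≤ R1) :
    ∑ j ∈ Ioc l R1, ee l R1 N A C rho h j =
      N * (4 * ∑ i ∈ Ico l R1, h i + (R1 - l)) + C := by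
  have g1 : ∑ j ∈ Ioc l R1, ee l R1 N A C rho h j = ∑ j ∈ Ioc l R1, T9.mk R1 l N rho h j +
      ∑ j ∈ Ioc l R1, (if j = R1 then C else 0) := by
    rw [← Finset.sum_add_distrib]
    refine Finset.sum_congr rfl fun j hj => ?_
    unfold ee
    rw [if_pos hj]
    rw [mem_Ioc] at hj
    rw [if_neg (by omega)]
    ring
  rw [g1, sum_mk hrho, Finset.sum_ite_eq', if_pos (by rw [mem_Ioc]; omega)]

/-- the count -/
lemma count_le {μ : ℕ → ℕ} (hμa : Antitone μ) (hgμ : ∀ j, g j = μ (j - 1) - μ j) (hR3 : 3 ≤ R0)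
    (hl2 : 2 ≤ l) (hlR : l < R1) (hm : m ≤ R1) (hR : R1 ≤ R0) (hN : 0 < N)
    (hmax1 : ∀ j, R1 ≤ j → j ≤ R0 → g j ≤ g R1)
    (hr4 : ∀ i, 1 ≤ i → i < R1 → ∀ j, i < j → j ≤ R1 → g j ≤ g (rho i))
    (hh : ∀ i, h i = min (g (rho i) / (16 * R1 * N)) (k0 / (256 * R1 ^ 2)))
    (h7 : 2 * μ R0 ≤ μ (m - 1)) (hk1 : k0 ≤ k) :
    ∏ i ∈ Ico 1 m, (min (μ i / (32 * R0 ^ 2 * N)) (k0 / (256 * R0 ^ 2)) + 1) ≤
      (k / (32 * R1 ^ 2) + 1) ^ (l - 1) * ∏ i ∈ Ico l R1, (h i + 1) := by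
  have hR1pos : 0 < R1 := by omega
  have hgR1 : ∀ i, 1 ≤ i → i < R1 → g R1 ≤ g (rho i) := fun i e1 e2 => hr4 i e1 e2 R1 e2 le_rfl
  obtain ⟨G, hG⟩ : ∃ G : ℕ → ℕ, ∀ i, G i = if i < l then k / (32 * R1 ^ 2) + 1 else h i + 1 :=
    ⟨_, fun _ => rfl⟩
  have hμtel : ∀ i, 1 ≤ i → i < R1 → μ i ≤ μ R0 + R0 * g (rho i) := by
    intro i e1 e2
    have f1 := tel_le μ (fun j => g j) 0 R0 i (by omega) fun j g1 g2 => by
      have := hμa (show j - 1 ≤ j by omega)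
      rw [hgμ]
      omega
    have f2 : ∑ j ∈ Ioc i R0, g j ≤ R0 * g (rho i) := by
      refine (Finset.sum_le_card_nsmul _ _ (g (rho i)) fun j hj => ?_).trans ?_
      · rw [mem_Ioc] at hj
        by_cases g3 : j ≤ R1
        · exact hr4 i e1 e2 j hj.1 g3
        · exact (hmax1 j (by omega) hj.2).trans (hgR1 i e1 e2)
      · rw [smul_eq_mul, Nat.card_Ioc]
        exact Nat.mul_le_mul_right _ (Nat.sub_le _ _)
    simp only [Nat.zero_mul, Nat.add_zero] at f1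
    omega
  have hFG : ∀ i ∈ Ico 1 m, min (μ i / (32 * R0 ^ 2 * N)) (k0 / (256 * R0 ^ 2)) + 1 ≤ G i := by
    intro i hi
    rw [mem_Ico] at hi
    rw [hG]
    split_ifs with e1
    · refine Nat.add_le_add_right ((min_le_right _ _).trans ?_) 1
      refine (Nat.div_le_div_left (c := 32 * R1 ^ 2) ?_ (by positivity)).trans
        (Nat.div_le_div_right hk1)
      gcongr
      norm_num
    · refine Nat.add_le_add_right ?_ 1
      rw [hh]
      refine min_le_min ?_ ?_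
      · have f1 := hμtel i hi.1 (by omega)
        have f2 : μ (m - 1) ≤ μ i := hμa (by omega)
        have f3 : μ i ≤ 2 * R0 * g (rho i) := by
          have : 2 * R0 * g (rho i) = 2 * (R0 * g (rho i)) := by ring
          omega
        calc μ i / (32 * R0 ^ 2 * N) ≤ (2 * R0 * g (rho i)) / (32 * R0 ^ 2 * N) :=
              Nat.div_le_div_right f3
          _ = (2 * R0 * g (rho i)) / (2 * R0 * (16 * R0 * N)) := by
              congr 1
              ring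
          _ = g (rho i) / (16 * R0 * N) := Nat.mul_div_mul_left _ _ (by omega)
          _ ≤ g (rho i) / (16 * R1 * N) := by
              refine Nat.div_le_div_left ?_ (by positivity)
              gcongr
      · refine Nat.div_le_div_left ?_ (by positivity)
        gcongr
  calc ∏ i ∈ Ico 1 m, (min (μ i / (32 * R0 ^ 2 * N)) (k0 / (256 * R0 ^ 2)) + 1)
      ≤ ∏ i ∈ Ico 1 m, G i := Finset.prod_le_prod' hFG
    _ ≤ ∏ i ∈ Ico 1 R1, G i := by
        refine Finset.prod_le_prod_of_subset_of_one_le' (Finset.Ico_subset_Ico_right hm) ?_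
        intro i _ _
        rw [hG]
        split_ifs <;> exact Nat.le_add_left 1 _
    _ = (∏ i ∈ Ico 1 l, G i) * ∏ i ∈ Ico l R1, G i :=
        (Finset.prod_Ico_consecutive _ (by omega) hlR.le).symm
    _ = (k / (32 * R1 ^ 2) + 1) ^ (l - 1) * ∏ i ∈ Ico l R1, (h i + 1) := by
        congr 1
        · rw [← Nat.card_Ico 1 l, ← Finset.prod_const]
          refine Finset.prod_congr rfl fun i hi => ?_
          rw [mem_Ico] at hi
          rw [hG, if_pos hi.2]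
        · refine Finset.prod_congr rfl fun i hi => ?_
          rw [mem_Ico] at hi
          rw [hG, if_neg (by omega)]

/-- the numbers of the reduction -/
lemma dec_room {a M D E k0 N R0 : ℕ} {e : ℕ → ℕ} (hE : ∑ j ∈ Icc 1 R0, e j ≤ E)
    (hE2 : E ≤ 21 * (N * k0)) (hR3 : 3 ≤ R0) (hk0 : 2 * R0 ≤ k0) (hN : 0 < N)
    (h6 : 8 * (R0 * M + 2 * a * R0 ^ 2 + D) ≤ N * k0) :
    2 * (R0 * M + 2 * a * R0 ^ 2 + D + ∑ j ∈ Icc 1 R0, j * e j + (k0 + 2 * R0)) ≤
      k0 * (50 * R0 * N) := by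
  have f1 : ∑ j ∈ Icc 1 R0, j * e j ≤ R0 * (21 * (N * k0)) := by
    calc ∑ j ∈ Icc 1 R0, j * e j ≤ ∑ j ∈ Icc 1 R0, R0 * e j := by
          refine Finset.sum_le_sum fun j hj => Nat.mul_le_mul_right _ ?_
          rw [mem_Icc] at hj
          exact hj.2
      _ = R0 * ∑ j ∈ Icc 1 R0, e j := (Finset.mul_sum _ _ _).symm
      _ ≤ _ := Nat.mul_le_mul_left _ (hE.trans hE2)
  have f2 : R0 * (21 * (N * k0)) = 21 * (R0 * (N * k0)) := by ring
  have f3 : k0 * (50 * R0 * N) = 50 * (R0 * (N * k0)) := by ring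
  have f4 : 3 * (N * k0) ≤ R0 * (N * k0) := Nat.mul_le_mul_right _ hR3
  have f5 : k0 ≤ N * k0 := Nat.le_mul_of_pos_left _ hN
  rw [f3]
  rw [f2] at f1
  omega

end pieces

/-- the low part of the reduced shape -/
lemma low_bound {a R0 R1 D M : ℕ} (hR : R1 ≤ R0) (hRa : R0 < a) {mu : Fin a → ℕ}
    (hνlow : ∀ i, R1 ≤ i → i ≤ R0 → ex mu i ≤ M + 2 * a * R0)
    (hlow0 : ∑ i, low R0 mu i = D) :
    ∑ i, low R1 mu i ≤ R0 * M + 2 * a * R0 ^ 2 + D := by
  have f1 := T4.sum_split (show R1 ≤ a by omega) mu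
  have f2 := T4.sum_split hRa.le mu
  rw [f2, hlow0] at f1
  have f3 : ∑ i ∈ range R0, ex mu i = ∑ i ∈ range R1, ex mu i + ∑ i ∈ Ico R1 R0, ex mu i := by
    rw [Finset.range_eq_Ico, Finset.range_eq_Ico, Finset.sum_Ico_consecutive _ (by omega) hR]
  have f4 : ∑ i ∈ Ico R1 R0, ex mu i ≤ R0 * (M + 2 * a * R0) := by
    refine (Finset.sum_le_card_nsmul _ _ (M + 2 * a * R0) fun i hi => ?_).trans ?_
    · rw [mem_Ico] at hi
      exact hνlow i hi.1 hi.2.le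
    · rw [smul_eq_mul, Nat.card_Ico]
      exact Nat.mul_le_mul_right _ (Nat.sub_le _ _)
  have f5 : R0 * (M + 2 * a * R0) = R0 * M + 2 * a * R0 ^ 2 := by ring
  rw [f5] at f4
  omega

/-- the comparison of the upper bounds -/
lemma upper_cmp (hU : UpStmt) {a b R0 R1 N k0 : ℕ} {lam mu : Fin a → ℕ} (hb2 : b ≤ a ^ 2)
    (hlam : Antitone lam) (hsum : ∑ i, lam i = a * b) (hmu : Antitone mu) (hR : R1 ≤ R0)
    (hRa : R0 < a) (heq : ∀ s, R0 ≤ s → ex mu s = ex lam s) (h4 : k0 ≤ a) (hNb : N ≤ b)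
    (hlow : 8 * ∑ i, low R1 mu i ≤ N * k0) :
    plethMult a b a lam ≤ (a ^ 3 + 1) ^ (2 * a * R0) * gt (a - R1) a (low R1 mu) := by
  have hab : a * b ≤ a ^ 3 := by
    calc a * b ≤ a * a ^ 2 := Nat.mul_le_mul_left _ hb2
      _ = a ^ 3 := by ring
  have hNa : N * k0 ≤ a ^ 3 := by
    calc N * k0 ≤ b * a := Nat.mul_le_mul hNb h4
      _ = a * b := Nat.mul_comm _ _
      _ ≤ _ := hab
  have hexR : ex mu R1 ≤ a ^ 3 := by
    have f1 : ex mu R1 ≤ ∑ i, low R1 mu i := by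
      have f2 := H503.ex_le_sum (low R1 mu) 0
      rwa [H503.ex_low, add_zero] at f2
    omega
  have hex0 : ex lam 0 ≤ a ^ 3 := (H503.ex_le_sum lam 0).trans (by omega)
  have u1 := H503.upper hU (b := b) hRa.le hlam
  have u2 := H503.lower_cmp hR hRa.le hmu heq hexR
  calc plethMult a b a lam ≤ (ex lam 0 + 1) ^ (a * R0) * gt (a - R0) a (low R0 lam) := u1
    _ ≤ (a ^ 3 + 1) ^ (a * R0) *
        ((a ^ 3 + 1) ^ (a * (R0 - R1)) * gt (a - R1) a (low R1 mu)) :=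
      Nat.mul_le_mul (Nat.pow_le_pow_left (by omega) _) u2
    _ = (a ^ 3 + 1) ^ (a * R0 + a * (R0 - R1)) * gt (a - R1) a (low R1 mu) := by
      rw [pow_add, mul_assoc]
    _ ≤ _ := by
      apply Nat.mul_le_mul_right
      apply Nat.pow_le_pow_right (by omega)
      have : a * (R0 - R1) ≤ a * R0 := Nat.mul_le_mul_left _ (Nat.sub_le _ _)
      nlinarith

/-- the application of `LB10` to the reduced shape -/
lemma lb10_apply (hLB : T9.LB10) {a R0 R1 l k0 k N B T Sh A C M0 : ℕ} {rho h : ℕ → ℕ}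
    {mu : Fin a → ℕ} (hmu : Antitone mu) (hsmu : ∑ i, mu i = k * B) (hk1 : k0 ≤ k)
    (hk2 : k ≤ k0 + 2 * R0) (hka : k ≤ a) (hl2 : 2 ≤ l) (hlR : l < R1) (hR : R1 ≤ R0)
    (hRa : R0 < a) (hLev : Lev R1 l rho h) (hSh : Sh = ∑ i ∈ Ico l R1, h i)
    (hSh1 : 256 * R1 * Sh ≤ k0) (hhl : 4 * R1 + 2 ≤ h l) (hA : A = 20 * N * (k0 + 2 * R0))
    (hC : C = 46 * R1 * N) (h3 : 2000 * R0 ^ 3 ≤ k0) (h5 : a * (R0 + 1) ≤ N)
    (b1 : A + N * (4 * Sh + (R1 - l)) + C + 2 * a * R0 + M0 ≤ 21 * (N * k0))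
    (b2 : N * (4 * Sh + (R1 - l)) + C + 2 * a * R0 + M0 ≤ 20 * (N * k0))
    (hgl : ex mu l + A ≤ ex mu (l - 1))
    (hgj : ∀ j, l < j → j ≤ R1 → ex mu j + T9.mk R1 l N rho h j ≤ ex mu (j - 1))
    (hgR : ex mu R1 + (T9.mk R1 l N rho h R1 + C) ≤ ex mu (R1 - 1))
    (hν0 : ex mu 0 ≤ A + N * (4 * Sh + (R1 - l)) + C + 2 * a * R0 + M0)
    (hνl : ex mu l ≤ ex mu R1 + (N * (4 * Sh + (R1 - l)) + C + 2 * a * (R1 - l)))
    (hlow : 8 * ∑ i, low R1 mu i ≤ N * k0)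
    (hcount : 729 * N < (k / (32 * R1 ^ 2) + 1) ^ (l - 1) * ∏ i ∈ Ico l R1, (h i + 1))
    (c13 : (T : ℝ) * ((k : ℝ) + 1) ^ a ≤ Real.exp N) :
    T * gt (a - R1) a (low R1 mu) ≤ plethMult B k a mu := by
  have hkk : N * k0 ≤ N * k := Nat.mul_le_mul_left _ hk1
  refine hLB a k B a R1 l N T rho h mu hmu hsmu le_rfl ?_ (by omega) hLev ?_ ?_ ?_ ?_ hgj ?_ ?_ ?_
    ?_ ?_ hcount c13
  · -- a ≤ N
    have : a * (R0 + 1) = a * R0 + a := by ring
    omega
  · -- 64 R (R + 5) ≤ k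
    refine le_trans ?_ (h3.trans hk1)
    calc 64 * R1 * (R1 + 5) ≤ 64 * R0 * (R0 + 5) := by gcongr
      _ ≤ 64 * R0 * (3 * R0) := Nat.mul_le_mul_left _ (by omega)
      _ = 192 * (R0 ^ 2 * 1) := by ring
      _ ≤ 2000 * (R0 ^ 2 * R0) := Nat.mul_le_mul (by norm_num) (Nat.mul_le_mul_left _ (by omega))
      _ = 2000 * R0 ^ 3 := by ring
  · -- k (R + 1) ≤ N
    exact (Nat.mul_le_mul hka (by omega)).trans h5
  · -- gap at l
    have f1 : 20 * N * k ≤ A := by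
      rw [hA]
      exact Nat.mul_le_mul_left _ hk2
    omega
  · -- ex mu 0
    have f2 : 20 * (N * k0) ≤ A := by
      rw [hA]
      have : 20 * N * (k0 + 2 * R0) = 20 * (N * k0) + 40 * (N * R0) := by ring
      omega
    omega
  · -- room at R
    have f2 : ex mu 0 ≤ 23 * (N * k) := by omega
    have f3 : 2 * R1 * ex mu 0 ≤ k * C := by
      calc 2 * R1 * ex mu 0 ≤ 2 * R1 * (23 * (N * k)) := Nat.mul_le_mul_left _ f2
        _ = k * (46 * R1 * N) := by ring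
        _ = k * C := by rw [hC]
    calc 2 * R1 * ex mu 0 + k * T9.mk R1 l N rho h R1 ≤ k * C + k * T9.mk R1 l N rho h R1 :=
          Nat.add_le_add_right f3 _
      _ = k * (T9.mk R1 l N rho h R1 + C) := by ring
      _ ≤ k * ex mu (R1 - 1) := Nat.mul_le_mul_left _ (by omega)
  · -- ex mu l
    rw [← hSh]
    have f3 : ex mu R1 ≤ ∑ i, low R1 mu i := by
      have g2 := H503.ex_le_sum (low R1 mu) 0
      rwa [H503.ex_low, add_zero] at g2
    have f4 : 2 * a * (R1 - l) ≤ 2 * N := by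
      have g3 : a * (R1 - l) ≤ a * (R0 + 1) := Nat.mul_le_mul_left _ (by omega)
      have g4 : 2 * a * (R1 - l) = 2 * (a * (R1 - l)) := by ring
      omega
    have f5 : N * (4 * Sh + 50 * R1) = N * (4 * Sh + (R1 - l)) + N * (50 * R1 - (R1 - l)) := by
      rw [← Nat.mul_add]
      congr 1
      omega
    have f6 : C + 2 * N ≤ N * (50 * R1 - (R1 - l)) := by
      rw [hC]
      calc 46 * R1 * N + 2 * N = N * (46 * R1 + 2) := by ring
        _ ≤ _ := Nat.mul_le_mul_left _ (by omega)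
    rw [f5]
    omega
  · -- 4 R + 2 ≤ Σ h
    exact hhl.trans (Finset.single_le_sum (f := h) (fun _ _ => Nat.zero_le _)
      (by rw [mem_Ico]; omega))
  · -- 16 R Σ (4 h + 1) ≤ k
    refine le_trans ?_ hk1
    have f1 : ∑ i ∈ Ico l R1, (4 * h i + 1) = 4 * Sh + (R1 - l) := by
      rw [Finset.sum_add_distrib, ← Finset.mul_sum, ← hSh, Finset.sum_const, Nat.card_Ico,
        smul_eq_mul, Nat.mul_one]
    rw [f1]
    have f2 : 16 * R1 * (4 * Sh + (R1 - l)) ≤ 64 * R1 * Sh + 16 * R1 ^ 2 := by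
      calc 16 * R1 * (4 * Sh + (R1 - l)) ≤ 16 * R1 * (4 * Sh + R1) :=
            Nat.mul_le_mul_left _ (by omega)
        _ = _ := by ring
    have f3 : 4 * (64 * R1 * Sh) ≤ k0 := by
      calc 4 * (64 * R1 * Sh) = 256 * R1 * Sh := by ring
        _ ≤ k0 := hSh1
    have f4 : 64 * R1 ^ 2 ≤ k0 := by
      refine le_trans ?_ h3
      calc 64 * R1 ^ 2 = 64 * (R1 ^ 2 * 1) := by ring
        _ ≤ 2000 * (R0 ^ 2 * R0) := by gcongr <;> omega
        _ = 2000 * R0 ^ 3 := by ring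
    omega
  · -- 4 Σ low ≤ N k
    omega

/-- the digits of the first level -/
lemma hl_ge {R0 R1 N k0 gl : ℕ} (hR1 : 0 < R1) (hR : R1 ≤ R0) (hN : 0 < N)
    (h1 : 100 * R0 ^ 2 * N ≤ gl) (h3 : 2000 * R0 ^ 3 ≤ k0) :
    4 * R1 + 2 ≤ min (gl / (16 * R1 * N)) (k0 / (256 * R1 ^ 2)) := by
  rw [le_min_iff]
  constructor
  · rw [Nat.le_div_iff_mul_le (by positivity)]
    refine le_trans ?_ h1
    calc (4 * R1 + 2) * (16 * R1 * N) ≤ (6 * R1) * (16 * R1 * N) :=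
          Nat.mul_le_mul_right _ (by omega)
      _ = 96 * R1 ^ 2 * N := by ring
      _ ≤ 100 * R0 ^ 2 * N := by gcongr; norm_num
  · rw [Nat.le_div_iff_mul_le (by positivity)]
    refine le_trans ?_ h3
    calc (4 * R1 + 2) * (256 * R1 ^ 2) ≤ (6 * R1) * (256 * R1 ^ 2) :=
          Nat.mul_le_mul_right _ (by omega)
      _ = 1536 * R1 ^ 3 := by ring
      _ ≤ 2000 * R0 ^ 3 := by gcongr; norm_num

/-- **The finite part of [C-CASE].** -/
theorem caseC_nat (hLB : T9.LB10) (hDec : T9.DecB) (hU : UpStmt) {a b R0 R1 l m k0 N : ℕ}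
    {lam : Fin a → ℕ} (hb2 : b ≤ a ^ 2) (hlam : Antitone lam) (hsum : ∑ i, lam i = a * b)
    (hl2 : 2 ≤ l) (hlR : l < R1) (hm : m ≤ R1) (hR : R1 ≤ R0) (hRa : R0 < a)
    (hmax : ∀ j, 2 ≤ j → j ≤ R0 → ex lam (j - 1) - ex lam j ≤ ex lam (l - 1) - ex lam l)
    (hmax1 : ∀ j, R1 ≤ j → j ≤ R0 → ex lam (j - 1) - ex lam j ≤ ex lam (R1 - 1) - ex lam R1)
    (h1 : 100 * R0 ^ 2 * N ≤ ex lam (R1 - 1) - ex lam R1)
    (h2 : 20 * N * (k0 + 2 * R0) ≤ ex lam (l - 1) - ex lam l) (h3 : 2000 * R0 ^ 3 ≤ k0)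
    (h4 : k0 ≤ a) (h5 : a * (R0 + 1) ≤ N)
    (h6 : 8 * (R0 * ex lam R0 + 2 * a * R0 ^ 2 + ∑ i, low R0 lam i) ≤ N * k0)
    (h7 : 2 * ex lam R0 ≤ ex lam (m - 1)) (h8 : 50 * R0 * (R0 + 1) * N ≤ 2 * b)
    (hcount : 729 * N < ∏ i ∈ Ico 1 m,
      (min (ex lam i / (32 * R0 ^ 2 * N)) (k0 / (256 * R0 ^ 2)) + 1))
    (htop : ((a : ℝ) ^ 3 + 1) ^ (2 * a * R0) * ((a : ℝ) + 1) ^ a ≤ Real.exp N) :
    plethMult a b a lam ≤ plethMult b a a lam := by
  have hμa : Antitone (ex lam) := fun s t hst => ex_anti hlam hst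
  obtain ⟨g, hg⟩ : ∃ g : ℕ → ℕ, ∀ j, g j = ex lam (j - 1) - ex lam j := ⟨_, fun _ => rfl⟩
  simp only [← hg] at hmax hmax1 h1 h2
  obtain ⟨rho, hr1, hr2, hr3, hr4⟩ := exists_levels g (R := R1) hl2
    (fun j e1 e2 => hmax j e1 (by omega))
  obtain ⟨h, hh⟩ : ∃ h : ℕ → ℕ, ∀ i, h i = min (g (rho i) / (16 * R1 * N)) (k0 / (256 * R1 ^ 2)) :=
    ⟨_, fun _ => rfl⟩
  have hR3 : 3 ≤ R0 := by omega
  have ha : 0 < a := by omega
  have hN : 0 < N := lt_of_lt_of_le (Nat.mul_pos ha (by omega)) h5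
  have hR1pos : 0 < R1 := by omega
  have hgR1 : ∀ i, 1 ≤ i → i < R1 → g R1 ≤ g (rho i) := fun i e1 e2 => hr4 i e1 e2 R1 e2 le_rfl
  have hh1 : ∀ i, 16 * R1 * N * h i ≤ g (rho i) := by
    intro i
    rw [hh]
    exact (Nat.mul_le_mul_left _ (min_le_left _ _)).trans (Nat.mul_div_le _ _)
  have hh2 : ∀ i, 256 * R1 ^ 2 * h i ≤ k0 := by
    intro i
    rw [hh]
    exact (Nat.mul_le_mul_left _ (min_le_right _ _)).trans (Nat.mul_div_le _ _)
  obtain ⟨Sh, hSh⟩ : ∃ Sh, Sh = ∑ i ∈ Ico l R1, h i := ⟨_, rfl⟩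
  have hSh1 : 256 * R1 * Sh ≤ k0 := digit_sum hR1pos hSh hh2
  have hSh2 : 256 * Sh ≤ k0 := by
    refine le_trans ?_ hSh1
    calc 256 * Sh = 1 * (256 * Sh) := (one_mul _).symm
      _ ≤ R1 * (256 * Sh) := Nat.mul_le_mul_right _ hR1pos
      _ = 256 * R1 * Sh := by ring
  obtain ⟨A, hA⟩ : ∃ A, A = 20 * N * (k0 + 2 * R0) := ⟨_, rfl⟩
  obtain ⟨C, hC⟩ : ∃ C, C = 46 * R1 * N := ⟨_, rfl⟩
  have hR0N : 300 * (R1 * N) ≤ g R1 := by
    refine le_trans ?_ h1
    calc 300 * (R1 * N) = 100 * 3 * R1 * N := by ring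
      _ ≤ 100 * R0 * R0 * N := by gcongr
      _ = 100 * R0 ^ 2 * N := by ring
  have hmk := hmk_lemma (l := l) (h := h) (rho := rho) hR1pos
    (show C = 46 * (R1 * N) by rw [hC]; ring) hR0N hh1 (by omega) hgR1
  obtain ⟨e, he⟩ : ∃ e : ℕ → ℕ, e = ee l R1 N A C rho h := ⟨_, rfl⟩
  have heg : ∀ j, 1 ≤ j → j ≤ R0 → e j + ex lam j ≤ ex lam (j - 1) := by
    intro j _ _
    have f0 : ex lam j ≤ ex lam (j - 1) := hμa (Nat.sub_le _ _)
    have f1 : e j ≤ g j := by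
      rw [he]
      exact ee_le hlR (by rw [hA]; exact h2) hmk j
    rw [hg] at f1
    omega
  have hE : ∑ j ∈ Icc 1 R0, e j = A + N * (4 * Sh + (R1 - l)) + C := by
    rw [he, hSh]
    exact sum_ee (by omega) hlR hR hr2
  obtain ⟨b1, b2⟩ := n_budget (a := a) (R0 := R0) (R1 := R1) (l := l) (k0 := k0) (N := N)
    (Sh := Sh) (D := ∑ i, low R0 lam i) (M0 := ex lam R0) h3 hR3 hR hSh2 h5 h6
  rw [← hA, ← hC] at b1
  rw [← hC] at b2
  have hR0c : R0 ≤ R0 ^ 3 := by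
    calc R0 = R0 ^ 1 := (pow_one _).symm
      _ ≤ R0 ^ 3 := Nat.pow_le_pow_right (by omega) (by norm_num)
  have hk0R : 2 * R0 ≤ k0 := by omega
  have hroom := dec_room (e := e) (le_of_eq hE) (show A + N * (4 * Sh + (R1 - l)) + C ≤
    21 * (N * k0) by omega) hR3 hk0R hN h6
  have hX1 : R0 ≤ 50 * R0 * N := by
    calc R0 = R0 * 1 := (Nat.mul_one _).symm
      _ ≤ (50 * R0) * N := Nat.mul_le_mul (by omega) hN
  have hX2 : (R0 + 1) * (50 * R0 * N) ≤ 2 * b := by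
    refine le_trans (le_of_eq ?_) h8
    ring
  have hstore : (k0 + 2 * R0) * R0 ≤ ∑ j ∈ Icc 1 R0, j * e j := by
    have f1 : l * e l ≤ ∑ j ∈ Icc 1 R0, j * e j :=
      Finset.single_le_sum (f := fun j => j * e j) (fun _ _ => Nat.zero_le _)
        (by rw [mem_Icc]; omega)
    refine le_trans ?_ f1
    rw [he, ee_l hlR, hA]
    have f2 : R0 ≤ N := by
      refine le_trans ?_ h5
      calc R0 ≤ 1 * (R0 + 1) := by omega
        _ ≤ a * (R0 + 1) := Nat.mul_le_mul_right _ ha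
    calc (k0 + 2 * R0) * R0 ≤ (k0 + 2 * R0) * N := Nat.mul_le_mul_left _ f2
      _ = 1 * (1 * (N * (k0 + 2 * R0))) := by ring
      _ ≤ l * (20 * (N * (k0 + 2 * R0))) :=
          Nat.mul_le_mul (by omega) (Nat.mul_le_mul_right _ (by norm_num))
      _ = l * (20 * N * (k0 + 2 * R0)) := by ring
  obtain ⟨B, k, mu, hmu, hsmu, hk1, hk2, hka, heq, hgap, hle⟩ := hDec a b R0 (50 * R0 * N) k0 e lam
    hlam hsum (by omega) hRa hk0R h4 hX1 heg hroom hX2 hstore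
  clear hroom hX1 hX2 hstore heg
  have hνtel : ∀ i ≤ R0, ex mu i ≤ ex mu R0 + (∑ j ∈ Ioc i R0, e j + 2 * a * (R0 - i)) :=
    fun i hi => tel_le (ex mu) e (2 * a) R0 i hi fun j e1 e2 => (hgap j (by omega) e2).2
  have hνR0 : ex mu R0 = ex lam R0 := heq R0 le_rfl
  have hν0 : ex mu 0 ≤ A + N * (4 * Sh + (R1 - l)) + C + 2 * a * R0 + ex lam R0 := by
    have f1 := hνtel 0 (Nat.zero_le _)
    have f2 : Ioc 0 R0 = Icc 1 R0 := by
      ext j
      simp only [mem_Ioc, mem_Icc]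
      omega
    rw [f2, hE, hνR0, Nat.sub_zero] at f1
    clear * - f1
    omega
  have hνlow : ∀ i, R1 ≤ i → i ≤ R0 → ex mu i ≤ ex lam R0 + 2 * a * R0 := by
    intro i e1 e2
    have f1 := hνtel i e2
    have f2 : ∑ j ∈ Ioc i R0, e j = 0 := Finset.sum_eq_zero fun j hj => by
      rw [mem_Ioc] at hj
      rw [he]
      exact ee_zero hlR (by omega)
    rw [f2, hνR0, Nat.zero_add] at f1
    exact f1.trans (Nat.add_le_add_left (Nat.mul_le_mul_left _ (Nat.sub_le _ _)) _)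
  have hlow0 : ∑ i, low R0 mu i = ∑ i, low R0 lam i :=
    Finset.sum_congr rfl fun i _ => heq (R0 + i) (Nat.le_add_right _ _)
  have hlow1 := low_bound hR hRa hνlow hlow0
  have hlow8 : 8 * ∑ i, low R1 mu i ≤ N * k0 := (Nat.mul_le_mul_left 8 hlow1).trans h6
  have hNb : N ≤ b := by
    have f1 : 2 * N ≤ 50 * R0 * (R0 + 1) * N := by
      refine Nat.mul_le_mul_right _ ?_
      clear * - hR3
      nlinarith
    clear * - f1 h8
    omega
  have u3 := upper_cmp hU hb2 hlam hsum hmu hR hRa heq h4 hNb hlow8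
  obtain ⟨T, hT⟩ : ∃ T : ℕ, T = (a ^ 3 + 1) ^ (2 * a * R0) := ⟨_, rfl⟩
  rw [← hT] at u3
  have c13 : (T : ℝ) * ((k : ℝ) + 1) ^ a ≤ Real.exp N := by
    refine le_trans ?_ htop
    rw [hT]
    push_cast
    have f5 : (k : ℝ) ≤ a := by exact_mod_cast hka
    gcongr
  refine u3.trans (le_trans ?_ hle)
  have hLev : Lev R1 l rho h := by
    refine ⟨hl2, hlR, hr1, hr2, hr3, ?_⟩
    intro i j _ _ _ _ e5
    rw [hh, hh, e5]
  have hhl : 4 * R1 + 2 ≤ h l := by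
    rw [hh]
    exact hl_ge hR1pos hR hN (h1.trans (hgR1 l (by omega) hlR)) h3
  have hgl := (hgap l (by omega) (by omega)).1
  rw [he, ee_l hlR] at hgl
  have hgR := (hgap R1 (by omega) hR).1
  rw [he, ee_R hlR] at hgR
  have hνl : ex mu l ≤ ex mu R1 + (N * (4 * Sh + (R1 - l)) + C + 2 * a * (R1 - l)) := by
    have f1 := tel_le (ex mu) e (2 * a) R1 l hlR.le fun j g1 g2 =>
      (hgap j (by omega) (by omega)).2
    rw [he, sum_ee_mid hlR hr2, ← hSh] at f1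
    exact f1
  exact lb10_apply hLB (M0 := ex lam R0) hmu hsmu hk1 hk2 hka hl2 hlR hR hRa hLev hSh hSh1 hhl hA
    hC h3 h5 b1 b2 hgl
    (fun j e1 e2 => by
      refine le_trans (Nat.add_le_add_left ?_ _) (hgap j (by omega) (by omega)).1
      rw [he]
      exact le_ee e1 e2)
    hgR hν0 hνl hlow8
    (lt_of_lt_of_le hcount (count_le hμa hg hR3 hl2 hlR hm hR hN hmax1 hr4 hh h7 hk1)) c13

end Vale.Agent.P181.H699.CC
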