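import Vale.Agent.P181.H699.CaseI
import Vale.Agent.P181.H699.Use6
import Vale.Agent.P181.H539.LB6
import Vale.Agent.P181.H539.UpStmt
import Vale.Agent.P181.H463.CutRevStmt
import Vale.Agent.P181.H503.CaseIIFin
import Vale.Agent.P181.H328.Split
import Vale.Agent.P181.H463.Big

set_option autoImplicit false

/-!
# P181, T7: case I and `FStmt`, unconditional
-/

namespace Vale.Agent.P181.H699

open Vale.Agent.P181

theorem caseI : T7.CaseI := T7.caseI H539.lb6 use6 H539.up_stmt H463.cut_rev_stmt

theorem fStmt : T7.FStmt := T7.fStmt_of caseI H503.caseII H328.split_stmt H463.big_stmt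

end Vale.Agent.P181.H699
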