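import Vale.Agent.P181.H699.Dec
import Vale.Agent.P181.T7.Spec

set_option autoImplicit false

/-!
# P181, T7: case I (the lower part is bulk)
-/

open Finset

namespace Vale.Agent.P181.T7

open Vale.Agent.P181.T4 Vale.Agent.P181.H280 Vale.Agent.P181.H463

/-- The comparison. -/
theorem caseI_fin (hU : UpStmt) (hCut : CutRev) {a b R P : ℕ} {N : ℝ} (hR : R ≤ a)
    {lam mu : Fin a → ℕ} (hlam : Antitone lam) (hmu : Antitone mu)
    (hlow : ∀ j, R ≤ j → ex mu j = ex lam j) (L : ℕ) (hL : ex lam 0 ≤ L) (hL' : ex mu 0 ≤ L)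
    (hnum : ((L : ℝ) + 1) ^ (2 * (a * R)) ≤ Real.exp (2 * N))
    (hP : (gt a a mu : ℝ) * Real.exp (2 * N) ≤ P) (hPm : P ≤ plethMult b a a lam) :
    plethMult a b a lam ≤ plethMult b a a lam := by
  have hle : ∀ i : ℕ, ex lam i ≤ L := fun i => (ex_anti hlam (Nat.zero_le i)).trans hL
  have h1 := plethMult_le_pow (a := a) (b := b) (c := a) (R := R) (m := a - R) (by omega) lam L
    (fun i _ => by
      have := hle i
      rwa [ex_of_lt lam i.2] at this)
  have h2 : (fun i : Fin (a - R) => lam ⟨R + i, by have := i.isLt; omega⟩) = low R lam := by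
    funext i
    have := i.isLt
    rw [low, ex_of_lt lam (by omega)]
  rw [h2] at h1
  have h3 := hU (a - R) a (low R lam) (low_anti hlam R)
  have h4 : low R lam = low R mu := by
    funext i
    exact (hlow _ (Nat.le_add_right _ _)).symm
  have h5 := hCut a a R mu hR le_rfl hmu
  rw [← h4] at h5
  have h6 : plethMult a b a lam ≤ (L + 1) ^ (2 * (a * R)) * gt a a mu := by
    calc plethMult a b a lam ≤ (L + 1) ^ (R * a) * gt (a - R) a (low R lam) :=
          h1.trans (Nat.mul_le_mul_left _ h3)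
      _ ≤ (L + 1) ^ (R * a) * ((ex mu 0 + 1) ^ (a * R) * gt a a mu) := Nat.mul_le_mul_left _ h5
      _ ≤ (L + 1) ^ (R * a) * ((L + 1) ^ (a * R) * gt a a mu) :=
          Nat.mul_le_mul_left _ (Nat.mul_le_mul_right _ (Nat.pow_le_pow_left (by omega) _))
      _ = (L + 1) ^ (2 * (a * R)) * gt a a mu := by
          rw [← mul_assoc, ← pow_add]
          congr 2
          ring
  have h7 : (plethMult a b a lam : ℝ) ≤ (plethMult b a a lam : ℝ) := by
    calc (plethMult a b a lam : ℝ) ≤ (((L + 1) ^ (2 * (a * R)) * gt a a mu : ℕ) : ℝ) := by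
          exact_mod_cast h6
      _ = ((L : ℝ) + 1) ^ (2 * (a * R)) * (gt a a mu : ℝ) := by push_cast; ring
      _ ≤ Real.exp (2 * N) * (gt a a mu : ℝ) :=
          mul_le_mul_of_nonneg_right hnum (Nat.cast_nonneg _)
      _ = (gt a a mu : ℝ) * Real.exp (2 * N) := by ring
      _ ≤ P := hP
      _ ≤ _ := by exact_mod_cast hPm
  exact_mod_cast h7

lemma sum_max {n R : ℕ} (hR : R ≤ n) (lam : Fin n → ℕ) :
    ∑ s : Fin n, ex lam (max s R) = R * ex lam R + ∑ i, low R lam i := by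
  obtain ⟨d, rfl⟩ := Nat.exists_eq_add_of_le hR
  rw [← Finset.sum_range (fun s => ex lam (max s R)), Finset.sum_range_add]
  congr 1
  · have h1 : ∀ s ∈ range R, ex lam (max s R) = ex lam R := by
      intro s hs
      rw [mem_range] at hs
      rw [max_eq_right (by omega : s ≤ R)]
    rw [Finset.sum_congr rfl h1, Finset.sum_const, card_range, smul_eq_mul]
  · have h1 : ∑ i : Fin (R + d - R), low R lam i =
        ∑ i ∈ range (R + d - R), ex lam (R + i) := by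
      rw [Finset.sum_range]
      rfl
    rw [h1, Nat.add_sub_cancel_left]
    apply Finset.sum_congr rfl
    intro s _
    rw [max_eq_left (by omega : R ≤ R + s)]

/-- The choice of the storage length. -/
lemma exists_argmax (R : ℕ) (hR : 1 ≤ R) (g : ℕ → ℕ) :
    ∃ i, 1 ≤ i ∧ i ≤ R ∧ ∑ j ∈ Icc 1 R, j * g j ≤ R * (i * g i) := by
  obtain ⟨i, hi, hmax⟩ := Finset.exists_max_image (Icc 1 R) (fun j => j * g j)
    ⟨1, by rw [mem_Icc]; omega⟩
  rw [mem_Icc] at hi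
  refine ⟨i, hi.1, hi.2, ?_⟩
  calc ∑ j ∈ Icc 1 R, j * g j ≤ ∑ _j ∈ Icc 1 R, i * g i := Finset.sum_le_sum fun j hj => hmax j hj
    _ = R * (i * g i) := by rw [Finset.sum_const, Nat.card_Icc, smul_eq_mul, Nat.add_sub_cancel]

lemma ex_mu_low {n R : ℕ} (lam mu : Fin n → ℕ) (r : ℕ → ℕ)
    (hmu : ∀ s : Fin n, mu s = ex lam (max s R) + ∑ j ∈ Ioc (s : ℕ) R, r j) (j : ℕ) (hj : R ≤ j) :
    ex mu j = ex lam j := by
  by_cases hjn : j < n
  · rw [ex_of_lt mu hjn, hmu]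
    simp only
    rw [max_eq_left hj, Finset.Ioc_eq_empty (by omega), Finset.sum_empty, add_zero]
  · rw [ex, ex, dif_neg hjn, dif_neg hjn]

/-- The choice of the degree in its class modulo `2 i`. -/
lemma pick_k {a i : ℕ} (hi : 1 ≤ i) {x : ℝ} (hx : 1 + 2 * (i : ℝ) ≤ x) (hxa : x ≤ a) :
    ∃ k : ℕ, x ≤ k ∧ (k : ℝ) ≤ 2 * x ∧ k ≤ a ∧ 2 * i ∣ a - k ∧ 1 ≤ k := by
  have hi' : (1 : ℝ) ≤ i := by exact_mod_cast hi
  have hx0 : 0 < x := by linarith
  have hk0a : ⌈x⌉₊ ≤ a := Nat.ceil_le.2 hxa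
  have hk0x : x ≤ ⌈x⌉₊ := Nat.le_ceil x
  have hk0x' : (⌈x⌉₊ : ℝ) < x + 1 := Nat.ceil_lt_add_one hx0.le
  generalize ⌈x⌉₊ = k0 at hk0a hk0x hk0x'
  have he1 : 2 * i * ((a - k0) / (2 * i)) ≤ a - k0 := Nat.mul_div_le _ _
  have he2 : a - k0 < 2 * i * ((a - k0) / (2 * i) + 1) := Nat.lt_mul_div_succ _ (by omega)
  generalize (a - k0) / (2 * i) = e at he1 he2
  obtain ⟨k, hk⟩ : ∃ k, a = k + 2 * i * e := ⟨a - 2 * i * e, by omega⟩
  have hk1 : k0 ≤ k := by omega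
  have hk2 : k < k0 + 2 * i := by
    have : 2 * i * (e + 1) = 2 * i * e + 2 * i := by ring
    omega
  have hkx : x ≤ k := hk0x.trans (by exact_mod_cast hk1)
  refine ⟨k, hkx, ?_, by omega, ⟨e, by omega⟩, ?_⟩
  · have h1 : (k : ℝ) ≤ k0 + 2 * i := by exact_mod_cast hk2.le
    linarith
  · have : (0 : ℝ) < k := lt_of_lt_of_le hx0 hkx
    exact_mod_cast this

/-- Real estimates for `k < a`. -/
lemma caseI_real {A B D T R G k x u h l : ℝ} (hA : 1 ≤ A) (hD0 : 0 < D) (hu : 8 ≤ u) (hh : 1 ≤ h)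
    (hR : 0 < R) (hl : 0 ≤ l) (hRu : R ≤ u ^ 2) (hb : A * u ^ 9 ≤ B) (hT : T = R * l + D)
    (hlD : u * l ≤ D) (hD : A * h * u ^ 6 ≤ D) (hsmall : D < A ^ 2 * u ^ 3)
    (hG : A * B ≤ T + R * G) (hxD : x * (A * u ^ 3) = D) (hkx : x ≤ k) :
    (T + 2 * A * R ^ 2) * A ≤ G * k := by
  have hu0 : 0 < u := by linarith
  have hA0 : 0 < A := by linarith
  have hau : 0 < A * u ^ 3 := by positivity
  have hx0 : 0 < x := by
    by_contra hx
    push Not at hx
    have := mul_nonpos_of_nonpos_of_nonneg hx hau.le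
    linarith
  have hTr : T ≤ 2 * u * D := by
    have h2 : R * l ≤ u * D := by
      calc R * l ≤ u ^ 2 * l := mul_le_mul_of_nonneg_right hRu hl
        _ = u * (u * l) := by ring
        _ ≤ u * D := mul_le_mul_of_nonneg_left hlD hu0.le
    have h3 : D ≤ u * D := by nlinarith
    linarith
  have hT2 : T ≤ A * B / 2 := by
    have h1 : 4 * u ^ 4 ≤ u ^ 9 := by
      have h2 : (8 : ℝ) ^ 5 ≤ u ^ 5 := pow_le_pow_left₀ (by norm_num) hu 5
      calc 4 * u ^ 4 ≤ u ^ 5 * u ^ 4 := mul_le_mul_of_nonneg_right (by linarith) (by positivity)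
        _ = u ^ 9 := by ring
    have h2 : A * (4 * u ^ 4) ≤ B := (mul_le_mul_of_nonneg_left h1 hA0.le).trans hb
    calc T ≤ 2 * u * D := hTr
      _ ≤ 2 * u * (A ^ 2 * u ^ 3) := mul_le_mul_of_nonneg_left hsmall.le (by positivity)
      _ = A * (A * (4 * u ^ 4)) / 2 := by ring
      _ ≤ A * B / 2 := by
          have := mul_le_mul_of_nonneg_left h2 hA0.le
          linarith
  have hig : A * B / 2 ≤ R * G := by linarith
  have h2 : 2 * A * R ^ 2 ≤ 2 * u * D := by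
    have h3 : R ^ 2 ≤ (u ^ 2) ^ 2 := pow_le_pow_left₀ hR.le hRu 2
    have h4 : 1 ≤ h * u ^ 3 := by
      have : (1 : ℝ) ≤ u ^ 3 := one_le_pow₀ (by linarith)
      nlinarith
    have h5 : A * u ^ 3 ≤ D := by
      calc A * u ^ 3 = A * u ^ 3 * 1 := by ring
        _ ≤ A * u ^ 3 * (h * u ^ 3) := mul_le_mul_of_nonneg_left h4 hau.le
        _ = A * h * u ^ 6 := by ring
        _ ≤ D := hD
    calc 2 * A * R ^ 2 ≤ 2 * A * (u ^ 2) ^ 2 := mul_le_mul_of_nonneg_left h3 (by positivity)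
      _ = 2 * u * (A * u ^ 3) := by ring
      _ ≤ 2 * u * D := mul_le_mul_of_nonneg_left h5 (by positivity)
  have h5 : (T + 2 * A * R ^ 2) * A ≤ 4 * u * D * A :=
    mul_le_mul_of_nonneg_right (by linarith) hA0.le
  have h6 : A * B / 2 * k ≤ R * (G * k) := by
    have hk0 : 0 ≤ k := hx0.le.trans hkx
    have := mul_le_mul_of_nonneg_right hig hk0
    linarith
  have h7 : A * (A * u ^ 9) / 2 * x ≤ A * B / 2 * k := by
    apply mul_le_mul _ hkx hx0.le
    · have : 0 ≤ B := le_trans (by positivity) hb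
      positivity
    · have := mul_le_mul_of_nonneg_left hb hA0.le
      linarith
  have h8 : A * (A * u ^ 9) / 2 * x = A * u ^ 6 / 2 * D := by
    rw [← hxD]
    ring
  have h9 : (4 * u * D * A) * R ≤ A * u ^ 6 / 2 * D := by
    have h10 : (8 : ℝ) ^ 3 ≤ u ^ 3 := pow_le_pow_left₀ (by norm_num) hu 3
    have h11 : 4 * u ^ 3 ≤ u ^ 6 / 2 := by
      have h12 : 0 ≤ u ^ 3 := by positivity
      have h13 : u ^ 6 = u ^ 3 * u ^ 3 := by ring
      nlinarith
    calc (4 * u * D * A) * R ≤ (4 * u * D * A) * u ^ 2 :=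
          mul_le_mul_of_nonneg_left hRu (by positivity)
      _ = A * D * (4 * u ^ 3) := by ring
      _ ≤ A * D * (u ^ 6 / 2) := mul_le_mul_of_nonneg_left h11 (by positivity)
      _ = A * u ^ 6 / 2 * D := by ring
  have h12 : (4 * u * D * A) * R ≤ (G * k) * R := by linarith
  exact h5.trans (le_of_mul_le_mul_right h12 hR)

/-- The reduced partition of case I. -/
theorem caseI_key {a b R : ℕ} (lam : Fin a → ℕ) (hlam : Antitone lam)
    (hsum : ∑ i, lam i = a * b) (hRa : R < a) {i k : ℕ} (hi : 1 ≤ i) (hiR : i ≤ R) (hk : 1 ≤ k)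
    (hka : k ≤ a) (hdvd : 2 * i ∣ a - k) (hRk : R * k ≤ R * ex lam R + ∑ i, low R lam i)
    (hor : k = a ∨ (R * ex lam R + ∑ i, low R lam i + 2 * a * R ^ 2) * a ≤
      i * (ex lam (i - 1) - ex lam i) * k) :
    ∃ (N : ℕ) (mu : Fin a → ℕ), Antitone mu ∧ ∑ s, mu s = k * N ∧ N ≤ b ∧
      ∑ i, low R lam i ≤ k * N ∧ ex mu 0 ≤ ex lam R + 2 * a * R ∧
      (∀ j, R ≤ j → ex mu j = ex lam j) ∧ plethMult N k a mu ≤ plethMult b a a lam := by
  have ha : 0 < a := by omega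
  have hT := sum_max hRa.le lam
  obtain ⟨N, r, mu, hmu, hmua, hmus, hNb, hiN, hr1, hr2, hr3, hple⟩ :=
    dec_exists lam hlam hsum hi hiR hRa.le hRa hk hka hdvd (fun _ => 0)
      (fun _ _ _ => Nat.zero_le _) (by rw [hT]; exact hRk) (by
        rcases hor with h1 | h1
        · exact Or.inl h1
        · right
          rw [hT]
          simp only [mul_zero, Finset.sum_const_zero, add_zero]
          exact h1)
  refine ⟨N, mu, hmua, hmus, hNb, ?_, ?_, ex_mu_low lam mu r hmu, hple⟩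
  · rw [← hmus]
    have h1 : ∑ s : Fin a, ex lam (max s R) ≤ ∑ s, mu s := by
      apply Finset.sum_le_sum
      intro s _
      rw [hmu s]
      exact Nat.le_add_right _ _
    omega
  · rw [ex_of_lt mu ha, hmu]
    simp only [Nat.zero_le, max_eq_right]
    apply Nat.add_le_add_left
    have h1 : Ioc 0 R = Icc 1 R := by
      ext j
      simp only [mem_Ioc, mem_Icc]
      omega
    rw [h1]
    calc ∑ j ∈ Icc 1 R, r j ≤ ∑ _j ∈ Icc 1 R, 2 * a := by
          apply Finset.sum_le_sum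
          intro j hj
          rw [mem_Icc] at hj
          by_cases hji : j = i
          · subst hji
            have := hr2.2
            omega
          · have := (hr1 j hj.1 hj.2 hji).2
            omega
      _ = 2 * a * R := by
          rw [Finset.sum_const, Nat.card_Icc, smul_eq_mul, Nat.add_sub_cancel, mul_comm]

lemma sum_heads {a R : ℕ} (hRa : R ≤ a) (lam : Fin a → ℕ) (hlam : Antitone lam) :
    ∑ i, lam i = R * ex lam R + ∑ i, low R lam i +
      ∑ j ∈ Icc 1 R, j * (ex lam (j - 1) - ex lam j) := by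
  have hanti : Antitone (ex lam) := fun s t hst => ex_anti hlam hst
  have h1 : ∀ s : Fin a, lam s = ex lam (max s R) +
      ∑ j ∈ Ioc (s : ℕ) R, (ex lam (j - 1) - ex lam j) := by
    intro s
    have h2 := tele hanti R s
    rw [ex_of_lt lam s.2] at h2
    exact h2
  rw [Finset.sum_congr rfl (fun s _ => h1 s), Finset.sum_add_distrib, sum_sum_Ioc _ hRa,
    sum_max hRa lam]

/-- The choice of the numbers in case I: `u = a ^ δ`, many cells below. -/
theorem caseI_pick_big {a b R : ℕ} (lam : Fin a → ℕ) (hlam : Antitone lam)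
    (hsum : ∑ i, lam i = a * b) (hR1 : 1 ≤ R) (hRa : R < a) (u : ℝ) (hu : 8 ≤ u)
    (hbig : (a : ℝ) ^ 2 * u ^ 3 ≤ ((∑ i, low R lam i : ℕ) : ℝ)) :
    ∃ (N : ℕ) (mu : Fin a → ℕ), Antitone mu ∧ ∑ s, mu s = a * N ∧ N ≤ b ∧
      (a : ℝ) * u ^ 3 / 2 ≤ N ∧ ∑ i, low R lam i ≤ a * N ∧ ex mu 0 ≤ ex lam R + 2 * a * R ∧
      (∀ j, R ≤ j → ex mu j = ex lam j) ∧ plethMult N a a mu ≤ plethMult b a a lam := by
  have ha : 0 < a := by omega
  have haR : (0 : ℝ) < a := by exact_mod_cast ha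
  have hRk : R * a ≤ R * ex lam R + ∑ i, low R lam i := by
    have h1 : ((R * a : ℕ) : ℝ) ≤ ((∑ i, low R lam i : ℕ) : ℝ) := by
      rw [Nat.cast_mul]
      have e1 : (R : ℝ) ≤ a := by exact_mod_cast hRa.le
      have e2 : (R : ℝ) * a ≤ a ^ 2 := by nlinarith
      have e3 : (a : ℝ) ^ 2 ≤ a ^ 2 * u ^ 3 := by
        have : (1 : ℝ) ≤ u ^ 3 := one_le_pow₀ (by linarith)
        nlinarith [sq_nonneg (a : ℝ)]
      linarith
    have h2 : R * a ≤ ∑ i, low R lam i := by exact_mod_cast h1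
    omega
  obtain ⟨N, mu, h1, h2, h3, h4, h5, h6, h7⟩ := caseI_key lam hlam hsum hRa (i := 1) (k := a)
    le_rfl hR1 (by omega) le_rfl (by simp) hRk (Or.inl rfl)
  refine ⟨N, mu, h1, h2, h3, ?_, h4, h5, h6, h7⟩
  have h8 : ((∑ i, low R lam i : ℕ) : ℝ) ≤ a * N := by exact_mod_cast h4
  have h9 : (a : ℝ) * (a * u ^ 3) ≤ a * N := by
    calc (a : ℝ) * (a * u ^ 3) = a ^ 2 * u ^ 3 := by ring
      _ ≤ _ := hbig.trans h8
  have h10 := le_of_mul_le_mul_left h9 haR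
  have h11 : 0 ≤ (a : ℝ) * u ^ 3 := by positivity
  linarith

/-- The choice of the numbers in case I, few cells below: `u = a ^ δ`, `h = a ^ (1/2)`. -/
theorem caseI_pick_small {a b R : ℕ} (lam : Fin a → ℕ) (hlam : Antitone lam)
    (hsum : ∑ i, lam i = a * b) (hR1 : 1 ≤ R) (hRa : R < a) (u h : ℝ) (hu : 8 ≤ u) (hh : 1 ≤ h)
    (hb : a * u ^ 9 ≤ (b : ℝ)) (hRu : (R : ℝ) ≤ u ^ 2)
    (hD : a * h * u ^ 6 ≤ ((∑ i, low R lam i : ℕ) : ℝ))
    (hlamR : u * ex lam R ≤ ((∑ i, low R lam i : ℕ) : ℝ))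
    (hsmall : ((∑ i, low R lam i : ℕ) : ℝ) < (a : ℝ) ^ 2 * u ^ 3) :
    ∃ (N k : ℕ) (mu : Fin a → ℕ), Antitone mu ∧ ∑ s, mu s = k * N ∧ N ≤ b ∧ k ≤ a ∧
      h * u ^ 3 ≤ k ∧ (a : ℝ) * u ^ 3 / 2 ≤ N ∧
      ∑ i, low R lam i ≤ k * N ∧ ex mu 0 ≤ ex lam R + 2 * a * R ∧
      (∀ j, R ≤ j → ex mu j = ex lam j) ∧ plethMult N k a mu ≤ plethMult b a a lam := by
  have ha : 0 < a := by omega
  have haR : (0 : ℝ) < a := by exact_mod_cast ha
  have ha1 : (1 : ℝ) ≤ a := by exact_mod_cast ha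
  have hu0 : (0 : ℝ) < u := by linarith
  have hheads := sum_heads hRa.le lam hlam
  rw [hsum] at hheads
  obtain ⟨i, hi, hiR, hmax⟩ := exists_argmax R hR1 (fun j => ex lam (j - 1) - ex lam j)
  generalize hDdef : ∑ i, low R lam i = D at *
  have hau : (0 : ℝ) < a * u ^ 3 := by positivity
  obtain ⟨x, hxD⟩ : ∃ x : ℝ, x * (a * u ^ 3) = D := ⟨D / (a * u ^ 3), div_mul_cancel₀ _ hau.ne'⟩
  have hD0 : (0 : ℝ) < D := by
    refine lt_of_lt_of_le ?_ hD
    positivity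
  have hx1 : h * u ^ 3 ≤ x := by
    have h1 : (h * u ^ 3) * (a * u ^ 3) ≤ x * (a * u ^ 3) := by
      rw [hxD]
      calc (h * u ^ 3) * (a * u ^ 3) = a * h * u ^ 6 := by ring
        _ ≤ (D : ℝ) := hD
    exact le_of_mul_le_mul_right h1 hau
  have hx2 : x ≤ a := by
    have h1 : x * (a * u ^ 3) ≤ a * (a * u ^ 3) := by
      rw [hxD]
      calc (D : ℝ) ≤ a ^ 2 * u ^ 3 := hsmall.le
        _ = a * (a * u ^ 3) := by ring
    exact le_of_mul_le_mul_right h1 hau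
  have hx0 : 0 < x := lt_of_lt_of_le (by positivity) hx1
  have hiu : (i : ℝ) ≤ u ^ 2 := le_trans (by exact_mod_cast hiR) hRu
  have hx3 : 1 + 2 * (i : ℝ) ≤ x := by
    refine le_trans ?_ hx1
    have h4 : 1 + 2 * u ^ 2 ≤ u ^ 3 := by nlinarith [sq_nonneg u]
    have h5 : u ^ 3 ≤ h * u ^ 3 := by
      have : 0 ≤ u ^ 3 := by positivity
      nlinarith
    linarith
  obtain ⟨k, hkx, hkx', hka, hdvd, hk1⟩ := pick_k hi hx3 hx2
  have hRk : R * k ≤ R * ex lam R + D := by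
    have h1 : ((R * k : ℕ) : ℝ) ≤ D := by
      rw [Nat.cast_mul]
      calc (R : ℝ) * k ≤ u ^ 2 * (2 * x) := by
            apply mul_le_mul hRu hkx' (Nat.cast_nonneg _) (by positivity)
        _ = x * (2 * u ^ 2) := by ring
        _ ≤ x * (a * u ^ 3) := by
            apply mul_le_mul_of_nonneg_left _ hx0.le
            have h4 : 2 * u ^ 2 ≤ u ^ 3 := by nlinarith [sq_nonneg u]
            have h5 : u ^ 3 ≤ a * u ^ 3 := by
              have : 0 ≤ u ^ 3 := by positivity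
              nlinarith
            linarith
        _ = D := hxD
    have h2 : R * k ≤ D := by exact_mod_cast h1
    omega
  have hcond : (R * ex lam R + D + 2 * a * R ^ 2) * a ≤
      i * (ex lam (i - 1) - ex lam i) * k := by
    generalize ex lam (i - 1) - ex lam i = gi at hmax ⊢
    have h1 := caseI_real (A := a) (B := b) (D := D) (T := R * ex lam R + D) (R := R)
      (G := i * gi) (k := k) (x := x) (u := u) (h := h) (l := ex lam R) ha1 hD0 hu hh
      (by exact_mod_cast hR1) (Nat.cast_nonneg _) hRu hb rfl hlamR hD hsmall (by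
        have h2 : a * b ≤ R * ex lam R + D + R * (i * gi) := by
          rw [hheads]
          exact Nat.add_le_add_left hmax _
        exact_mod_cast h2) hxD hkx
    exact_mod_cast h1
  obtain ⟨N, mu, h1, h2, h3, h4, h5, h6, h7⟩ := caseI_key lam hlam hsum hRa hi hiR hk1 hka hdvd
    (by rw [hDdef]; exact hRk) (Or.inr (by rw [hDdef]; exact hcond))
  rw [hDdef] at h4
  refine ⟨N, k, mu, h1, h2, h3, hka, hx1.trans hkx, ?_, h4, h5, h6, h7⟩
  have h8 : (D : ℝ) ≤ k * N := by exact_mod_cast h4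
  have h9 : x * (a * u ^ 3) ≤ 2 * x * N := by
    rw [hxD]
    exact h8.trans (mul_le_mul_of_nonneg_right hkx' (Nat.cast_nonneg _))
  have h10 : x * (a * u ^ 3) ≤ x * (2 * N) := by linarith
  have h11 := le_of_mul_le_mul_left h10 hx0
  linarith

/-- The hypotheses of LB6 for the reduced partition and the comparison. -/
theorem caseI_main (hU : UpStmt) (hCut : CutRev) (hUse : T6.UseStmt) {a b R N k : ℕ} {δ : ℝ}
    (hLB : ∀ (k b n : ℕ) (lam : Fin n → ℕ), T6.Hyp (δ / 2) a k b n lam →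
      ∃ P : ℕ, T6.Family k b n lam P ∧ (gt n a lam : ℝ) * Real.exp (2 * b) ≤ P)
    {lam mu : Fin a → ℕ} (hlam : Antitone lam) (hsum : ∑ i, lam i = a * b)
    (hb2 : b ≤ a ^ 2) (hRa : R < a) (v u h : ℝ) (hv : 8 ≤ v) (huv : u = v ^ 2) (hh : 1 ≤ h)
    (hA : (a : ℝ) = h ^ 2)
    (hv1 : (a : ℝ) ^ (1 / 2 + δ / 2) = h * v) (hv2 : (a : ℝ) ^ (1 + δ / 2) = a * v)
    (hv3 : (a : ℝ) ^ (-(δ / 2)) = v⁻¹) (hva : v ≤ h)
    (hlog : Real.log ((a : ℝ) ^ 3 + 1) ≤ u / 2) (hRu : (R : ℝ) ≤ u ^ 2)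
    (hD : a * h * u ^ 6 ≤ ((∑ i, low R lam i : ℕ) : ℝ))
    (hlamR : u * ex lam R ≤ ((∑ i, low R lam i : ℕ) : ℝ))
    (hmu : Antitone mu) (hmus : ∑ s, mu s = k * N) (hN : N ≤ b) (hka : k ≤ a)
    (hk : k = a ∨ h * u ^ 3 ≤ k) (hNu : (a : ℝ) * u ^ 3 / 2 ≤ N)
    (hDk : ∑ i, low R lam i ≤ k * N) (hmu0 : ex mu 0 ≤ ex lam R + 2 * a * R)
    (hlow : ∀ j, R ≤ j → ex mu j = ex lam j)
    (hle : plethMult N k a mu ≤ plethMult b a a lam) :
    plethMult a b a lam ≤ plethMult b a a lam := by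
  have ha : 0 < a := by omega
  have ha1 : (1 : ℝ) ≤ a := by exact_mod_cast ha
  have hu0 : 64 ≤ u := by rw [huv]; nlinarith
  generalize hDdef : ∑ i, low R lam i = D at *
  have hDk' : (D : ℝ) ≤ k * N := by exact_mod_cast hDk
  have hau : 0 ≤ (a : ℝ) := by linarith
  have hyp : T6.Hyp (δ / 2) a k N a mu := by
    refine ⟨le_rfl, ?_, hka, ?_, hN.trans hb2, hmu, hmus, ?_⟩
    · rw [hv1]
      rcases hk with hk | hk
      · rw [hk, hA]
        nlinarith
      · refine le_trans ?_ hk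
        apply mul_le_mul_of_nonneg_left _ (by linarith)
        rw [huv]
        have h1 : (1 : ℝ) ≤ v ^ 5 := one_le_pow₀ (by linarith)
        calc v = v * 1 := by ring
          _ ≤ v * v ^ 5 := mul_le_mul_of_nonneg_left h1 (by linarith)
          _ = (v ^ 2) ^ 3 := by ring
    · rw [hv2]
      refine le_trans ?_ hNu
      have h1 : v ≤ u ^ 3 / 2 := by
        rw [huv]
        have h1 : (2 : ℝ) ≤ v ^ 5 := by
          have h2 : (8 : ℝ) ^ 5 ≤ v ^ 5 := pow_le_pow_left₀ (by norm_num) hv 5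
          linarith
        have h3 : (v ^ 2) ^ 3 = v * v ^ 5 := by ring
        rw [h3]
        nlinarith
      calc (a : ℝ) * v ≤ a * (u ^ 3 / 2) := mul_le_mul_of_nonneg_left h1 hau
        _ = a * u ^ 3 / 2 := by ring
    · rw [hv3]
      have h1 : (ex mu 0 : ℝ) ≤ ex lam R + 2 * a * R := by exact_mod_cast hmu0
      have h2 : u * (2 * a * R) ≤ D := by
        calc u * (2 * a * R) ≤ u * (2 * a * u ^ 2) := by
              apply mul_le_mul_of_nonneg_left _ (by linarith)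
              exact mul_le_mul_of_nonneg_left hRu (by linarith)
          _ = a * (2 * u ^ 3) := by ring
          _ ≤ a * (h * u ^ 6) := by
              apply mul_le_mul_of_nonneg_left _ hau
              have h3 : (2 : ℝ) ≤ u ^ 3 := by
                have h2 : (64 : ℝ) ^ 3 ≤ u ^ 3 := pow_le_pow_left₀ (by norm_num) hu0 3
                linarith
              calc 2 * u ^ 3 ≤ u ^ 3 * u ^ 3 := mul_le_mul_of_nonneg_right h3 (by positivity)
                _ = 1 * u ^ 6 := by ring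
                _ ≤ h * u ^ 6 := mul_le_mul_of_nonneg_right hh (by positivity)
          _ = a * h * u ^ 6 := by ring
          _ ≤ D := hD
      have h3 : u * ex mu 0 ≤ 2 * (k * N) := by
        calc u * ex mu 0 ≤ u * (ex lam R + 2 * a * R) :=
              mul_le_mul_of_nonneg_left h1 (by linarith)
          _ = u * ex lam R + u * (2 * a * R) := by ring
          _ ≤ 2 * (k * N) := by linarith
      rw [inv_mul_eq_div, le_div_iff₀ (by linarith)]
      have h4 : v * (ex mu 0 * v) ≤ v * (k * N) := by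
        have h5 : v * (ex mu 0 * v) = u * ex mu 0 := by rw [huv]; ring
        have h6 : 0 ≤ (k : ℝ) * N := by positivity
        rw [h5]
        nlinarith
      exact le_of_mul_le_mul_left h4 (by linarith)
  obtain ⟨P, hfam, hP⟩ := hLB k N a mu hyp
  have hPm := (hUse k N a P mu hfam).trans hle
  have hL : ex lam 0 ≤ a ^ 3 := by
    rw [ex_of_lt lam ha]
    calc lam ⟨0, ha⟩ ≤ ∑ i, lam i :=
          Finset.single_le_sum (f := lam) (fun _ _ => Nat.zero_le _) (mem_univ _)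
      _ = a * b := hsum
      _ ≤ a * a ^ 2 := Nat.mul_le_mul_left _ hb2
      _ = a ^ 3 := by ring
  have hL' : ex mu 0 ≤ a ^ 3 := by
    rw [ex_of_lt mu ha]
    calc mu ⟨0, ha⟩ ≤ ∑ i, mu i :=
          Finset.single_le_sum (f := mu) (fun _ _ => Nat.zero_le _) (mem_univ _)
      _ = k * N := hmus
      _ ≤ a * a ^ 2 := Nat.mul_le_mul hka (hN.trans hb2)
      _ = a ^ 3 := by ring
  refine caseI_fin hU hCut (N := N) hRa.le hlam hmu hlow (a ^ 3) hL hL' ?_ hP hPm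
  have hpos : (0 : ℝ) < (a : ℝ) ^ 3 + 1 := by positivity
  rw [Nat.cast_pow, ← Real.exp_log (pow_pos hpos _), Real.exp_le_exp, Real.log_pow]
  have h1 : ((2 * (a * R) : ℕ) : ℝ) * Real.log ((a : ℝ) ^ 3 + 1) ≤
      (2 * (a * R) : ℕ) * (u / 2) := mul_le_mul_of_nonneg_left hlog (Nat.cast_nonneg _)
  refine h1.trans ?_
  push_cast
  have h2 : (a : ℝ) * R * u ≤ a * u ^ 2 * u :=
    mul_le_mul_of_nonneg_right (mul_le_mul_of_nonneg_left hRu hau) (by linarith)
  nlinarith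

lemma caseI_log {A δ v : ℝ} (hA : 1 < A) (hδ : 0 < δ) (hv : v = A ^ (δ / 2))
    (hv8 : 8 + 12 / δ ≤ v) : Real.log (A ^ 3 + 1) ≤ v ^ 2 / 2 := by
  have hA0 : 0 < A := by linarith
  have h12 : 0 < 12 / δ := by positivity
  have hv0 : 0 < v := by linarith
  have h1 : Real.log A ≤ v / (δ / 2) := by
    rw [hv]
    exact Real.log_le_rpow_div hA0.le (by positivity)
  have h2 : A ^ 3 + 1 ≤ Real.exp 1 * A ^ 3 := by
    have h3 : 1 ≤ A ^ 3 := one_le_pow₀ hA.le
    have h4 : (2 : ℝ) ≤ Real.exp 1 := by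
      have := Real.add_one_le_exp (1 : ℝ)
      linarith
    nlinarith
  have h5 : Real.log (A ^ 3 + 1) ≤ 1 + 3 * Real.log A := by
    refine (Real.log_le_log (by positivity) h2).trans (le_of_eq ?_)
    rw [Real.log_mul (Real.exp_pos 1).ne' (by positivity), Real.log_exp, Real.log_pow]
    norm_num
  have h6 : v / (δ / 2) = 2 / δ * v := by
    field_simp
  have h7 : (12 / δ + 2) * v ≤ v * v := by
    apply mul_le_mul_of_nonneg_right _ hv0.le
    linarith
  have h8 : 12 / δ * v = 6 * (2 / δ * v) := by ring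
  rw [h6] at h1
  have h9 : v ^ 2 = v * v := by ring
  rw [h9]
  linarith

theorem caseI_zero (hU : UpStmt) (hCut : CutRev) (hUse : T6.UseStmt) {a b : ℕ} {δ : ℝ}
    (hLB : ∀ (k b n : ℕ) (lam : Fin n → ℕ), T6.Hyp (δ / 2) a k b n lam →
      ∃ P : ℕ, T6.Family k b n lam P ∧ (gt n a lam : ℝ) * Real.exp (2 * b) ≤ P)
    {lam : Fin a → ℕ} (hlam : Antitone lam) (hsum : ∑ i, lam i = a * b)
    (hb2 : b ≤ a ^ 2) (v h : ℝ) (hv : 8 ≤ v) (hh : 1 ≤ h) (hA : (a : ℝ) = h ^ 2)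
    (hv1 : (a : ℝ) ^ (1 / 2 + δ / 2) = h * v) (hv2 : (a : ℝ) ^ (1 + δ / 2) = a * v)
    (hv3 : (a : ℝ) ^ (-(δ / 2)) = v⁻¹) (hva : v ≤ h) (hb' : (a : ℝ) * (v ^ 2) ^ 9 ≤ b)
    (hlamR : v ^ 2 * ex lam 0 ≤ ((∑ i, low 0 lam i : ℕ) : ℝ)) :
    plethMult a b a lam ≤ plethMult b a a lam := by
  have ha0 : (0 : ℝ) ≤ a := Nat.cast_nonneg a
  have hv0 : 0 < v := by linarith
  have hDs : ∑ i, low 0 lam i = a * b := by
    have := T4.sum_split (Nat.zero_le a) lam
    rw [Finset.range_zero, Finset.sum_empty, zero_add] at this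
    rw [← this, hsum]
  rw [hDs, Nat.cast_mul] at hlamR
  have hyp : T6.Hyp (δ / 2) a a b a lam := by
    refine ⟨le_rfl, ?_, le_rfl, ?_, hb2, hlam, hsum, ?_⟩
    · rw [hv1, hA]
      nlinarith
    · rw [hv2]
      refine le_trans ?_ hb'
      apply mul_le_mul_of_nonneg_left _ ha0
      have h1 : (1 : ℝ) ≤ v ^ 17 := one_le_pow₀ (by linarith)
      calc v = v * 1 := by ring
        _ ≤ v * v ^ 17 := mul_le_mul_of_nonneg_left h1 hv0.le
        _ = (v ^ 2) ^ 9 := by ring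
    · rw [hv3, inv_mul_eq_div, le_div_iff₀ hv0]
      refine le_trans ?_ hlamR
      have h1 : (0 : ℝ) ≤ ex lam 0 := Nat.cast_nonneg _
      have h2 : v ≤ v ^ 2 := by nlinarith
      calc (ex lam 0 : ℝ) * v = v * ex lam 0 := mul_comm _ _
        _ ≤ v ^ 2 * ex lam 0 := mul_le_mul_of_nonneg_right h2 h1
  obtain ⟨P, hfam, hP⟩ := hLB a b a lam hyp
  have hPm := hUse a b a P lam hfam
  refine caseI_fin hU hCut (N := b) (Nat.zero_le a) hlam hlam (fun _ _ => rfl) (ex lam 0) le_rfl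
    le_rfl ?_ hP hPm
  rw [mul_zero, mul_zero, pow_zero]
  exact Real.one_le_exp (by positivity)

theorem caseI_pos (hU : UpStmt) (hCut : CutRev) (hUse : T6.UseStmt) {a b R : ℕ} {δ : ℝ}
    (hLB : ∀ (k b n : ℕ) (lam : Fin n → ℕ), T6.Hyp (δ / 2) a k b n lam →
      ∃ P : ℕ, T6.Family k b n lam P ∧ (gt n a lam : ℝ) * Real.exp (2 * b) ≤ P)
    {lam : Fin a → ℕ} (hlam : Antitone lam) (hsum : ∑ i, lam i = a * b)
    (hb2 : b ≤ a ^ 2) (hR1 : 1 ≤ R) (hRa : R < a) (v h : ℝ) (hv : 8 ≤ v) (hh : 1 ≤ h)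
    (hA : (a : ℝ) = h ^ 2)
    (hv1 : (a : ℝ) ^ (1 / 2 + δ / 2) = h * v) (hv2 : (a : ℝ) ^ (1 + δ / 2) = a * v)
    (hv3 : (a : ℝ) ^ (-(δ / 2)) = v⁻¹) (hva : v ≤ h) (hb' : (a : ℝ) * (v ^ 2) ^ 9 ≤ b)
    (hlog : Real.log ((a : ℝ) ^ 3 + 1) ≤ v ^ 2 / 2) (hRu : (R : ℝ) ≤ (v ^ 2) ^ 2)
    (hD : a * h * (v ^ 2) ^ 6 ≤ ((∑ i, low R lam i : ℕ) : ℝ))
    (hlamR : v ^ 2 * ex lam R ≤ ((∑ i, low R lam i : ℕ) : ℝ)) :
    plethMult a b a lam ≤ plethMult b a a lam := by
  have hv64 : 8 ≤ v ^ 2 := by nlinarith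
  by_cases hbig : (a : ℝ) ^ 2 * (v ^ 2) ^ 3 ≤ ((∑ i, low R lam i : ℕ) : ℝ)
  · obtain ⟨N, mu, h1, h2, h3, h4, h5, h6, h7, h8⟩ := caseI_pick_big lam hlam hsum hR1 hRa
      (v ^ 2) hv64 hbig
    exact caseI_main hU hCut hUse hLB hlam hsum hb2 hRa v (v ^ 2) h hv rfl hh hA hv1 hv2 hv3
      hva hlog hRu hD hlamR h1 h2 h3 le_rfl (Or.inl rfl) h4 h5 h6 h7 h8
  · push Not at hbig
    obtain ⟨N, k, mu, h1, h2, h3, h4, h5, h6, h7, h8, h9, h10⟩ := caseI_pick_small lam hlam hsum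
      hR1 hRa (v ^ 2) h hv64 hh hb' hRu hD hlamR hbig
    exact caseI_main hU hCut hUse hLB hlam hsum hb2 hRa v (v ^ 2) h hv rfl hh hA hv1 hv2 hv3
      hva hlog hRu hD hlamR h1 h2 h3 h4 (Or.inr h5) h6 h7 h8 h9 h10

/-- **Case I.** -/
theorem caseI (hLB : T6.LB6) (hUse : T6.UseStmt) (hU : UpStmt) (hCut : CutRev) : CaseI := by
  intro δ hδ hδ1
  have hlim : ∀ᶠ a : ℕ in Filter.atTop, 8 + 12 / δ ≤ (a : ℝ) ^ (δ / 2) := by
    have h1 : Filter.Tendsto (fun a : ℕ => (a : ℝ) ^ (δ / 2)) Filter.atTop Filter.atTop :=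
      (tendsto_rpow_atTop (by positivity)).comp tendsto_natCast_atTop_atTop
    exact h1.eventually_ge_atTop _
  filter_upwards [hLB (δ / 2) (by positivity) (by linarith), hlim, Filter.eventually_ge_atTop 2]
    with a hLBa hv ha b R lam hb2 hb hlam hsum hR hD hlamR
  have ha1 : (1 : ℝ) < a := by exact_mod_cast (by omega : 1 < a)
  have ha0 : (0 : ℝ) < a := by linarith
  obtain ⟨v, hvdef⟩ : ∃ v : ℝ, v = (a : ℝ) ^ (δ / 2) := ⟨_, rfl⟩
  obtain ⟨h, hhdef⟩ : ∃ h : ℝ, h = (a : ℝ) ^ (1 / 2 : ℝ) := ⟨_, rfl⟩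
  rw [← hvdef] at hv
  have hv8 : 8 ≤ v := by
    have : 0 < 12 / δ := by positivity
    linarith
  have hh : 1 ≤ h := by
    rw [hhdef]
    exact Real.one_le_rpow ha1.le (by norm_num)
  have hA : (a : ℝ) = h ^ 2 := by
    rw [hhdef, ← Real.rpow_natCast, ← Real.rpow_mul ha0.le]
    norm_num
  have huδ : (a : ℝ) ^ δ = v ^ 2 := by
    rw [hvdef, ← Real.rpow_natCast, ← Real.rpow_mul ha0.le]
    congr 1
    push_cast
    ring
  have hpow : ∀ n : ℕ, (a : ℝ) ^ (n * δ) = (v ^ 2) ^ n := by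
    intro n
    rw [mul_comm, Real.rpow_mul ha0.le, huδ, Real.rpow_natCast]
  have hRa : R < a := by
    have h1 : (a : ℝ) ^ (2 * δ) < (a : ℝ) ^ (1 : ℝ) :=
      Real.rpow_lt_rpow_of_exponent_lt ha1 (by linarith)
    rw [Real.rpow_one] at h1
    exact_mod_cast lt_of_le_of_lt hR h1
  rw [below_eq hRa.le] at hD hlamR
  rw [huδ] at hlamR
  have hvh : v ≤ h := by
    rw [hvdef, hhdef]
    exact Real.rpow_le_rpow_of_exponent_le ha1.le (by linarith)
  have hv1 : (a : ℝ) ^ (1 / 2 + δ / 2) = h * v := by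
    rw [hvdef, hhdef]
    exact Real.rpow_add ha0 _ _
  have hv2 : (a : ℝ) ^ (1 + δ / 2) = a * v := by
    rw [hvdef, Real.rpow_add ha0, Real.rpow_one]
  have hv3 : (a : ℝ) ^ (-(δ / 2)) = v⁻¹ := by
    rw [hvdef]
    exact Real.rpow_neg ha0.le _
  have hb' : (a : ℝ) * (v ^ 2) ^ 9 ≤ b := by
    refine le_trans (le_of_eq ?_) hb
    rw [Real.rpow_add ha0, Real.rpow_one, ← hpow 9]
    norm_num
  have hRu : (R : ℝ) ≤ (v ^ 2) ^ 2 := by
    refine hR.trans (le_of_eq ?_)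
    rw [← hpow 2]
    norm_num
  have hD' : (a : ℝ) * h * (v ^ 2) ^ 6 ≤ ((∑ i, low R lam i : ℕ) : ℝ) := by
    refine le_trans (le_of_eq ?_) hD
    rw [show (3 / 2 + 6 * δ : ℝ) = 1 + 1 / 2 + (6 : ℕ) * δ by push_cast; ring, Real.rpow_add ha0,
      Real.rpow_add ha0, Real.rpow_one, hpow 6, hhdef]
  have hlog : Real.log ((a : ℝ) ^ 3 + 1) ≤ v ^ 2 / 2 := caseI_log ha1 hδ hvdef hv
  rcases Nat.eq_zero_or_pos R with hR0 | hR1
  · subst hR0
    exact caseI_zero hU hCut hUse hLBa hlam hsum hb2 v h hv8 hh hA hv1 hv2 hv3 hvh hb' hlamR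
  · exact caseI_pos hU hCut hUse hLBa hlam hsum hb2 hR1 hRa v h hv8 hh hA hv1 hv2 hv3 hvh hb'
      hlog hRu hD' hlamR

end Vale.Agent.P181.T7
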