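import Vale.Agent.P181.H699.CaseI
import Vale.Agent.P181.H403.LB6s

set_option autoImplicit false

/-!
# P181, T8: case I with a general threshold `a ^ (1 + τ)` for the lower part

`LBg τ` is the lower bound for `b` letters of degree `k ≥ a ^ (τ + 6 ε)` (or `k = a`).
-/

open Finset

namespace Vale.Agent.P181.T8

open Vale.Agent.P181.T4 Vale.Agent.P181.H280 Vale.Agent.P181.H463 Vale.Agent.P181.T7

/-- The lower bound: `b` letters of degree `k`, either `k = a`, or `k ≥ a ^ (τ + 6 ε)` and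
`b ≤ a ^ (1 + 9 ε)`. -/
def LBg (τ : ℝ) : Prop := ∀ ε : ℝ, 0 < ε → ε ≤ 1 / 200 → ∀ᶠ a : ℕ in Filter.atTop,
  ∀ (k b n : ℕ) (lam : Fin n → ℕ), Hyp2 ε a k b n lam →
    (k = a ∨ ((a : ℝ) ^ (τ + 6 * ε) ≤ k ∧ (b : ℝ) ≤ (a : ℝ) ^ (1 + 9 * ε))) →
    (gt n a lam : ℝ) * Real.exp (2 * b) ≤ plethMult b k n lam

/-- The lower bound in the form of `lb6s` and LB9. -/
def LB8g : Prop := ∀ ε : ℝ, 0 < ε → ε ≤ 1 / 2 → ∀ᶠ a : ℕ in Filter.atTop,
  ∀ (k b n : ℕ) (lam : Fin n → ℕ), Hyp2 ε a k b n lam →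
    (a : ℝ) ^ (2 * ε) * (b : ℝ) ^ (1 / 2 + ε) ≤ (k : ℝ) ^ 2 →
    (gt n a lam : ℝ) * Real.exp (2 * b) ≤ plethMult b k n lam

/-- Case I with threshold `a ^ (1 + τ + 6 δ)`. -/
def CaseIg (τ : ℝ) : Prop := ∀ δ : ℝ, 0 < δ → δ ≤ 1 / 100 → ∀ᶠ a : ℕ in Filter.atTop, ∀ (b R : ℕ)
  (lam : Fin a → ℕ), b ≤ a ^ 2 → (a : ℝ) ^ (1 + 9 * δ) ≤ b → Antitone lam →
  ∑ i, lam i = a * b → (R : ℝ) ≤ (a : ℝ) ^ (2 * δ) → (a : ℝ) ^ (1 + τ + 6 * δ) ≤ below R lam →
  (a : ℝ) ^ δ * ex lam R ≤ below R lam → plethMult a b a lam ≤ plethMult b a a lam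

theorem lbg_of_lb8g (h8 : LB8g) : LBg (1 / 4) := by
  intro ε hε hε1
  filter_upwards [h8 ε hε (by linarith), Filter.eventually_ge_atTop 1] with a h8a ha k b n lam hyp hk
  have ha1 : (1 : ℝ) ≤ a := by exact_mod_cast ha
  have ha0 : (0 : ℝ) ≤ a := by linarith
  have haε : (0 : ℝ) ≤ (a : ℝ) ^ (2 * ε) := Real.rpow_nonneg ha0 _
  refine h8a k b n lam hyp ?_
  rcases hk with hk | ⟨hk1, hk2⟩
  · subst hk
    have hb2 : (b : ℝ) ≤ (k : ℝ) ^ (2 : ℝ) := by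
      rw [Real.rpow_two]
      exact_mod_cast hyp.2.2.2.2.1
    have h1 : (b : ℝ) ^ (1 / 2 + ε) ≤ ((k : ℝ) ^ (2 : ℝ)) ^ (1 / 2 + ε) :=
      Real.rpow_le_rpow (Nat.cast_nonneg _) hb2 (by linarith)
    calc (k : ℝ) ^ (2 * ε) * (b : ℝ) ^ (1 / 2 + ε)
        ≤ (k : ℝ) ^ (2 * ε) * ((k : ℝ) ^ (2 : ℝ)) ^ (1 / 2 + ε) :=
          mul_le_mul_of_nonneg_left h1 haε
      _ = (k : ℝ) ^ (2 * ε + 2 * (1 / 2 + ε)) := by
          rw [← Real.rpow_mul ha0, Real.rpow_add (by linarith)]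
      _ ≤ (k : ℝ) ^ (2 : ℝ) := Real.rpow_le_rpow_of_exponent_le ha1 (by linarith)
      _ = (k : ℝ) ^ 2 := Real.rpow_two _
  · have h1 : (b : ℝ) ^ (1 / 2 + ε) ≤ ((a : ℝ) ^ (1 + 9 * ε)) ^ (1 / 2 + ε) :=
      Real.rpow_le_rpow (Nat.cast_nonneg _) hk2 (by linarith)
    calc (a : ℝ) ^ (2 * ε) * (b : ℝ) ^ (1 / 2 + ε)
        ≤ (a : ℝ) ^ (2 * ε) * ((a : ℝ) ^ (1 + 9 * ε)) ^ (1 / 2 + ε) :=
          mul_le_mul_of_nonneg_left h1 haε
      _ = (a : ℝ) ^ (2 * ε + (1 + 9 * ε) * (1 / 2 + ε)) := by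
          rw [← Real.rpow_mul ha0, Real.rpow_add (by linarith)]
      _ ≤ (a : ℝ) ^ ((1 / 4 + 6 * ε) * 2) :=
          Real.rpow_le_rpow_of_exponent_le ha1 (by nlinarith)
      _ = ((a : ℝ) ^ (1 / 4 + 6 * ε)) ^ 2 := by
          rw [Real.rpow_mul ha0, Real.rpow_two]
      _ ≤ (k : ℝ) ^ 2 := pow_le_pow_left₀ (Real.rpow_nonneg ha0 _) hk1 2

/-- The total of the reduced partition. -/
lemma sum_mu_le {a R D : ℕ} (hRa : R < a) {lam mu : Fin a → ℕ} (hmu : Antitone mu)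
    (hD : ∑ i, low R lam i = D) (hmu0 : ex mu 0 ≤ ex lam R + 2 * a * R)
    (hlow : ∀ j, R ≤ j → ex mu j = ex lam j) :
    ∑ s, mu s ≤ R * (ex lam R + 2 * a * R) + D := by
  rw [T4.sum_split hRa.le mu]
  have h1 : ∑ i ∈ range R, ex mu i ≤ R * (ex lam R + 2 * a * R) := by
    calc ∑ i ∈ range R, ex mu i ≤ ∑ _i ∈ range R, (ex lam R + 2 * a * R) :=
          Finset.sum_le_sum fun i _ => (ex_anti hmu (Nat.zero_le i)).trans hmu0
      _ = R * (ex lam R + 2 * a * R) := by rw [Finset.sum_const, card_range, smul_eq_mul]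
  have h2 : ∑ i, low R mu i = D := by
    rw [← hD]
    refine Finset.sum_congr rfl fun i _ => ?_
    exact hlow _ (Nat.le_add_right _ _)
  rw [h2]
  exact Nat.add_le_add_right h1 _

/-- Number of letters in the reduced problem. -/
lemma letters_real {A D R k u h l N : ℝ} (hA : 1 ≤ A) (hD0 : 0 < D) (hu : 8 ≤ u) (hh : 1 ≤ h)
    (hR : 0 ≤ R) (hl : 0 ≤ l) (hRu : R ≤ u ^ 2) (hk : 0 < k)
    (hlD : u * l ≤ D) (hD : A * h * u ^ 6 ≤ D) (hDk : D ≤ k * (A * u ^ 3))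
    (hN : k * N ≤ R * (l + 2 * A * R) + D) : N ≤ 4 * A * u ^ 4 := by
  have hu0 : 0 < u := by linarith
  have hA0 : 0 < A := by linarith
  have h2 : R * l ≤ u * D := by
    calc R * l ≤ u ^ 2 * l := mul_le_mul_of_nonneg_right hRu hl
      _ = u * (u * l) := by ring
      _ ≤ u * D := mul_le_mul_of_nonneg_left hlD hu0.le
  have h3 : D ≤ u * D := by nlinarith
  have h4 : 2 * A * R ^ 2 ≤ 2 * u * D := by
    have h3 : R ^ 2 ≤ (u ^ 2) ^ 2 := pow_le_pow_left₀ hR hRu 2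
    have h4 : 1 ≤ h * u ^ 3 := by
      have : (1 : ℝ) ≤ u ^ 3 := one_le_pow₀ (by linarith)
      nlinarith
    have hau : 0 < A * u ^ 3 := by positivity
    have h5 : A * u ^ 3 ≤ D := by
      calc A * u ^ 3 = A * u ^ 3 * 1 := by ring
        _ ≤ A * u ^ 3 * (h * u ^ 3) := mul_le_mul_of_nonneg_left h4 hau.le
        _ = A * h * u ^ 6 := by ring
        _ ≤ D := hD
    calc 2 * A * R ^ 2 ≤ 2 * A * (u ^ 2) ^ 2 := mul_le_mul_of_nonneg_left h3 (by positivity)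
      _ = 2 * u * (A * u ^ 3) := by ring
      _ ≤ 2 * u * D := mul_le_mul_of_nonneg_left h5 (by positivity)
  have h5 : k * N ≤ k * (4 * A * u ^ 4) := by
    calc k * N ≤ R * (l + 2 * A * R) + D := hN
      _ = R * l + D + 2 * A * R ^ 2 := by ring
      _ ≤ 4 * u * D := by linarith
      _ ≤ 4 * u * (k * (A * u ^ 3)) := mul_le_mul_of_nonneg_left hDk (by positivity)
      _ = k * (4 * A * u ^ 4) := by ring
  exact le_of_mul_le_mul_left h5 hk

/-- The choice of the numbers in case I, few cells below: `u = a ^ δ`, `h = a ^ τ`. -/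
theorem caseI_pick_small8 {a b R : ℕ} (lam : Fin a → ℕ) (hlam : Antitone lam)
    (hsum : ∑ i, lam i = a * b) (hR1 : 1 ≤ R) (hRa : R < a) (u h : ℝ) (hu : 8 ≤ u) (hh : 1 ≤ h)
    (hb : a * u ^ 9 ≤ (b : ℝ)) (hRu : (R : ℝ) ≤ u ^ 2)
    (hD : a * h * u ^ 6 ≤ ((∑ i, low R lam i : ℕ) : ℝ))
    (hlamR : u * ex lam R ≤ ((∑ i, low R lam i : ℕ) : ℝ))
    (hsmall : ((∑ i, low R lam i : ℕ) : ℝ) < (a : ℝ) ^ 2 * u ^ 3) :
    ∃ (N k : ℕ) (mu : Fin a → ℕ), Antitone mu ∧ ∑ s, mu s = k * N ∧ N ≤ b ∧ k ≤ a ∧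
      h * u ^ 3 ≤ k ∧ (N : ℝ) ≤ 4 * a * u ^ 4 ∧ (a : ℝ) * u ^ 3 / 2 ≤ N ∧
      ∑ i, low R lam i ≤ k * N ∧ ex mu 0 ≤ ex lam R + 2 * a * R ∧
      (∀ j, R ≤ j → ex mu j = ex lam j) ∧ plethMult N k a mu ≤ plethMult b a a lam := by
  have ha : 0 < a := by omega
  have haR : (0 : ℝ) < a := by exact_mod_cast ha
  have ha1 : (1 : ℝ) ≤ a := by exact_mod_cast ha
  have hu0 : (0 : ℝ) < u := by linarith
  have hheads := sum_heads hRa.le lam hlam
  rw [hsum] at hheads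
  obtain ⟨i, hi, hiR, hmax⟩ := exists_argmax R hR1 (fun j => ex lam (j - 1) - ex lam j)
  generalize hDdef : ∑ i, low R lam i = D at *
  have hau : (0 : ℝ) < a * u ^ 3 := by positivity
  obtain ⟨x, hxD⟩ : ∃ x : ℝ, x * (a * u ^ 3) = D := ⟨D / (a * u ^ 3), div_mul_cancel₀ _ hau.ne'⟩
  have hD0 : (0 : ℝ) < D := by
    refine lt_of_lt_of_le ?_ hD
    positivity
  have hx1 : h * u ^ 3 ≤ x := by
    have h1 : (h * u ^ 3) * (a * u ^ 3) ≤ x * (a * u ^ 3) := by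
      rw [hxD]
      calc (h * u ^ 3) * (a * u ^ 3) = a * h * u ^ 6 := by ring
        _ ≤ (D : ℝ) := hD
    exact le_of_mul_le_mul_right h1 hau
  have hx2 : x ≤ a := by
    have h1 : x * (a * u ^ 3) ≤ a * (a * u ^ 3) := by
      rw [hxD]
      calc (D : ℝ) ≤ a ^ 2 * u ^ 3 := hsmall.le
        _ = a * (a * u ^ 3) := by ring
    exact le_of_mul_le_mul_right h1 hau
  have hx0 : 0 < x := lt_of_lt_of_le (by positivity) hx1
  have hiu : (i : ℝ) ≤ u ^ 2 := le_trans (by exact_mod_cast hiR) hRu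
  have hx3 : 1 + 2 * (i : ℝ) ≤ x := by
    refine le_trans ?_ hx1
    have h4 : 1 + 2 * u ^ 2 ≤ u ^ 3 := by nlinarith [sq_nonneg u]
    have h5 : u ^ 3 ≤ h * u ^ 3 := by
      have : 0 ≤ u ^ 3 := by positivity
      nlinarith
    linarith
  obtain ⟨k, hkx, hkx', hka, hdvd, hk1⟩ := pick_k hi hx3 hx2
  have hRk : R * k ≤ R * ex lam R + D := by
    have h1 : ((R * k : ℕ) : ℝ) ≤ D := by
      rw [Nat.cast_mul]
      calc (R : ℝ) * k ≤ u ^ 2 * (2 * x) := by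
            apply mul_le_mul hRu hkx' (Nat.cast_nonneg _) (by positivity)
        _ = x * (2 * u ^ 2) := by ring
        _ ≤ x * (a * u ^ 3) := by
            apply mul_le_mul_of_nonneg_left _ hx0.le
            have h4 : 2 * u ^ 2 ≤ u ^ 3 := by nlinarith [sq_nonneg u]
            have h5 : u ^ 3 ≤ a * u ^ 3 := by
              have : 0 ≤ u ^ 3 := by positivity
              nlinarith
            linarith
        _ = D := hxD
    have h2 : R * k ≤ D := by exact_mod_cast h1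
    omega
  have hcond : (R * ex lam R + D + 2 * a * R ^ 2) * a ≤
      i * (ex lam (i - 1) - ex lam i) * k := by
    generalize ex lam (i - 1) - ex lam i = gi at hmax ⊢
    have h1 := caseI_real (A := a) (B := b) (D := D) (T := R * ex lam R + D) (R := R)
      (G := i * gi) (k := k) (x := x) (u := u) (h := h) (l := ex lam R) ha1 hD0 hu hh
      (by exact_mod_cast hR1) (Nat.cast_nonneg _) hRu hb rfl hlamR hD hsmall (by
        have h2 : a * b ≤ R * ex lam R + D + R * (i * gi) := by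
          rw [hheads]
          exact Nat.add_le_add_left hmax _
        exact_mod_cast h2) hxD hkx
    exact_mod_cast h1
  obtain ⟨N, mu, h1, h2, h3, h4, h5, h6, h7⟩ := caseI_key lam hlam hsum hRa hi hiR hk1 hka hdvd
    (by rw [hDdef]; exact hRk) (Or.inr (by rw [hDdef]; exact hcond))
  rw [hDdef] at h4
  have hk0 : (0 : ℝ) < k := lt_of_lt_of_le hx0 hkx
  have hN4 : (N : ℝ) ≤ 4 * a * u ^ 4 := by
    have h8 := sum_mu_le hRa h1 hDdef h5 h6
    rw [h2] at h8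
    refine letters_real (A := a) (D := D) (R := R) (k := k) (u := u) (h := h) (l := ex lam R)
      (N := N) ha1 hD0 hu hh (Nat.cast_nonneg _) (Nat.cast_nonneg _) hRu hk0 hlamR hD ?_ ?_
    · rw [← hxD]
      exact mul_le_mul_of_nonneg_right hkx hau.le
    · exact_mod_cast h8
  refine ⟨N, k, mu, h1, h2, h3, hka, hx1.trans hkx, hN4, ?_, h4, h5, h6, h7⟩
  have h8 : (D : ℝ) ≤ k * N := by exact_mod_cast h4
  have h9 : x * (a * u ^ 3) ≤ 2 * x * N := by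
    rw [hxD]
    exact h8.trans (mul_le_mul_of_nonneg_right hkx' (Nat.cast_nonneg _))
  have h10 : x * (a * u ^ 3) ≤ x * (2 * N) := by linarith
  have h11 := le_of_mul_le_mul_left h10 hx0
  linarith

/-- The hypotheses of the lower bound for the reduced partition and the comparison. -/
theorem caseI_main8 (hU : UpStmt) (hCut : CutRev) {a b R N k : ℕ} {δ τ : ℝ}
    (hLB : ∀ (k b n : ℕ) (lam : Fin n → ℕ), Hyp2 (δ / 2) a k b n lam →
      (k = a ∨ ((a : ℝ) ^ (τ + 6 * (δ / 2)) ≤ k ∧ (b : ℝ) ≤ (a : ℝ) ^ (1 + 9 * (δ / 2)))) →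
      (gt n a lam : ℝ) * Real.exp (2 * b) ≤ plethMult b k n lam)
    {lam mu : Fin a → ℕ} (hlam : Antitone lam) (hsum : ∑ i, lam i = a * b)
    (hb2 : b ≤ a ^ 2) (hRa : R < a) (v u h : ℝ) (hv : 8 ≤ v) (huv : u = v ^ 2) (hh : 1 ≤ h)
    (hv0 : (a : ℝ) ^ (δ / 2) = v) (hvτ : (a : ℝ) ^ (τ + 6 * (δ / 2)) = h * u ^ 3)
    (hv9 : (a : ℝ) ^ (1 + 9 * (δ / 2)) = a * v ^ 9)
    (hv2 : (a : ℝ) ^ (1 + δ / 2) = a * v) (hv3 : (a : ℝ) ^ (-(δ / 2)) = v⁻¹) (hva : v ≤ a)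
    (hlog : Real.log ((a : ℝ) ^ 3 + 1) ≤ u / 2) (hRu : (R : ℝ) ≤ u ^ 2)
    (hD : a * h * u ^ 6 ≤ ((∑ i, low R lam i : ℕ) : ℝ))
    (hlamR : u * ex lam R ≤ ((∑ i, low R lam i : ℕ) : ℝ))
    (hmu : Antitone mu) (hmus : ∑ s, mu s = k * N) (hN : N ≤ b) (hka : k ≤ a)
    (hk : k = a ∨ (h * u ^ 3 ≤ k ∧ (N : ℝ) ≤ 4 * a * u ^ 4)) (hNu : (a : ℝ) * u ^ 3 / 2 ≤ N)
    (hDk : ∑ i, low R lam i ≤ k * N) (hmu0 : ex mu 0 ≤ ex lam R + 2 * a * R)
    (hlow : ∀ j, R ≤ j → ex mu j = ex lam j)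
    (hle : plethMult N k a mu ≤ plethMult b a a lam) :
    plethMult a b a lam ≤ plethMult b a a lam := by
  have ha : 0 < a := by omega
  have ha1 : (1 : ℝ) ≤ a := by exact_mod_cast ha
  have hu0 : 64 ≤ u := by rw [huv]; nlinarith
  generalize hDdef : ∑ i, low R lam i = D at *
  have hDk' : (D : ℝ) ≤ k * N := by exact_mod_cast hDk
  have hau : 0 ≤ (a : ℝ) := by linarith
  have hyp : Hyp2 (δ / 2) a k N a mu := by
    refine ⟨le_rfl, ?_, hka, ?_, hN.trans hb2, hmu, hmus, ?_⟩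
    · rw [hv0]
      rcases hk with hk | hk
      · rw [hk]
        exact hva
      · refine le_trans ?_ hk.1
        rw [huv]
        have h1 : (1 : ℝ) ≤ v ^ 5 := one_le_pow₀ (by linarith)
        have h2 : (0 : ℝ) ≤ v * v ^ 5 := by positivity
        calc v = v * 1 := by ring
          _ ≤ v * v ^ 5 := mul_le_mul_of_nonneg_left h1 (by linarith)
          _ = 1 * (v * v ^ 5) := by ring
          _ ≤ h * (v * v ^ 5) := mul_le_mul_of_nonneg_right hh h2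
          _ = h * (v ^ 2) ^ 3 := by ring
    · rw [hv2]
      refine le_trans ?_ hNu
      have h1 : v ≤ u ^ 3 / 2 := by
        rw [huv]
        have h1 : (2 : ℝ) ≤ v ^ 5 := by
          have h2 : (8 : ℝ) ^ 5 ≤ v ^ 5 := pow_le_pow_left₀ (by norm_num) hv 5
          linarith
        have h3 : (v ^ 2) ^ 3 = v * v ^ 5 := by ring
        rw [h3]
        nlinarith
      calc (a : ℝ) * v ≤ a * (u ^ 3 / 2) := mul_le_mul_of_nonneg_left h1 hau
        _ = a * u ^ 3 / 2 := by ring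
    · rw [hv3]
      have h1 : (ex mu 0 : ℝ) ≤ ex lam R + 2 * a * R := by exact_mod_cast hmu0
      have h2 : u * (2 * a * R) ≤ D := by
        calc u * (2 * a * R) ≤ u * (2 * a * u ^ 2) := by
              apply mul_le_mul_of_nonneg_left _ (by linarith)
              exact mul_le_mul_of_nonneg_left hRu (by linarith)
          _ = a * (2 * u ^ 3) := by ring
          _ ≤ a * (h * u ^ 6) := by
              apply mul_le_mul_of_nonneg_left _ hau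
              have h3 : (2 : ℝ) ≤ u ^ 3 := by
                have h2 : (64 : ℝ) ^ 3 ≤ u ^ 3 := pow_le_pow_left₀ (by norm_num) hu0 3
                linarith
              calc 2 * u ^ 3 ≤ u ^ 3 * u ^ 3 := mul_le_mul_of_nonneg_right h3 (by positivity)
                _ = 1 * u ^ 6 := by ring
                _ ≤ h * u ^ 6 := mul_le_mul_of_nonneg_right hh (by positivity)
          _ = a * h * u ^ 6 := by ring
          _ ≤ D := hD
      have h3 : u * ex mu 0 ≤ 2 * (k * N) := by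
        calc u * ex mu 0 ≤ u * (ex lam R + 2 * a * R) :=
              mul_le_mul_of_nonneg_left h1 (by linarith)
          _ = u * ex lam R + u * (2 * a * R) := by ring
          _ ≤ 2 * (k * N) := by linarith
      rw [inv_mul_eq_div, le_div_iff₀ (by linarith)]
      have h4 : v * (ex mu 0 * v) ≤ v * (k * N) := by
        have h5 : v * (ex mu 0 * v) = u * ex mu 0 := by rw [huv]; ring
        have h6 : 0 ≤ (k : ℝ) * N := by positivity
        rw [h5]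
        nlinarith
      exact le_of_mul_le_mul_left h4 (by linarith)
  have hP := hLB k N a mu hyp (by
    rcases hk with hk | hk
    · exact Or.inl hk
    · refine Or.inr ⟨by rw [hvτ]; exact hk.1, hk.2.trans ?_⟩
      rw [hv9, huv]
      have h1 : (4 : ℝ) * (v ^ 2) ^ 4 ≤ v ^ 9 := by
        have h2 : (0 : ℝ) ≤ v ^ 8 := by positivity
        calc (4 : ℝ) * (v ^ 2) ^ 4 = 4 * v ^ 8 := by ring
          _ ≤ v * v ^ 8 := mul_le_mul_of_nonneg_right (by linarith) h2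
          _ = v ^ 9 := by ring
      calc 4 * (a : ℝ) * (v ^ 2) ^ 4 = a * (4 * (v ^ 2) ^ 4) := by ring
        _ ≤ a * v ^ 9 := mul_le_mul_of_nonneg_left h1 hau)
  have hL : ex lam 0 ≤ a ^ 3 := by
    rw [T4.ex_of_lt lam ha]
    calc lam ⟨0, ha⟩ ≤ ∑ i, lam i :=
          Finset.single_le_sum (f := lam) (fun _ _ => Nat.zero_le _) (mem_univ _)
      _ = a * b := hsum
      _ ≤ a * a ^ 2 := Nat.mul_le_mul_left _ hb2
      _ = a ^ 3 := by ring
  have hL' : ex mu 0 ≤ a ^ 3 := by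
    rw [T4.ex_of_lt mu ha]
    calc mu ⟨0, ha⟩ ≤ ∑ i, mu i :=
          Finset.single_le_sum (f := mu) (fun _ _ => Nat.zero_le _) (mem_univ _)
      _ = k * N := hmus
      _ ≤ a * a ^ 2 := Nat.mul_le_mul hka (hN.trans hb2)
      _ = a ^ 3 := by ring
  refine caseI_fin hU hCut (N := N) hRa.le hlam hmu hlow (a ^ 3) hL hL' ?_ hP hle
  have hpos : (0 : ℝ) < (a : ℝ) ^ 3 + 1 := by positivity
  rw [Nat.cast_pow, ← Real.exp_log (pow_pos hpos _), Real.exp_le_exp, Real.log_pow]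
  have h1 : ((2 * (a * R) : ℕ) : ℝ) * Real.log ((a : ℝ) ^ 3 + 1) ≤
      (2 * (a * R) : ℕ) * (u / 2) := mul_le_mul_of_nonneg_left hlog (Nat.cast_nonneg _)
  refine h1.trans ?_
  push_cast
  have h2 : (a : ℝ) * R * u ≤ a * u ^ 2 * u :=
    mul_le_mul_of_nonneg_right (mul_le_mul_of_nonneg_left hRu hau) (by linarith)
  nlinarith

theorem caseI_zero8 (hU : UpStmt) (hCut : CutRev) {a b : ℕ} {δ τ : ℝ}
    (hLB : ∀ (k b n : ℕ) (lam : Fin n → ℕ), Hyp2 (δ / 2) a k b n lam →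
      (k = a ∨ ((a : ℝ) ^ (τ + 6 * (δ / 2)) ≤ k ∧ (b : ℝ) ≤ (a : ℝ) ^ (1 + 9 * (δ / 2)))) →
      (gt n a lam : ℝ) * Real.exp (2 * b) ≤ plethMult b k n lam)
    {lam : Fin a → ℕ} (hlam : Antitone lam) (hsum : ∑ i, lam i = a * b)
    (hb2 : b ≤ a ^ 2) (v : ℝ) (hv : 8 ≤ v)
    (hv0 : (a : ℝ) ^ (δ / 2) = v) (hv2 : (a : ℝ) ^ (1 + δ / 2) = a * v)
    (hv3 : (a : ℝ) ^ (-(δ / 2)) = v⁻¹) (hva : v ≤ a) (hb' : (a : ℝ) * (v ^ 2) ^ 9 ≤ b)
    (hlamR : v ^ 2 * ex lam 0 ≤ ((∑ i, low 0 lam i : ℕ) : ℝ)) :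
    plethMult a b a lam ≤ plethMult b a a lam := by
  have ha0 : (0 : ℝ) ≤ a := Nat.cast_nonneg a
  have hv0' : 0 < v := by linarith
  have hDs : ∑ i, low 0 lam i = a * b := by
    have := T4.sum_split (Nat.zero_le a) lam
    rw [Finset.range_zero, Finset.sum_empty, zero_add] at this
    rw [← this, hsum]
  rw [hDs, Nat.cast_mul] at hlamR
  have hyp : Hyp2 (δ / 2) a a b a lam := by
    refine ⟨le_rfl, ?_, le_rfl, ?_, hb2, hlam, hsum, ?_⟩
    · rw [hv0]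
      exact hva
    · rw [hv2]
      refine le_trans ?_ hb'
      apply mul_le_mul_of_nonneg_left _ ha0
      have h1 : (1 : ℝ) ≤ v ^ 17 := one_le_pow₀ (by linarith)
      calc v = v * 1 := by ring
        _ ≤ v * v ^ 17 := mul_le_mul_of_nonneg_left h1 hv0'.le
        _ = (v ^ 2) ^ 9 := by ring
    · rw [hv3, inv_mul_eq_div, le_div_iff₀ hv0']
      refine le_trans ?_ hlamR
      have h1 : (0 : ℝ) ≤ ex lam 0 := Nat.cast_nonneg _
      have h2 : v ≤ v ^ 2 := by nlinarith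
      calc (ex lam 0 : ℝ) * v = v * ex lam 0 := mul_comm _ _
        _ ≤ v ^ 2 * ex lam 0 := mul_le_mul_of_nonneg_right h2 h1
  have hP := hLB a b a lam hyp (Or.inl rfl)
  refine caseI_fin hU hCut (N := b) (Nat.zero_le a) hlam hlam (fun _ _ => rfl) (ex lam 0) le_rfl
    le_rfl ?_ hP le_rfl
  rw [mul_zero, mul_zero, pow_zero]
  exact Real.one_le_exp (by positivity)

/-- **Case I, threshold `1 + τ`.** -/
theorem caseIg {τ : ℝ} (hτ0 : 0 ≤ τ) (hLB : LBg τ) (hU : UpStmt) (hCut : CutRev) :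
    CaseIg τ := by
  intro δ hδ hδ1
  have hlim : ∀ᶠ a : ℕ in Filter.atTop, 8 + 12 / δ ≤ (a : ℝ) ^ (δ / 2) := by
    have h1 : Filter.Tendsto (fun a : ℕ => (a : ℝ) ^ (δ / 2)) Filter.atTop Filter.atTop :=
      (tendsto_rpow_atTop (by positivity)).comp tendsto_natCast_atTop_atTop
    exact h1.eventually_ge_atTop _
  filter_upwards [hLB (δ / 2) (by positivity) (by linarith), hlim, Filter.eventually_ge_atTop 2]
    with a hLBa hv ha b R lam hb2 hb hlam hsum hR hD hlamR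
  have ha1 : (1 : ℝ) < a := by exact_mod_cast (by omega : 1 < a)
  have ha0 : (0 : ℝ) < a := by linarith
  obtain ⟨v, hvdef⟩ : ∃ v : ℝ, v = (a : ℝ) ^ (δ / 2) := ⟨_, rfl⟩
  obtain ⟨h, hhdef⟩ : ∃ h : ℝ, h = (a : ℝ) ^ τ := ⟨_, rfl⟩
  rw [← hvdef] at hv
  have hv8 : 8 ≤ v := by
    have : 0 < 12 / δ := by positivity
    linarith
  have hh : 1 ≤ h := by
    rw [hhdef]
    exact Real.one_le_rpow ha1.le hτ0
  have huδ : (a : ℝ) ^ δ = v ^ 2 := by
    rw [hvdef, ← Real.rpow_natCast, ← Real.rpow_mul ha0.le]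
    congr 1
    push_cast
    ring
  have hpow : ∀ n : ℕ, (a : ℝ) ^ (n * δ) = (v ^ 2) ^ n := by
    intro n
    rw [mul_comm, Real.rpow_mul ha0.le, huδ, Real.rpow_natCast]
  have hpow' : ∀ n : ℕ, (a : ℝ) ^ (n * (δ / 2)) = v ^ n := by
    intro n
    rw [mul_comm, Real.rpow_mul ha0.le, ← hvdef, Real.rpow_natCast]
  have hRa : R < a := by
    have h1 : (a : ℝ) ^ (2 * δ) < (a : ℝ) ^ (1 : ℝ) :=
      Real.rpow_lt_rpow_of_exponent_lt ha1 (by linarith)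
    rw [Real.rpow_one] at h1
    exact_mod_cast lt_of_le_of_lt hR h1
  rw [below_eq hRa.le] at hD hlamR
  rw [huδ] at hlamR
  have hva : v ≤ a := by
    rw [hvdef]
    calc (a : ℝ) ^ (δ / 2) ≤ (a : ℝ) ^ (1 : ℝ) :=
          Real.rpow_le_rpow_of_exponent_le ha1.le (by linarith)
      _ = a := Real.rpow_one _
  have hvτ : (a : ℝ) ^ (τ + 6 * (δ / 2)) = h * (v ^ 2) ^ 3 := by
    rw [hhdef, Real.rpow_add ha0]
    congr 1
    have := hpow' 6
    push_cast at this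
    rw [this]
    ring
  have hv9 : (a : ℝ) ^ (1 + 9 * (δ / 2)) = a * v ^ 9 := by
    rw [Real.rpow_add ha0, Real.rpow_one]
    congr 1
    have := hpow' 9
    push_cast at this
    exact this
  have hv2 : (a : ℝ) ^ (1 + δ / 2) = a * v := by
    rw [hvdef, Real.rpow_add ha0, Real.rpow_one]
  have hv3 : (a : ℝ) ^ (-(δ / 2)) = v⁻¹ := by
    rw [hvdef]
    exact Real.rpow_neg ha0.le _
  have hb' : (a : ℝ) * (v ^ 2) ^ 9 ≤ b := by
    refine le_trans (le_of_eq ?_) hb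
    rw [Real.rpow_add ha0, Real.rpow_one, ← hpow 9]
    norm_num
  have hRu : (R : ℝ) ≤ (v ^ 2) ^ 2 := by
    refine hR.trans (le_of_eq ?_)
    rw [← hpow 2]
    norm_num
  have hD' : (a : ℝ) * h * (v ^ 2) ^ 6 ≤ ((∑ i, low R lam i : ℕ) : ℝ) := by
    refine le_trans (le_of_eq ?_) hD
    rw [show (1 + τ + 6 * δ : ℝ) = 1 + τ + (6 : ℕ) * δ by push_cast; ring, Real.rpow_add ha0,
      Real.rpow_add ha0, Real.rpow_one, hpow 6, hhdef]
  have hlog : Real.log ((a : ℝ) ^ 3 + 1) ≤ v ^ 2 / 2 := caseI_log ha1 hδ hvdef hv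
  rcases Nat.eq_zero_or_pos R with hR0 | hR1
  · subst hR0
    exact caseI_zero8 hU hCut hLBa hlam hsum hb2 v hv8 hvdef.symm hv2 hv3 hva hb' hlamR
  · have hv64 : 8 ≤ v ^ 2 := by nlinarith
    by_cases hbig : (a : ℝ) ^ 2 * (v ^ 2) ^ 3 ≤ ((∑ i, low R lam i : ℕ) : ℝ)
    · obtain ⟨N, mu, h1, h2, h3, h4, h5, h6, h7, h8⟩ := caseI_pick_big lam hlam hsum hR1 hRa
        (v ^ 2) hv64 hbig
      exact caseI_main8 hU hCut hLBa hlam hsum hb2 hRa v (v ^ 2) h hv8 rfl hh hvdef.symm hvτ hv9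
        hv2 hv3 hva hlog hRu hD' hlamR h1 h2 h3 le_rfl (Or.inl rfl) h4 h5 h6 h7 h8
    · push Not at hbig
      obtain ⟨N, k, mu, h1, h2, h3, h4, h5, h6, h7, h8, h9, h10, h11⟩ := caseI_pick_small8 lam
        hlam hsum hR1 hRa (v ^ 2) h hv64 hh hb' hRu hD' hlamR hbig
      exact caseI_main8 hU hCut hLBa hlam hsum hb2 hRa v (v ^ 2) h hv8 rfl hh hvdef.symm hvτ hv9
        hv2 hv3 hva hlog hRu hD' hlamR h1 h2 h3 h4 (Or.inr ⟨h5, h6⟩) h7 h8 h9 h10 h11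

/-- Case I for `b ≥ a ^ (5 / 4 + ..)`. -/
theorem caseI8g (h8 : LB8g) (hU : UpStmt) (hCut : CutRev) : CaseIg (1 / 4) :=
  caseIg (by norm_num) (lbg_of_lb8g h8) hU hCut

end Vale.Agent.P181.T8
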