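import Vale.Agent.P181.H502.Dec
import Vale.Agent.P181.T4.Asm

set_option autoImplicit false

/-!
# P181, T7: removing full columns from the heads
-/

open Finset

namespace Vale.Agent.P181.T7

open Vale.Agent.P181.T4 Vale.Agent.P181.H280

/-! ### Telescoping -/

lemma tele {f : ℕ → ℕ} (hf : Antitone f) (R s : ℕ) :
    f s = f (max s R) + ∑ j ∈ Ioc s R, (f (j - 1) - f j) := by
  rcases Nat.le_total R s with h | h
  · rw [max_eq_left h, Finset.Ioc_eq_empty (by omega), Finset.sum_empty, add_zero]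
  · rw [max_eq_right h]
    obtain ⟨d, rfl⟩ := Nat.exists_eq_add_of_le h
    clear h
    induction d with
    | zero => simp
    | succ d ih =>
      have h1 : Ioc s (s + (d + 1)) = insert (s + d + 1) (Ioc s (s + d)) := by
        ext j
        simp only [mem_Ioc, mem_insert]
        omega
      rw [h1, Finset.sum_insert (by simp)]
      have h2 : s + d + 1 - 1 = s + d := by omega
      rw [h2, show s + (d + 1) = s + d + 1 by omega]
      have h3 := hf (show s + d ≤ s + d + 1 by omega)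
      omega

lemma sum_if_eq (f : ℕ → ℕ) (R s : ℕ) :
    ∑ j ∈ Icc 1 R, (if s < j then f j else 0) = ∑ j ∈ Ioc s R, f j := by
  rw [← Finset.sum_filter]
  congr 1
  ext j
  simp only [mem_filter, mem_Icc, mem_Ioc]
  omega

lemma sum_sum_Ioc (f : ℕ → ℕ) {n R : ℕ} (hR : R ≤ n) :
    ∑ s : Fin n, ∑ j ∈ Ioc (s : ℕ) R, f j = ∑ j ∈ Icc 1 R, j * f j := by
  have h1 : ∀ s : Fin n, ∑ j ∈ Ioc (s : ℕ) R, f j =
      ∑ j ∈ Icc 1 R, (if (s : ℕ) < j then f j else 0) := fun s => (sum_if_eq f R s).symm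
  rw [Finset.sum_congr rfl (fun s _ => h1 s), Finset.sum_comm]
  apply Finset.sum_congr rfl
  intro j hj
  rw [mem_Icc] at hj
  rw [← Finset.sum_filter, Finset.sum_const, smul_eq_mul]
  congr 1
  rw [Fin.card_filter_val_lt]
  omega

/-- Existence of the reduced partition (cases I and II). `y j` = a lower bound for the number of
columns of length `j` which are kept; `i` = the length of the columns used for the storage (`i = j`
with `y j > 0` is allowed). -/
theorem dec_exists {a b n R i k : ℕ} (lam : Fin n → ℕ) (hlam : Antitone lam)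
    (hsum : ∑ s, lam s = a * b) (hi : 1 ≤ i) (hiR : i ≤ R) (hRn : R ≤ n) (hRa : R < a)
    (hk : 1 ≤ k) (hka : k ≤ a) (hdvd : 2 * i ∣ a - k) (y : ℕ → ℕ)
    (hy : ∀ j, 1 ≤ j → j ≤ R → y j ≤ ex lam (j - 1) - ex lam j)
    (hRk : R * k ≤ ∑ s : Fin n, ex lam (max s R))
    (h : k = a ∨ (∑ s : Fin n, ex lam (max s R) + ∑ j ∈ Icc 1 R, j * y j + 2 * a * R ^ 2) * a ≤
      i * (ex lam (i - 1) - ex lam i) * k) :
    ∃ (N : ℕ) (r : ℕ → ℕ) (mu : Fin n → ℕ),
      (∀ s : Fin n, mu s = ex lam (max s R) + ∑ j ∈ Ioc (s : ℕ) R, r j) ∧ Antitone mu ∧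
      ∑ s, mu s = k * N ∧ N ≤ b ∧ i ≤ N ∧
      (∀ j, 1 ≤ j → j ≤ R → j ≠ i → y j ≤ r j ∧ r j < y j + 2 * a) ∧
      (y i ≤ r i ∧ r i < y i + 2 * k) ∧
      (∀ j, 1 ≤ j → j ≤ R → r j ≤ ex lam (j - 1) - ex lam j) ∧
      plethMult N k n mu ≤ plethMult b a n lam := by
  have ha : 0 < a := by omega
  have hanti : Antitone (ex lam) := fun s t hst => ex_anti hlam hst
  set g : ℕ → ℕ := fun j => ex lam (j - 1) - ex lam j with hg
  set c0 : ℕ → ℕ := fun j => (g j - y j) / (2 * a) with hc0
  set r0 : ℕ → ℕ := fun j => y j + (g j - y j) % (2 * a) with hr0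
  have hgr : ∀ j, 1 ≤ j → j ≤ R → g j = r0 j + 2 * a * c0 j := by
    intro j h1 h2
    have h3 : y j ≤ g j := hy j h1 h2
    have h4 := Nat.mod_add_div (g j - y j) (2 * a)
    have h5 : r0 j = y j + (g j - y j) % (2 * a) := rfl
    have h6 : c0 j = (g j - y j) / (2 * a) := rfl
    rw [h5, h6]
    omega
  have hr0lt : ∀ j, r0 j < y j + 2 * a := by
    intro j
    have := Nat.mod_lt (g j - y j) (show 2 * a > 0 by omega)
    simp only [hr0]
    omega
  set S : Finset ℕ := (Icc 1 R).erase i with hS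
  have hiS : i ∈ Icc 1 R := by rw [mem_Icc]; exact ⟨hi, hiR⟩
  have hSplit : ∀ f : ℕ → ℕ, ∑ j ∈ Icc 1 R, f j = f i + ∑ j ∈ S, f j := fun f =>
    (Finset.add_sum_erase _ _ hiS).symm
  set T : ℕ := ∑ s : Fin n, ex lam (max s R) with hT
  have hI1 : a * b = T + (i * g i + ∑ j ∈ S, j * g j) := by
    rw [← hsum]
    have h1 : ∀ s : Fin n, lam s = ex lam (max s R) + ∑ j ∈ Ioc (s : ℕ) R, g j := by
      intro s
      have h2 := tele hanti R s
      rw [ex_of_lt lam s.2] at h2
      exact h2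
    rw [Finset.sum_congr rfl (fun s _ => h1 s), Finset.sum_add_distrib, sum_sum_Ioc g hRn,
      hSplit (fun j => j * g j)]
  set D' : ℕ := T + ∑ j ∈ S, j * r0 j with hD'
  set E : ℕ := ∑ j ∈ S, j * c0 j with hE
  have hI2 : a * b = D' + i * g i + 2 * a * E := by
    have h1 : ∑ j ∈ S, j * g j = ∑ j ∈ S, j * r0 j + 2 * a * E := by
      rw [hE, Finset.mul_sum, ← Finset.sum_add_distrib]
      apply Finset.sum_congr rfl
      intro j hj
      rw [hS, Finset.mem_erase, mem_Icc] at hj
      rw [hgr j hj.2.1 hj.2.2]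
      ring
    rw [hI1, h1, hD']
    ring
  have hEb : 2 * E ≤ b := by
    have h1 : a * (2 * E) ≤ a * b := by
      rw [hI2]
      have : a * (2 * E) = 2 * a * E := by ring
      omega
    exact Nat.le_of_mul_le_mul_left h1 ha
  obtain ⟨B, hB⟩ : ∃ B, b = B + 2 * E := ⟨b - 2 * E, by omega⟩
  have haB : a * B = D' + i * g i := by
    have h1 : a * b = a * B + 2 * a * E := by rw [hB]; ring
    omega
  have hyi : y i ≤ g i := hy i hi hiR
  have hyS : ∑ j ∈ S, j * r0 j + i * y i ≤ ∑ j ∈ Icc 1 R, j * y j + 2 * a * R ^ 2 := by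
    have h1 : ∑ j ∈ S, j * r0 j + i * y i ≤ ∑ j ∈ Icc 1 R, j * (y j + 2 * a) := by
      rw [hSplit (fun j => j * (y j + 2 * a)), Nat.add_comm]
      apply Nat.add_le_add
      · exact Nat.mul_le_mul_left _ (Nat.le_add_right _ _)
      · exact Finset.sum_le_sum fun j _ => Nat.mul_le_mul_left _ (hr0lt j).le
    refine h1.trans ?_
    have h2 : ∑ j ∈ Icc 1 R, j * (y j + 2 * a) =
        ∑ j ∈ Icc 1 R, j * y j + 2 * a * ∑ j ∈ Icc 1 R, j := by
      rw [Finset.mul_sum, ← Finset.sum_add_distrib]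
      apply Finset.sum_congr rfl
      intro j _
      ring
    rw [h2]
    have h3 : ∑ j ∈ Icc 1 R, j ≤ R ^ 2 := by
      calc ∑ j ∈ Icc 1 R, j ≤ ∑ j ∈ Icc 1 R, R :=
            Finset.sum_le_sum fun j hj => (mem_Icc.1 hj).2
        _ = R ^ 2 := by
          rw [Finset.sum_const, Nat.card_Icc, smul_eq_mul, Nat.add_sub_cancel, sq]
    exact Nat.add_le_add_left (Nat.mul_le_mul_left _ h3) _
  have hI3 : D' + i * y i ≤ B * k := by
    rcases h with rfl | h
    · rw [mul_comm B k, haB]
      exact Nat.add_le_add_left (Nat.mul_le_mul_left _ hyi) _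
    · have h1 : (D' + i * y i) * a ≤ (B * k) * a := by
        calc (D' + i * y i) * a ≤ (T + ∑ j ∈ Icc 1 R, j * y j + 2 * a * R ^ 2) * a := by
              apply Nat.mul_le_mul_right
              rw [hD']
              omega
          _ ≤ i * g i * k := h
          _ ≤ (a * B) * k := Nat.mul_le_mul_right _ (by rw [haB]; exact Nat.le_add_left _ _)
          _ = (B * k) * a := by ring
      exact Nat.le_of_mul_le_mul_right h1 ha
  have h2ik : 0 < 2 * i * k := by positivity
  set t : ℕ := (B * k - (D' + i * y i)) / (2 * i * k) with ht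
  have ht1 : 2 * i * k * t ≤ B * k - (D' + i * y i) := Nat.mul_div_le _ _
  have ht2 : B * k - (D' + i * y i) < 2 * i * k * (t + 1) := Nat.lt_mul_div_succ _ h2ik
  have ht3 : 2 * i * t ≤ B := by
    have h1 : (2 * i * t) * k ≤ B * k := by
      have : (2 * i * t) * k = 2 * i * k * t := by ring
      omega
    exact Nat.le_of_mul_le_mul_right h1 (by omega)
  obtain ⟨N, hN⟩ : ∃ N, B = N + 2 * i * t := ⟨B - 2 * i * t, by omega⟩
  have hNk : B * k = N * k + 2 * i * k * t := by rw [hN]; ring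
  have hNk1' : D' + i * y i ≤ N * k := by omega
  have hNk1 : D' ≤ N * k := by omega
  have hNk2 : N * k < D' + i * y i + 2 * i * k := by
    have : 2 * i * k * (t + 1) = 2 * i * k * t + 2 * i * k := by ring
    omega
  have hiN : i ≤ N := by
    have h1 : i * k ≤ N * k := (Nat.mul_le_mul_right k hiR).trans (hRk.trans
      ((Nat.le_add_right _ _).trans hNk1))
    exact Nat.le_of_mul_le_mul_right h1 (by omega)
  obtain ⟨e, he⟩ := hdvd
  set x : ℕ := N * (2 * e) with hx
  have hix : i * x = N * (a - k) := by rw [hx, he]; ring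
  have hax : i * x + N * k = N * a := by
    rw [hix, ← Nat.mul_add, Nat.sub_add_cancel hka]
  have hxt : i * (x + 2 * a * t) + N * k = D' + i * g i := by
    rw [← haB, hN]
    have : i * (x + 2 * a * t) = i * x + 2 * i * a * t := by ring
    rw [this]
    have h2 : a * (N + 2 * i * t) = N * a + 2 * i * a * t := by ring
    omega
  have hle : x + 2 * a * t ≤ g i := by
    have h1 : i * (x + 2 * a * t) ≤ i * g i := by omega
    exact Nat.le_of_mul_le_mul_left h1 hi
  obtain ⟨ri, hri⟩ : ∃ ri, g i = ri + (x + 2 * a * t) := ⟨g i - (x + 2 * a * t), by omega⟩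
  have hiri : D' + i * ri = N * k := by
    have h1 : i * g i = i * ri + i * (x + 2 * a * t) := by rw [hri]; ring
    omega
  have hri2 : y i ≤ ri ∧ ri < y i + 2 * k := by
    constructor
    · have h1 : i * y i ≤ i * ri := by omega
      exact Nat.le_of_mul_le_mul_left h1 hi
    · have h1 : i * ri < i * (y i + 2 * k) := by
        have : i * (y i + 2 * k) = i * y i + 2 * i * k := by ring
        omega
      exact Nat.lt_of_mul_lt_mul_left h1
  -- the data
  set r : ℕ → ℕ := fun j => if j = i then ri else r0 j with hr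
  set c : ℕ → ℕ := fun j => if j = i then t else c0 j with hc
  have hrS : ∀ j ∈ S, r j = r0 j := fun j hj => by
    rw [hS, Finset.mem_erase] at hj
    simp only [hr, if_neg hj.1]
  have hcS : ∀ j ∈ S, c j = c0 j := fun j hj => by
    rw [hS, Finset.mem_erase] at hj
    simp only [hc, if_neg hj.1]
  have hri' : r i = ri := by simp only [hr, if_pos]
  have hci : c i = t := by simp only [hc, if_pos]
  have hgj : ∀ j, 1 ≤ j → j ≤ R → g j = r j + (if j = i then x else 0) + 2 * a * c j := by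
    intro j h1 h2
    by_cases hj : j = i
    · subst hj
      rw [hri', hci, if_pos rfl, hri]
      ring
    · simp only [hr, hc, if_neg hj]
      rw [hgr j h1 h2]
      ring
  set mu : Fin n → ℕ := fun s => ex lam (max s R) + ∑ j ∈ Ioc (s : ℕ) R, r j with hmu
  have hmu_anti : Antitone mu := by
    intro s s' hss
    have hss' : (s : ℕ) ≤ s' := hss
    simp only [hmu]
    apply Nat.add_le_add
    · exact hanti (by omega)
    · apply Finset.sum_le_sum_of_subset
      intro j hj
      rw [mem_Ioc] at hj ⊢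
      omega
  have hmu_sum : ∑ s, mu s = k * N := by
    have h5 : ∑ j ∈ S, j * r j = ∑ j ∈ S, j * r0 j :=
      Finset.sum_congr rfl (fun j hj => by rw [hrS j hj])
    simp only [hmu]
    rw [Finset.sum_add_distrib, sum_sum_Ioc r hRn, hSplit (fun j => j * r j), hri', mul_comm k N,
      ← hiri, hD', h5]
    ring
  have hlam_eq : ∀ s : Fin n, lam s = mu s + (if (s : ℕ) < i then x else 0) +
      ∑ j ∈ Finset.Icc 1 R, if (s : ℕ) < j then 2 * a * c j else 0 := by
    intro s
    have h1 := tele hanti R s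
    rw [ex_of_lt lam s.2] at h1
    have h2 : ∑ j ∈ Ioc (s : ℕ) R, (ex lam (j - 1) - ex lam j) =
        ∑ j ∈ Ioc (s : ℕ) R, (r j + (if j = i then x else 0) + 2 * a * c j) := by
      apply Finset.sum_congr rfl
      intro j hj
      rw [mem_Ioc] at hj
      exact hgj j (by omega) hj.2
    have h3 : ∑ j ∈ Ioc (s : ℕ) R, (if j = i then x else 0) = if (s : ℕ) < i then x else 0 := by
      rw [Finset.sum_ite_eq' (Ioc (s : ℕ) R) i (fun _ => x)]
      by_cases hsi : (s : ℕ) < i
      · rw [if_pos (by rw [mem_Ioc]; exact ⟨hsi, hiR⟩), if_pos hsi]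
      · rw [if_neg (by rw [mem_Ioc]; omega), if_neg hsi]
    rw [h2, Finset.sum_add_distrib, Finset.sum_add_distrib, h3] at h1
    have h4 : ((⟨(s : ℕ), s.2⟩ : Fin n)) = s := rfl
    rw [h4] at h1
    rw [h1, sum_if_eq (fun j => 2 * a * c j) R s]
    simp only [hmu]
    ring
  have hb : N + ∑ j ∈ Finset.Icc 1 R, 2 * j * c j = b := by
    have h5 : ∑ j ∈ S, 2 * j * c j = 2 * E := by
      rw [hE, Finset.mul_sum]
      apply Finset.sum_congr rfl
      intro j hj
      rw [hcS j hj]
      ring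
    rw [hSplit (fun j => 2 * j * c j), hci, h5, hB, hN]
    ring
  refine ⟨N, r, mu, fun s => rfl, hmu_anti, hmu_sum, by omega, hiN, ?_, by rw [hri']; exact hri2,
    ?_, ?_⟩
  · intro j h1 h2 hj
    simp only [hr, if_neg hj]
    exact ⟨Nat.le_add_right _ _, hr0lt j⟩
  · intro j h1 h2
    have h3 := hgj j h1 h2
    show r j ≤ g j
    omega
  · have h1 := H502.dec_stmt a n N k i x R c mu lam hi hiN (hiR.trans hRn) hRa hRn hka ⟨e, he⟩ hix
      hlam_eq
    rwa [hb] at h1

end Vale.Agent.P181.T7
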