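import Vale.Agent.P181.H411.Seam3
import Vale.Agent.P181.H498.Mem
import Vale.Agent.P181.H463.LowGlue

set_option autoImplicit false

/-!
# P181, T7: from linearly independent symmetrised products of minors to the multiplicity
-/

open MvPolynomial
open scoped Classical

namespace Vale.Agent.P181.H699

open Vale.Agent.P181 Vale.Agent.P181.H280 Vale.Agent.P181.FR Vale.Agent.P181.H188W
open Vale.Agent.P181.T4 Vale.Agent.P181.H463

/-- Fillings with linearly independent symmetrised products of minors. -/
theorem plethMult_ge_fill {b k m : ℕ} {lam : Fin m → ℕ} {X : Type*} [Fintype X]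
    (C : X → Type) [∀ x, Fintype (C x)] (len : (x : X) → C x → ℕ) (hlen : ∀ x c, len x c ≤ m)
    (J : (x : X) → (c : C x) → Fin (len x c) → Fin b)
    (hrows : ∀ (x : X) (i : Fin m),
      (Finset.univ.filter fun c => (i : ℕ) < len x c).card = lam i)
    (hdeg : ∀ (x : X) (j : Fin b), ∑ c, (Finset.univ.filter fun i => J x c i = j).card = k)
    (hli : LinearIndependent ℂ (fun (x : X) (p : Fin b → Fin m → ℂ) =>
      ∑ s : Equiv.Perm (Fin b), (∏ c, dt (hlen x c) (J x c)) (fun j => p (s j)))) :
    Fintype.card X ≤ plethMult b k m lam :=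
  plethMult_ge (fun x => ∏ c, dt (hlen x c) (J x c))
    (fun x => H498.prod_dt_MP (len x) (hlen x) (J x) (hdeg x))
    (fun x => H498.prod_dt_HWF (len x) (hlen x) (J x) lam (hrows x)) hli

/-- Many linearly independent fillings of the rows `≥ R` of given columns with balanced
contents. -/
theorem exists_lower {m R N : ℕ} {C : Type} [Fintype C] (len : C → ℕ) (len_le : ∀ c, len c ≤ m)
    (η : Fin (m - R) → ℕ)
    (hη : ∀ i : Fin (m - R), (Finset.univ.filter fun c => R + (i : ℕ) < len c).card = η i)
    (d : Fin N → ℕ) (hd : ∀ i j, d i ≤ d j + 1) (hs : ∑ q, d q = ∑ i, η i) :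
    ∃ (ι : Type) (_ : Fintype ι) (lo : ι → (c : C) → Fin (len c - R) → Fin N),
      (∀ β q, ∑ c, (Finset.univ.filter fun s => lo β c s = q).card = d q) ∧
      LinearIndependent ℂ (fun β : ι => ∏ c, dt (B := N) (m := m - R)
        (Nat.sub_le_sub_right (len_le c) R) (lo β c)) ∧
      gt (m - R) N η ≤ ((∑ i, η i) + N - 1).choose (N - 1) * Fintype.card ι := by
  have hlen : ∀ c, len c - R ≤ m - R := fun c => Nat.sub_le_sub_right (len_le c) R
  have hrows : rows (m - R) (fun c => len c - R) = η := by
    funext i
    rw [← hη i]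
    unfold rows
    congr 1
    ext c
    simp only [Finset.mem_filter, Finset.mem_univ, true_and]
    omega
  have hsum : ∑ c, (len c - R) = ∑ i, η i := by
    rw [← sum_rows (m - R) (fun c => len c - R) hlen, hrows]
  obtain ⟨κ, hκ, T, hT, hli, hgt⟩ := exists_products_fun hlen N d hd (by rw [hs, hsum])
  rw [hrows, hsum, choose_form] at hgt
  · refine ⟨κ, hκ, T, ?_, ?_, hgt⟩
    · intro β q
      rw [← hT β]
      unfold cnt cw
      refine Finset.sum_congr rfl fun c _ => ?_
      rw [Finset.card_filter]
    · have e : (fun β : κ => ∏ c, dt (B := N) (m := m - R) (hlen c) (T β c)) =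
          (fun k (p : Fin N → Fin (m - R) → ℂ) => ∏ c, Matrix.det (Matrix.of fun j k' :
            Fin (len c - R) => p (T k c j) (Fin.castLE (hlen c) k'))) := by
        funext β z
        rw [Finset.prod_apply]
        rfl
      rw [e]
      exact hli
  · intro h0
    subst h0
    rw [← hs]
    exact Finset.sum_eq_zero fun i _ => i.elim0

/-- The incidences of a position of a column with given top servers and lower letters. -/
lemma card_pos {T : Type} {R N n : ℕ} (srv : ℕ → T ⊕ Fin N) (lo : Fin (n - R) → Fin N)
    (J : Fin n → T ⊕ Fin N) (h1 : ∀ j : Fin n, (j : ℕ) < R → J j = srv j)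
    (h2 : ∀ s : Fin (n - R), J ⟨R + s, by omega⟩ = Sum.inr (lo s)) (p : T ⊕ Fin N) :
    (Finset.univ.filter fun i : Fin n => J i = p).card =
      ((Finset.range n).filter (fun i => i < R ∧ srv i = p)).card +
      (Finset.univ.filter fun s : Fin (n - R) => (Sum.inr (lo s) : T ⊕ Fin N) = p).card := by
  have h3 : (Finset.univ.filter fun i : Fin n => J i = p) =
      (Finset.univ.filter fun i : Fin n => (i : ℕ) < R ∧ srv i = p) ∪
      (Finset.univ.filter fun i : Fin n => R ≤ (i : ℕ) ∧ J i = p) := by
    ext i
    simp only [Finset.mem_filter, Finset.mem_univ, true_and, Finset.mem_union]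
    by_cases hi : (i : ℕ) < R
    · rw [h1 i hi]
      constructor
      · intro h; exact Or.inl ⟨hi, h⟩
      · rintro (h | h)
        · exact h.2
        · omega
    · constructor
      · intro h; exact Or.inr ⟨by omega, h⟩
      · rintro (h | h)
        · exact absurd h.1 hi
        · exact h.2
  have h4 : Disjoint
      (Finset.univ.filter fun i : Fin n => (i : ℕ) < R ∧ srv i = p)
      (Finset.univ.filter fun i : Fin n => R ≤ (i : ℕ) ∧ J i = p) := by
    rw [Finset.disjoint_left]
    intro i hi hi'
    rw [Finset.mem_filter] at hi hi'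
    omega
  rw [h3, Finset.card_union_of_disjoint h4]
  congr 1
  · rw [Finset.card_filter, Finset.card_filter, Finset.sum_range]
  · symm
    refine Finset.card_bij (fun s _ => ⟨R + s, by omega⟩) ?_ ?_ ?_
    · intro s hs
      rw [Finset.mem_filter] at hs ⊢
      refine ⟨Finset.mem_univ _, by simp, ?_⟩
      rw [h2]
      exact hs.2
    · intro s _ s' _ h
      have := congrArg Fin.val h
      simp only at this
      exact Fin.ext (by omega)
    · intro i hi
      rw [Finset.mem_filter] at hi
      refine ⟨⟨i - R, by omega⟩, ?_, Fin.ext (by simp only; omega)⟩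
      rw [Finset.mem_filter]
      refine ⟨Finset.mem_univ _, ?_⟩
      have h3 := hi.2.2
      have h5 := h2 ⟨i - R, by omega⟩
      have h6 : (⟨R + (i - R : ℕ), by omega⟩ : Fin n) = i := Fin.ext (by simp only; omega)
      simp only at h5
      rw [h6, h3] at h5
      exact h5.symm

end Vale.Agent.P181.H699
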