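import Mathlib

set_option autoImplicit false

/-!
# P181, sprint Z: the region lemma

Letters `v : Fin h → ℕ` with `1 ≤ |v| ≤ a`, `q v = exp (-x·v)`, mean `w i = ∑ v i * q v / (1 - q v)`.
-/

namespace Vale.Agent.P181.H699.Rg

open Finset

/-- `exp (-x·v)` -/
noncomputable def q {h : ℕ} (x : Fin h → ℝ) (v : Fin h → ℕ) : ℝ :=
  Real.exp (-(∑ i, x i * (v i : ℝ)))

/-- the mean of the `i`-th coordinate -/
noncomputable def mean {h : ℕ} (L : Finset (Fin h → ℕ)) (x : Fin h → ℝ) (i : Fin h) : ℝ :=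
  ∑ v ∈ L, (v i : ℝ) * (q x v / (1 - q x v))

/-- `∏ 1 / (1 - exp (-x i))` -/
noncomputable def NN {h : ℕ} (x : Fin h → ℝ) : ℝ := ∏ i, (1 - Real.exp (-x i))⁻¹

/-- the box -/
noncomputable def nb {h : ℕ} (a : ℕ) (x : Fin h → ℝ) (j : Fin h) : ℕ :=
  if x j ≤ 1 then ⌊min (1 / x j) ((a : ℝ) / h)⌋₊ else 0

/-- the number of the points of the box -/
noncomputable def PB {h : ℕ} (a : ℕ) (x : Fin h → ℝ) : ℝ := ∏ j, ((nb a x j : ℝ) + 1)

variable {h a : ℕ} {x : Fin h → ℝ} {L : Finset (Fin h → ℕ)}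

lemma q_pos (x : Fin h → ℝ) (v : Fin h → ℕ) : 0 < q x v := Real.exp_pos _

lemma dot_pos (hx : ∀ i, 0 < x i) {v : Fin h → ℕ} (hv : 1 ≤ ∑ i, v i) :
    0 < ∑ i, x i * (v i : ℝ) := by
  obtain ⟨i, hi⟩ : ∃ i, v i ≠ 0 := by
    by_contra hc
    push Not at hc
    rw [Finset.sum_eq_zero (fun i _ => hc i)] at hv
    omega
  refine Finset.sum_pos' (fun j _ => mul_nonneg (hx j).le (Nat.cast_nonneg _)) ⟨i, mem_univ _, ?_⟩
  exact mul_pos (hx i) (Nat.cast_pos.2 (Nat.pos_of_ne_zero hi))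

lemma q_lt (hx : ∀ i, 0 < x i) {v : Fin h → ℕ} (hv : 1 ≤ ∑ i, v i) : q x v < 1 := by
  unfold q
  rw [Real.exp_lt_one_iff]
  linarith [dot_pos hx hv]

lemma term_nonneg (hx : ∀ i, 0 < x i) (hL : ∀ v ∈ L, 1 ≤ ∑ i, v i) (i : Fin h) :
    ∀ v ∈ L, 0 ≤ (v i : ℝ) * (q x v / (1 - q x v)) := fun v hv =>
  mul_nonneg (Nat.cast_nonneg _) (div_nonneg (q_pos x v).le (by
    linarith [q_lt hx (hL v hv)]))

lemma exp_sum (y : Fin h → ℝ) (v : Fin h → ℕ) :
    Real.exp (-(∑ i, y i * (v i : ℝ))) = ∏ i, (Real.exp (-y i)) ^ (v i) := by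
  rw [← Finset.sum_neg_distrib, Real.exp_sum]
  refine Finset.prod_congr rfl fun i _ => ?_
  rw [← Real.exp_nat_mul]
  congr 1
  ring

/-- finite sums of the weights -/
lemma sum_exp_le (y : Fin h → ℝ) (hy : ∀ i, 0 < y i) (L : Finset (Fin h → ℕ)) :
    ∑ v ∈ L, Real.exp (-(∑ i, y i * (v i : ℝ))) ≤ NN y := by
  classical
  set M : ℕ := ∑ v ∈ L, ∑ i, v i with hM
  have hsub : L ⊆ Fintype.piFinset (fun _ : Fin h => Finset.range (M + 1)) := by
    intro v hv
    rw [Fintype.mem_piFinset]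
    intro i
    rw [Finset.mem_range]
    have h1 : ∑ i, v i ≤ M := Finset.single_le_sum (f := fun v : Fin h → ℕ => ∑ i, v i)
      (fun _ _ => Nat.zero_le _) hv
    have h2 : v i ≤ ∑ i, v i := Finset.single_le_sum (f := v) (fun _ _ => Nat.zero_le _)
      (Finset.mem_univ i)
    omega
  refine (Finset.sum_le_sum_of_subset_of_nonneg hsub fun v _ _ => (Real.exp_pos _).le).trans ?_
  have h3 : ∑ v ∈ Fintype.piFinset (fun _ : Fin h => Finset.range (M + 1)),
      Real.exp (-(∑ i, y i * (v i : ℝ))) =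
      ∏ i, ∑ k ∈ Finset.range (M + 1), (Real.exp (-y i)) ^ k := by
    rw [Finset.prod_univ_sum]
    exact Finset.sum_congr rfl fun v _ => exp_sum y v
  rw [h3]
  unfold NN
  refine Finset.prod_le_prod (fun i _ => Finset.sum_nonneg fun k _ => by positivity) fun i _ => ?_
  have h4 : Real.exp (-y i) < 1 := by
    rw [Real.exp_lt_one_iff]; linarith [hy i]
  rw [← tsum_geometric_of_lt_one (Real.exp_pos _).le h4]
  exact (summable_geometric_of_lt_one (Real.exp_pos _).le h4).sum_le_tsum _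
    (fun k _ => by positivity)

lemma key_exp {s : ℝ} (hs : 0 < s) :
    Real.exp (-s) / (1 - Real.exp (-s)) ≤ Real.exp (-(s / 2)) / s := by
  have h1 : Real.exp (-s) < 1 := by rw [Real.exp_lt_one_iff]; linarith
  rw [div_le_div_iff₀ (by linarith) hs]
  have h2 : s / 2 ≤ Real.sinh (s / 2) := Real.self_le_sinh_iff.2 (by linarith)
  rw [Real.sinh_eq] at h2
  have h3 : Real.exp (-s) = Real.exp (-(s / 2)) * Real.exp (-(s / 2)) := by
    rw [← Real.exp_add]; congr 1; ring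
  have h4 : Real.exp (s / 2) * Real.exp (-(s / 2)) = 1 := by
    rw [← Real.exp_add]; simp
  have h5 : 0 < Real.exp (-(s / 2)) := Real.exp_pos _
  rw [h3]
  nlinarith [mul_le_mul_of_nonneg_left h2 (mul_pos h5 h5).le]

/-- **upper bound of the mean** -/
theorem mean_le (hx : ∀ i, 0 < x i) (hL : ∀ v ∈ L, 1 ≤ ∑ i, v i) (i : Fin h) :
    mean L x i ≤ NN (fun j => x j / 2) / x i := by
  have h1 : mean L x i ≤ ∑ v ∈ L, Real.exp (-(∑ j, x j / 2 * (v j : ℝ))) / x i := by
    refine Finset.sum_le_sum fun v hv => ?_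
    set s : ℝ := ∑ j, x j * (v j : ℝ) with hs
    have hs0 : 0 < s := dot_pos hx (hL v hv)
    have h2 : ∑ j, x j / 2 * (v j : ℝ) = s / 2 := by
      rw [hs, Finset.sum_div]
      exact Finset.sum_congr rfl fun j _ => by ring
    rw [h2]
    have h3 : x i * (v i : ℝ) ≤ s := Finset.single_le_sum
      (f := fun j => x j * (v j : ℝ)) (fun j _ => mul_nonneg (hx j).le (Nat.cast_nonneg _))
      (Finset.mem_univ i)
    have h4 := key_exp hs0
    have h5 : (v i : ℝ) * (q x v / (1 - q x v)) ≤ (v i : ℝ) * (Real.exp (-(s / 2)) / s) :=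
      mul_le_mul_of_nonneg_left h4 (Nat.cast_nonneg _)
    refine h5.trans ?_
    rw [← mul_div_assoc, div_le_div_iff₀ hs0 (hx i)]
    have h6 : 0 ≤ Real.exp (-(s / 2)) := (Real.exp_pos _).le
    nlinarith
  refine h1.trans ?_
  rw [← Finset.sum_div]
  exact div_le_div_of_nonneg_right (sum_exp_le (fun j => x j / 2) (fun j => by
    have := hx j
    linarith) L) (hx i).le

/-- halving costs a factor `2 ^ h` -/
theorem NN_half (hx : ∀ i, 0 < x i) : NN (fun j => x j / 2) ≤ 2 ^ h * NN x := by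
  unfold NN
  have h1 : (2 : ℝ) ^ h = ∏ _j : Fin h, (2 : ℝ) := by simp
  rw [h1, ← Finset.prod_mul_distrib]
  refine Finset.prod_le_prod (fun i _ => ?_) fun i _ => ?_
  · have h2 : Real.exp (-(x i / 2)) < 1 := by rw [Real.exp_lt_one_iff]; linarith [hx i]
    exact inv_nonneg.2 (by linarith)
  · have h2 : Real.exp (-(x i / 2)) < 1 := by rw [Real.exp_lt_one_iff]; linarith [hx i]
    have h3 : Real.exp (-(x i)) = Real.exp (-(x i / 2)) * Real.exp (-(x i / 2)) := by
      rw [← Real.exp_add]; congr 1; ring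
    have h4 : 0 < Real.exp (-(x i / 2)) := Real.exp_pos _
    have h5 : 0 < 1 - Real.exp (-(x i)) := by rw [h3]; nlinarith
    rw [← div_eq_mul_inv, inv_eq_one_div, div_le_div_iff₀ (by linarith) h5, h3]
    nlinarith

lemma NN_pos (hx : ∀ i, 0 < x i) : 0 < NN x := by
  unfold NN
  refine Finset.prod_pos fun i _ => inv_pos.2 ?_
  have h2 : Real.exp (-(x i)) < 1 := by rw [Real.exp_lt_one_iff]; linarith [hx i]
  linarith

lemma one_le_inv {y : ℝ} (hy : 0 < y) : 1 ≤ (1 - Real.exp (-y))⁻¹ := by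
  have h2 : Real.exp (-y) < 1 := by rw [Real.exp_lt_one_iff]; linarith
  have h3 := Real.exp_pos (-y)
  rw [one_le_inv₀ (by linarith)]
  linarith

lemma inv_le_inv' {y : ℝ} (hy : 0 < y) : 1 / y ≤ (1 - Real.exp (-y))⁻¹ := by
  have h2 : Real.exp (-y) < 1 := by rw [Real.exp_lt_one_iff]; linarith
  have h3 := Real.add_one_le_exp (-y)
  rw [one_div]
  exact inv_anti₀ (by linarith) (by linarith)

/-- two coordinates -/
theorem NN_two (hx : ∀ i, 0 < x i) {i j : Fin h} (hij : i ≠ j) :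
    1 / (x i * x j) ≤ NN x := by
  classical
  unfold NN
  have h1 : ∏ k ∈ ({i, j} : Finset (Fin h)), (1 - Real.exp (-x k))⁻¹ ≤
      ∏ k, (1 - Real.exp (-x k))⁻¹ := by
    rw [← Finset.prod_mul_prod_compl ({i, j} : Finset (Fin h))]
    have h2 := Finset.prod_le_prod (s := ({i, j} : Finset (Fin h))ᶜ) (f := fun _ => (1 : ℝ))
      (g := fun k => (1 - Real.exp (-x k))⁻¹) (fun _ _ => zero_le_one)
      (fun k _ => one_le_inv (hx k))
    rw [Finset.prod_const_one] at h2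
    exact le_mul_of_one_le_right (Finset.prod_nonneg fun k _ =>
      (zero_le_one.trans (one_le_inv (hx k)))) h2
  refine le_trans ?_ h1
  rw [Finset.prod_pair hij, one_div, mul_inv, ← one_div, ← one_div]
  exact mul_le_mul (inv_le_inv' (hx i)) (inv_le_inv' (hx j)) (by
    have := hx j; positivity) (le_trans zero_le_one (one_le_inv (hx i)))

/-! ### lower bounds -/

lemma nb_le (j : Fin h) (hxj : 0 < x j) :
    x j * (nb a x j : ℝ) ≤ 1 ∧ (nb a x j : ℝ) ≤ (a : ℝ) / h := by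
  unfold nb
  split
  · have h1 : (0 : ℝ) ≤ min (1 / x j) ((a : ℝ) / h) := le_min (by positivity) (by positivity)
    have h2 := Nat.floor_le h1
    constructor
    · have h3 := h2.trans (min_le_left _ _)
      calc x j * _ ≤ x j * (1 / x j) := mul_le_mul_of_nonneg_left h3 hxj.le
        _ = 1 := by field_simp
    · exact h2.trans (min_le_right _ _)
  · constructor
    · simp
    · simp only [Nat.cast_zero]
      positivity

/-- the box is made of letters -/
lemma box_sub (hx : ∀ i, 0 < x i) {v : Fin h → ℕ} (hv : ∀ j, v j ≤ nb a x j) :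
    ∑ j, v j ≤ a ∧ Real.exp (-(h : ℝ)) ≤ q x v := by
  constructor
  · have h1 : (∑ j, (v j : ℝ)) ≤ a := by
      rcases Nat.eq_zero_or_pos h with rfl | hh
      · simp
      · have h2 : ∑ j, (v j : ℝ) ≤ ∑ _j : Fin h, (a : ℝ) / h := Finset.sum_le_sum fun j _ =>
          (Nat.cast_le.2 (hv j)).trans (nb_le j (hx j)).2
        rw [Finset.sum_const, Finset.card_univ, Fintype.card_fin, nsmul_eq_mul] at h2
        have h3 : (0 : ℝ) < h := Nat.cast_pos.2 hh
        rwa [mul_div_cancel₀ _ h3.ne'] at h2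
    exact_mod_cast h1
  · unfold q
    rw [Real.exp_le_exp, neg_le_neg_iff]
    have h2 : ∑ j, x j * (v j : ℝ) ≤ ∑ _j : Fin h, (1 : ℝ) := Finset.sum_le_sum fun j _ =>
      (mul_le_mul_of_nonneg_left (Nat.cast_le.2 (hv j)) (hx j).le).trans (nb_le j (hx j)).1
    simpa using h2

lemma sum_box {n : Fin h → ℕ} (i : Fin h) :
    ∑ v ∈ Fintype.piFinset (fun j => Finset.range (n j + 1)), (v i : ℝ) =
      (n i : ℝ) / 2 * ∏ j, ((n j : ℝ) + 1) := by
  classical
  have h1 : ∀ v ∈ Fintype.piFinset (fun j => Finset.range (n j + 1)), (v i : ℝ) =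
      ∏ j, (if j = i then (v j : ℝ) else 1) := by
    intro v _
    rw [Finset.prod_ite_eq' Finset.univ i (fun j => (v j : ℝ)), if_pos (Finset.mem_univ _)]
  rw [Finset.sum_congr rfl h1, ← Finset.prod_univ_sum (fun j => Finset.range (n j + 1))
    (fun j k => if j = i then (k : ℝ) else 1)]
  have h2 : ∀ j, ∑ k ∈ Finset.range (n j + 1), (if j = i then (k : ℝ) else 1) =
      (if j = i then (n i : ℝ) / 2 else 1) * ((n j : ℝ) + 1) := by
    intro j
    split
    · rename_i hj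
      subst hj
      have h3 : ∑ k ∈ Finset.range (n j + 1), (k : ℝ) = (n j : ℝ) * (n j + 1) / 2 := by
        have h4 := Finset.sum_range_id_mul_two (n j + 1)
        have h5 : ((∑ k ∈ Finset.range (n j + 1), k : ℕ) : ℝ) * 2 =
            ((n j + 1 : ℕ) : ℝ) * ((n j + 1 - 1 : ℕ) : ℝ) := by exact_mod_cast h4
        have h6 : n j + 1 - 1 = n j := rfl
        rw [h6] at h5
        push_cast at h5
        linarith
      rw [h3]; ring
    · simp
  rw [Finset.prod_congr rfl fun j _ => h2 j, Finset.prod_mul_distrib,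
    Finset.prod_ite_eq' Finset.univ i (fun _ => (n i : ℝ) / 2), if_pos (Finset.mem_univ _)]

/-- **(R1)** the letters of the box -/
theorem mean_ge (hx : ∀ i, 0 < x i)
    (hL : ∀ v : Fin h → ℕ, v ∈ L ↔ 1 ≤ ∑ i, v i ∧ ∑ i, v i ≤ a) (i : Fin h) :
    Real.exp (-(h : ℝ)) * ((nb a x i : ℝ) / 2 * PB a x) ≤ mean L x i := by
  classical
  have h0 := sum_box (n := nb a x) i
  rw [PB, ← h0, Finset.mul_sum]
  unfold mean
  rw [← Finset.sum_filter_add_sum_filter_not (Fintype.piFinset fun j => Finset.range (nb a x j + 1))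
    (fun v => v i ≠ 0)]
  have h1 : ∑ v ∈ (Fintype.piFinset fun j => Finset.range (nb a x j + 1)).filter
      (fun v => ¬ v i ≠ 0), Real.exp (-(h : ℝ)) * (v i : ℝ) = 0 := by
    refine Finset.sum_eq_zero fun v hv => ?_
    rw [Finset.mem_filter, not_not] at hv
    rw [hv.2]; simp
  rw [h1, add_zero]
  have hsub : (Fintype.piFinset fun j => Finset.range (nb a x j + 1)).filter (fun v => v i ≠ 0) ⊆
      L := by
    intro v hv
    rw [Finset.mem_filter, Fintype.mem_piFinset] at hv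
    rw [hL]
    have h2 : v i ≤ ∑ j, v j := Finset.single_le_sum (f := v) (fun _ _ => Nat.zero_le _)
      (Finset.mem_univ i)
    refine ⟨by omega, (box_sub hx fun j => ?_).1⟩
    have := Finset.mem_range.1 (hv.1 j)
    omega
  refine le_trans (Finset.sum_le_sum fun v hv => ?_)
    (Finset.sum_le_sum_of_subset_of_nonneg hsub fun v hv _ =>
      term_nonneg hx (fun v hv => ((hL v).1 hv).1) i v hv)
  have hvL := (hL v).1 (hsub hv)
  rw [Finset.mem_filter, Fintype.mem_piFinset] at hv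
  have h3 := (box_sub hx (a := a) (v := v) fun j => by
    have := Finset.mem_range.1 (hv.1 j)
    omega).2
  have h4 : q x v ≤ q x v / (1 - q x v) := by
    have h5 := q_lt hx hvL.1
    have h6 := q_pos x v
    rw [le_div_iff₀ (by linarith)]
    nlinarith
  rw [mul_comm]
  exact mul_le_mul_of_nonneg_left (h3.trans h4) (Nat.cast_nonneg _)

/-- **(R2)** the pure letters -/
theorem mean_ge_pure (hx : ∀ i, 0 < x i)
    (hL : ∀ v : Fin h → ℕ, v ∈ L ↔ 1 ≤ ∑ i, v i ∧ ∑ i, v i ≤ a) (i : Fin h) {m : ℕ} (hm : m ≤ a)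
    (hxm : x i * m ≤ 1) : (m : ℝ) / (2 * x i) ≤ mean L x i := by
  classical
  unfold mean
  have hinj : Set.InjOn (fun p : ℕ => (Pi.single i p : Fin h → ℕ))
      (Finset.Icc 1 m : Finset ℕ) := by
    intro p _ p' _ hp
    have := congrFun hp i
    simpa using this
  have hsum : ∀ p : ℕ, ∑ j, (Pi.single i p : Fin h → ℕ) j = p := by
    intro p
    rw [Finset.sum_pi_single' i p Finset.univ, if_pos (Finset.mem_univ _)]
  have hsub : (Finset.Icc 1 m).image (fun p : ℕ => (Pi.single i p : Fin h → ℕ)) ⊆ L := by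
    intro v hv
    obtain ⟨p, hp, rfl⟩ := Finset.mem_image.1 hv
    rw [Finset.mem_Icc] at hp
    rw [hL, hsum]
    omega
  refine le_trans ?_ (Finset.sum_le_sum_of_subset_of_nonneg hsub fun v hv _ =>
      term_nonneg hx (fun v hv => ((hL v).1 hv).1) i v hv)
  rw [Finset.sum_image hinj]
  have h1 : ∑ _p ∈ Finset.Icc 1 m, 1 / (2 * x i) = (m : ℝ) / (2 * x i) := by
    rw [Finset.sum_const, Nat.card_Icc, nsmul_eq_mul, Nat.add_sub_cancel]
    ring
  rw [← h1]
  refine Finset.sum_le_sum fun p hp => ?_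
  rw [Finset.mem_Icc] at hp
  have hp0 : (0 : ℝ) < p := Nat.cast_pos.2 (by omega)
  have h2 : ∑ j, x j * ((Pi.single i p : Fin h → ℕ) j : ℝ) = x i * p := by
    rw [Finset.sum_eq_single i]
    · simp
    · intro j _ hj
      simp [Pi.single_eq_of_ne hj]
    · intro hi
      exact absurd (Finset.mem_univ _) hi
  have h3 : q x (Pi.single i p : Fin h → ℕ) = Real.exp (-(x i * p)) := by rw [q, h2]
  rw [h3, Pi.single_eq_same]
  have h4 : 0 < x i * p := mul_pos (hx i) hp0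
  have h5 : x i * p ≤ 1 := (mul_le_mul_of_nonneg_left (Nat.cast_le.2 hp.2) (hx i).le).trans hxm
  have h6 : Real.exp (-(x i * p)) < 1 := by rw [Real.exp_lt_one_iff]; linarith
  have h7 : 1 - x i * p ≤ Real.exp (-(x i * p)) := by
    have := Real.add_one_le_exp (-(x i * p)); linarith
  have h8 : Real.exp (-(x i * p)) * Real.exp (x i * p) = 1 := by rw [← Real.exp_add]; simp
  have h9 : Real.exp (x i * p) ≤ 1 + 2 * (x i * p) := by
    have h12 := Real.abs_exp_sub_one_le (x := x i * p) (by rw [abs_of_pos h4]; exact h5)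
    rw [abs_of_pos h4] at h12
    linarith [le_abs_self (Real.exp (x i * p) - 1)]
  have h10 : 1 / (2 * (x i * p)) ≤ Real.exp (-(x i * p)) / (1 - Real.exp (-(x i * p))) := by
    rw [div_le_div_iff₀ (by linarith) (by linarith)]
    have h11 : 0 < Real.exp (-(x i * p)) := Real.exp_pos _
    nlinarith [mul_le_mul_of_nonneg_left h9 h11.le]
  calc 1 / (2 * x i) = (p : ℝ) * (1 / (2 * (x i * p))) := by field_simp
    _ ≤ _ := mul_le_mul_of_nonneg_left h10 hp0.le

/-! ### the region -/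

lemma exists_seg (hmono : Monotone x) : ∃ m ≤ h, ∀ i : Fin h, x i ≤ 1 ↔ i.val < m := by
  classical
  have hP : ∃ m : ℕ, ∀ i : Fin h, m ≤ i.val → 1 < x i := ⟨h, fun i hi => absurd i.2 (by omega)⟩
  refine ⟨Nat.find hP, Nat.find_le fun i hi => absurd i.2 (by omega), fun i => ⟨fun hi => ?_,
    fun hi => ?_⟩⟩
  · by_contra hc
    exact absurd (Nat.find_spec hP i (by omega)) (by linarith)
  · have h1 := Nat.find_min hP hi
    push Not at h1
    obtain ⟨j, hj, hj2⟩ := h1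
    exact (hmono (Fin.le_def.2 hj)).trans hj2

lemma nb_pos (hh : 0 < h) (ha : h ≤ a) {i : Fin h} (hxi : 0 < x i) (hx1 : x i ≤ 1) :
    1 ≤ nb a x i := by
  unfold nb
  rw [if_pos hx1]
  refine Nat.le_floor ?_
  rw [Nat.cast_one]
  refine le_min ?_ ?_
  · rw [le_div_iff₀ hxi]; linarith
  · rw [le_div_iff₀ (by exact_mod_cast hh)]
    have : (h : ℝ) ≤ a := by exact_mod_cast ha
    linarith

lemma nb_zero {i : Fin h} (hx1 : ¬ x i ≤ 1) : nb a x i = 0 := by
  unfold nb
  rw [if_neg hx1]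

lemma PB_pos : 0 < PB a x := by
  unfold PB
  exact Finset.prod_pos fun j _ => by positivity

/-- **the box is small in the region** -/
theorem PB_le (hh : 0 < h) (ha : h ≤ a) (hx : ∀ i, 0 < x i) (hmono : Monotone x)
    (hL : ∀ v : Fin h → ℕ, v ∈ L ↔ 1 ≤ ∑ i, v i ∧ ∑ i, v i ≤ a) {C e : ℝ} (hC : 1 ≤ C)
    (he : 0 ≤ e)
    (hfail : ∀ m ≤ h, ∏ i ∈ Finset.univ.filter (fun i : Fin h => i.val < m),
      min (mean L x i) ((a : ℝ) ^ 2) ≤ C * (a : ℝ) ^ (1 + m * (1 + e) : ℝ)) :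
    PB a x ≤ C * (4 * Real.exp h) ^ h * (a : ℝ) ^ (1 + h * e : ℝ) := by
  classical
  have ha1 : (1 : ℝ) ≤ a := by exact_mod_cast (show 1 ≤ a by omega)
  have ha0 : (0 : ℝ) < a := by linarith
  have hE : 1 ≤ 4 * Real.exp h := by
    have := Real.one_le_exp (show (0 : ℝ) ≤ h by positivity)
    linarith
  have hh0 : (0 : ℝ) ≤ h := by positivity
  rcases le_total (PB a x) a with hsm | hbig
  · calc PB a x ≤ a := hsm
      _ = (a : ℝ) ^ (1 : ℝ) := (Real.rpow_one _).symm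
      _ ≤ (a : ℝ) ^ (1 + h * e : ℝ) := Real.rpow_le_rpow_of_exponent_le ha1 (by
          have : 0 ≤ (h : ℝ) * e := by positivity
          linarith)
      _ ≤ C * (4 * Real.exp h) ^ h * (a : ℝ) ^ (1 + h * e : ℝ) := by
          refine le_mul_of_one_le_left (by positivity) ?_
          exact one_le_mul_of_one_le_of_one_le hC (one_le_pow₀ hE)
  obtain ⟨m, hm, hseg⟩ := exists_seg hmono
  have h1 := hfail m hm
  set K := Finset.univ.filter (fun i : Fin h => i.val < m) with hK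
  set c : ℝ := (4 * Real.exp h)⁻¹ with hc
  have hc0 : 0 < c := by positivity
  have hc1 : c ≤ 1 := inv_le_one_of_one_le₀ hE
  have hcard : K.card = m := by
    rw [hK, Fin.card_filter_val_lt]
    omega
  have h3 : ∏ i ∈ K, (c * (a * ((nb a x i : ℝ) + 1))) ≤ ∏ i ∈ K,
      min (mean L x i) ((a : ℝ) ^ 2) := by
    refine Finset.prod_le_prod (fun i _ => by positivity) fun i hi => ?_
    rw [hK, Finset.mem_filter] at hi
    have hxi := (hseg i).2 hi.2
    have h4 := nb_pos hh ha (hx i) hxi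
    have h5 : (1 : ℝ) ≤ nb a x i := by exact_mod_cast h4
    have h6 := mean_ge hx hL i
    have h7 : (nb a x i : ℝ) ≤ a := (nb_le (a := a) i (hx i)).2.trans (div_le_self ha0.le (by
      exact_mod_cast hh))
    have h8 : c = Real.exp (-(h : ℝ)) / 4 := by
      rw [hc, mul_inv, Real.exp_neg]; ring
    have h9 : 0 < Real.exp (-(h : ℝ)) := Real.exp_pos _
    refine le_min ?_ ?_
    · refine le_trans ?_ h6
      rw [h8]
      have h10 : a * ((nb a x i : ℝ) + 1) ≤ 2 * ((nb a x i : ℝ) * PB a x) := by nlinarith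
      nlinarith
    · have h10 : a * ((nb a x i : ℝ) + 1) ≤ 2 * (a : ℝ) ^ 2 := by nlinarith
      have h11 : Real.exp (-(h : ℝ)) ≤ 1 := by
        rw [Real.exp_le_one_iff]; linarith
      rw [h8]
      nlinarith [mul_le_mul_of_nonneg_left h10 h9.le, sq_nonneg (a : ℝ)]
  have h4 : ∏ i ∈ K, (c * (a * ((nb a x i : ℝ) + 1))) = c ^ m * ((a : ℝ) ^ m * PB a x) := by
    rw [Finset.prod_mul_distrib, Finset.prod_mul_distrib, Finset.prod_const, Finset.prod_const,
      hcard]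
    congr 2
    unfold PB
    refine Finset.prod_subset (Finset.subset_univ _) fun i _ hi => ?_
    rw [nb_zero (fun hc => hi (by rw [hK, Finset.mem_filter]; exact ⟨Finset.mem_univ _,
      (hseg i).1 hc⟩))]
    simp
  rw [h4] at h3
  have h5 := h3.trans h1
  have h6 : (a : ℝ) ^ (1 + m * (1 + e) : ℝ) = (a : ℝ) ^ m * (a : ℝ) ^ (1 + m * e : ℝ) := by
    rw [← Real.rpow_natCast, ← Real.rpow_add ha0]
    congr 1; ring
  rw [h6] at h5
  have h7 : c ^ m * PB a x ≤ C * (a : ℝ) ^ (1 + m * e : ℝ) := by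
    have h8 : (0 : ℝ) < (a : ℝ) ^ m := by positivity
    nlinarith
  have hmh : (m : ℝ) ≤ h := by exact_mod_cast hm
  have h8 : (a : ℝ) ^ (1 + m * e : ℝ) ≤ (a : ℝ) ^ (1 + h * e : ℝ) :=
    Real.rpow_le_rpow_of_exponent_le ha1 (by nlinarith)
  have h9 : PB a x = (4 * Real.exp h) ^ m * (c ^ m * PB a x) := by
    rw [← mul_assoc, ← mul_pow, hc, mul_inv_cancel₀ (by positivity), one_pow, one_mul]
  rw [h9]
  calc (4 * Real.exp h) ^ m * (c ^ m * PB a x) ≤
      (4 * Real.exp h) ^ m * (C * (a : ℝ) ^ (1 + m * e : ℝ)) :=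
        mul_le_mul_of_nonneg_left h7 (by positivity)
    _ ≤ (4 * Real.exp h) ^ h * (C * (a : ℝ) ^ (1 + h * e : ℝ)) := by
        refine mul_le_mul (pow_le_pow_right₀ hE hm) (mul_le_mul_of_nonneg_left h8 (by linarith))
          (by positivity) (by positivity)
    _ = _ := by ring

/-- the smallest exponent -/
theorem x_ge (ha : 1 ≤ a) (hx : ∀ i, 0 < x i)
    (hL : ∀ v : Fin h → ℕ, v ∈ L ↔ 1 ≤ ∑ i, v i ∧ ∑ i, v i ≤ a) {C e : ℝ} (hC : 1 ≤ C)
    (he : 0 ≤ e) (i : Fin h) (hw : mean L x i ≤ C * (a : ℝ) ^ (2 + e : ℝ)) :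
    1 / (a * (2 * C * (a : ℝ) ^ e)) ≤ x i := by
  have ha1 : (1 : ℝ) ≤ a := by exact_mod_cast ha
  have ha0 : (0 : ℝ) < a := by linarith
  have hae : 1 ≤ (a : ℝ) ^ e := Real.one_le_rpow ha1 he
  rcases le_total 1 (x i * a) with h1 | h1
  · rw [div_le_iff₀ (by positivity)]
    have h2 : 1 ≤ 2 * C * (a : ℝ) ^ e := by nlinarith
    have h3 : 0 < x i * a := by linarith
    calc (1 : ℝ) ≤ (x i * a) * 1 := by linarith
      _ ≤ (x i * a) * (2 * C * (a : ℝ) ^ e) := mul_le_mul_of_nonneg_left h2 h3.le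
      _ = _ := by ring
  · have h2 := (mean_ge_pure hx hL i le_rfl h1).trans hw
    rw [div_le_iff₀ (by have := hx i; positivity)] at h2
    rw [div_le_iff₀ (by positivity)]
    have h3 : (a : ℝ) ^ (2 + e : ℝ) = a * (a * (a : ℝ) ^ e) := by
      rw [Real.rpow_add ha0]
      have h4 : (a : ℝ) ^ (2 : ℝ) = a * a := by
        rw [show (2 : ℝ) = ((2 : ℕ) : ℝ) by norm_num, Real.rpow_natCast]; ring
      rw [h4]; ring
    rw [h3] at h2
    have h5 : (a : ℝ) * 1 ≤ a * (x i * (a * (2 * C * (a : ℝ) ^ e))) := by linarith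
    exact le_of_mul_le_mul_left h5 ha0

lemma inv_le_nb (hh : 0 < h) (ha : h ≤ a) {D : ℝ} (hD : 1 ≤ D) {j : Fin h} (hxj : 0 < x j)
    (hxD : 1 / (a * D) ≤ x j) (hx1 : x j ≤ 1) : 1 / x j ≤ h * D * ((nb a x j : ℝ) + 1) := by
  have hh1 : (1 : ℝ) ≤ h := by exact_mod_cast hh
  have ha0 : (0 : ℝ) < a := by exact_mod_cast (show 0 < a by omega)
  have hn : min (1 / x j) ((a : ℝ) / h) ≤ (nb a x j : ℝ) + 1 := by
    unfold nb
    rw [if_pos hx1]
    exact (Nat.lt_floor_add_one _).le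
  have hn0 : (0 : ℝ) ≤ (nb a x j : ℝ) + 1 := by positivity
  rcases le_total (1 / x j) ((a : ℝ) / h) with h1 | h1
  · rw [min_eq_left h1] at hn
    refine hn.trans (le_mul_of_one_le_left hn0 ?_)
    nlinarith
  · rw [min_eq_right h1] at hn
    have h2 : 1 / x j ≤ a * D := by
      rw [div_le_iff₀ hxj]
      rw [div_le_iff₀ (by positivity)] at hxD
      linarith
    refine h2.trans ?_
    have h3 : (a : ℝ) * D = h * D * ((a : ℝ) / h) := by field_simp
    rw [h3]
    exact mul_le_mul_of_nonneg_left hn (by positivity)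

/-- **`NN` against the box** -/
theorem NN_le_PB (hh : 0 < h) (ha : h ≤ a) (hx : ∀ i, 0 < x i) {D : ℝ} (hD : 1 ≤ D)
    (hxD : ∀ i, 1 / (a * D) ≤ x i) : NN x ≤ (2 * h * D) ^ h * PB a x := by
  have hh1 : (1 : ℝ) ≤ h := by exact_mod_cast hh
  have h0 : (2 * h * D) ^ h = ∏ _j : Fin h, (2 * h * D : ℝ) := by simp
  unfold NN PB
  rw [h0, ← Finset.prod_mul_distrib]
  refine Finset.prod_le_prod (fun i _ => zero_le_one.trans (one_le_inv (hx i))) fun j _ => ?_
  have hn0 : (1 : ℝ) ≤ (nb a x j : ℝ) + 1 := by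
    have : (0 : ℝ) ≤ (nb a x j : ℝ) := Nat.cast_nonneg _
    linarith
  have hhD : 1 ≤ (h : ℝ) * D := by nlinarith
  rcases le_or_gt (x j) 1 with h1 | h1
  · have h2 := inv_le_nb hh ha hD (hx j) (hxD j) h1
    have h3 : (1 - Real.exp (-x j))⁻¹ ≤ 2 * (1 / x j) := by
      have h4 : Real.exp (-x j) ≤ 1 - x j / 2 := by
        have h5 := Real.add_one_le_exp (x j)
        have h6 : Real.exp (-x j) * Real.exp (x j) = 1 := by rw [← Real.exp_add]; simp
        have h7 := Real.exp_pos (-x j)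
        have h8 := hx j
        have h9 : Real.exp (-x j) * (x j + 1) ≤ 1 :=
          (mul_le_mul_of_nonneg_left h5 h7.le).trans h6.le
        have h10 : 1 ≤ (1 - x j / 2) * (x j + 1) := by nlinarith
        exact le_of_mul_le_mul_right (h9.trans h10) (by linarith)
      have h7 : 0 < 1 - Real.exp (-x j) := by linarith [hx j]
      rw [inv_eq_one_div, mul_one_div, div_le_div_iff₀ h7 (hx j)]
      linarith
    calc (1 - Real.exp (-x j))⁻¹ ≤ 2 * (1 / x j) := h3
      _ ≤ 2 * (h * D * ((nb a x j : ℝ) + 1)) := by linarith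
      _ = _ := by ring
  · have h3 : (1 - Real.exp (-x j))⁻¹ ≤ 2 := by
      have h4 : Real.exp (-x j) ≤ 1 / 2 := by
        have h5 : Real.exp (-x j) ≤ Real.exp (-1) := Real.exp_le_exp.2 (by linarith)
        have h6 := Real.exp_neg_one_lt_d9
        linarith
      rw [inv_le_comm₀ (by linarith) (by norm_num)]
      linarith
    calc (1 - Real.exp (-x j))⁻¹ ≤ 2 := h3
      _ ≤ 2 * h * D * ((nb a x j : ℝ) + 1) := by nlinarith

/-- **REG**: the partition number of the region -/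
theorem NN_le (hh : 0 < h) (ha : h ≤ a) (hx : ∀ i, 0 < x i) (hmono : Monotone x)
    (hL : ∀ v : Fin h → ℕ, v ∈ L ↔ 1 ≤ ∑ i, v i ∧ ∑ i, v i ≤ a) {C e : ℝ} (hC : 1 ≤ C)
    (he : 0 ≤ e) (hw : ∀ i, mean L x i ≤ C * (a : ℝ) ^ (2 + e : ℝ))
    (hfail : ∀ m ≤ h, ∏ i ∈ Finset.univ.filter (fun i : Fin h => i.val < m),
      min (mean L x i) ((a : ℝ) ^ 2) ≤ C * (a : ℝ) ^ (1 + m * (1 + e) : ℝ)) :
    NN x ≤ C * (16 * h * C * Real.exp h) ^ h * (a : ℝ) ^ (1 + 2 * h * e : ℝ) := by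
  have ha1 : (1 : ℝ) ≤ a := by exact_mod_cast (show 1 ≤ a by omega)
  have ha0 : (0 : ℝ) < a := by linarith
  have hae : 1 ≤ (a : ℝ) ^ e := Real.one_le_rpow ha1 he
  set D : ℝ := 2 * C * (a : ℝ) ^ e with hD
  have hD1 : 1 ≤ D := by nlinarith
  have h1 := NN_le_PB hh ha hx hD1 (fun i => x_ge (by omega) hx hL hC he i (hw i))
  have h2 := PB_le hh ha hx hmono hL hC he hfail
  have hh0 : (0 : ℝ) < h := by exact_mod_cast hh
  calc NN x ≤ (2 * h * D) ^ h * PB a x := h1
    _ ≤ (2 * h * D) ^ h * (C * (4 * Real.exp h) ^ h * (a : ℝ) ^ (1 + h * e : ℝ)) :=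
        mul_le_mul_of_nonneg_left h2 (by positivity)
    _ = C * (16 * h * C * Real.exp h) ^ h * (((a : ℝ) ^ e) ^ h * (a : ℝ) ^ (1 + h * e : ℝ)) := by
        have h3 : (2 * (h : ℝ) * D) ^ h = (4 * h * C) ^ h * ((a : ℝ) ^ e) ^ h := by
          rw [← mul_pow, hD]; congr 1; ring
        have h4 : (16 * (h : ℝ) * C * Real.exp h) ^ h = (4 * h * C) ^ h * (4 * Real.exp h) ^ h := by
          rw [← mul_pow]; congr 1; ring
        rw [h3, h4]
        ring
    _ = _ := by
        rw [← Real.rpow_natCast ((a : ℝ) ^ e), ← Real.rpow_mul ha0.le, ← Real.rpow_add ha0]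
        congr 2
        ring

/-- the second exponent -/
theorem one_le_sq_mul (hx : ∀ i, 0 < x i) {i j : Fin h} (hij : i ≠ j) (hle : x i ≤ x j) :
    1 ≤ x j ^ 2 * NN x := by
  have h1 := NN_two hx hij
  have hi := hx i
  have hj := hx j
  rw [div_le_iff₀ (by positivity)] at h1
  have h2 := NN_pos hx
  have h3 : x i * x j ≤ x j ^ 2 := by nlinarith
  calc (1 : ℝ) ≤ NN x * (x i * x j) := h1
    _ ≤ NN x * x j ^ 2 := mul_le_mul_of_nonneg_left h3 h2.le
    _ = _ := by ring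

/-- upper bound of the means -/
theorem mean_le' (hx : ∀ i, 0 < x i) (hL : ∀ v ∈ L, 1 ≤ ∑ i, v i) (i : Fin h) :
    x i * mean L x i ≤ 2 ^ h * NN x := by
  have h1 := mean_le hx hL i
  rw [le_div_iff₀ (hx i)] at h1
  linarith [NN_half hx]

/-- lower bound of the means -/
theorem mean_ge' (hh : 0 < h) (ha : h ≤ a) (hx : ∀ i, 0 < x i)
    (hL : ∀ v : Fin h → ℕ, v ∈ L ↔ 1 ≤ ∑ i, v i ∧ ∑ i, v i ≤ a) {D : ℝ} (hD : 1 ≤ D)
    (hxD : ∀ i, 1 / (a * D) ≤ x i) (i : Fin h) (hx1 : x i ≤ 1) :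
    NN x ≤ (4 * h * D * Real.exp h) * (2 * h * D) ^ h * (x i * mean L x i) := by
  have h1 := NN_le_PB hh ha hx hD hxD
  have h2 := inv_le_nb hh ha hD (hx i) (hxD i) hx1
  have h3 := mean_ge hx hL i
  have h4 : (1 : ℝ) ≤ nb a x i := by exact_mod_cast nb_pos hh ha (hx i) hx1
  have hP := PB_pos (a := a) (x := x)
  have hE : 0 < Real.exp (h : ℝ) := Real.exp_pos _
  have hh0 : (0 : ℝ) < h := by exact_mod_cast hh
  have hxi := hx i
  have h5 : 1 ≤ h * D * ((nb a x i : ℝ) + 1) * x i := by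
    rwa [div_le_iff₀ hxi] at h2
  have h6 : PB a x ≤ (4 * h * D * Real.exp h) * (x i * mean L x i) := by
    have h7 : (nb a x i : ℝ) + 1 ≤ 2 * nb a x i := by linarith
    have h8 : 1 ≤ h * D * (2 * nb a x i) * x i := h5.trans (by gcongr)
    have h9 : Real.exp (-(h : ℝ)) * Real.exp h = 1 := by rw [← Real.exp_add]; simp
    calc PB a x = 1 * PB a x := (one_mul _).symm
      _ ≤ (h * D * (2 * nb a x i) * x i) * PB a x := mul_le_mul_of_nonneg_right h8 hP.le
      _ = (4 * h * D * x i) * (((nb a x i : ℝ) / 2 * PB a x) * (Real.exp (-(h : ℝ)) *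
            Real.exp h)) := by rw [h9]; ring
      _ = (4 * h * D * Real.exp h * x i) * (Real.exp (-(h : ℝ)) *
            ((nb a x i : ℝ) / 2 * PB a x)) := by ring
      _ ≤ (4 * h * D * Real.exp h * x i) * mean L x i :=
            mul_le_mul_of_nonneg_left h3 (by positivity)
      _ = _ := by ring
  calc NN x ≤ (2 * h * D) ^ h * PB a x := h1
    _ ≤ (2 * h * D) ^ h * ((4 * h * D * Real.exp h) * (x i * mean L x i)) :=
        mul_le_mul_of_nonneg_left h6 (by positivity)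
    _ = _ := by ring

end Vale.Agent.P181.H699.Rg
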