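import Vale.Agent.P181.H699.Low7
import Vale.Agent.P181.T6.Spec

set_option autoImplicit false

/-!
# P181, T7: transfer of a family for the lower part
-/

open MvPolynomial
open scoped Classical

namespace Vale.Agent.P181.T7

open Vale.Agent.P181 Vale.Agent.P181.H280 Vale.Agent.P181.FR Vale.Agent.P181.H188W
open Vale.Agent.P181.T4 Vale.Agent.P181.H463 Vale.Agent.P181.H699 Vale.Agent.P181.H498

/-- A family of fillings pulled back to columns with the same row lengths. -/
theorem family_pull {k N n P : ℕ} {η : Fin n → ℕ} (h : T6.Family k N n η P)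
    {C : Type} [Fintype C] (ℓ : C → ℕ) (hℓ : ∀ c, ℓ c ≤ n)
    (hη : ∀ i : Fin n, (Finset.univ.filter fun c => (i : ℕ) < ℓ c).card = η i) :
    ∃ (ι : Type) (_ : Fintype ι) (J : ι → (c : C) → Fin (ℓ c) → Fin N),
      (∀ β j, ∑ c, (Finset.univ.filter fun s => J β c s = j).card = k) ∧
      LinearIndependent ℂ (fun (β : ι) (p : Fin N → Fin n → ℂ) => ∑ s : Equiv.Perm (Fin N),
        (∏ c, dt (hℓ c) (J β c)) (fun j => p (s j))) ∧ P ≤ Fintype.card ι := by
  obtain ⟨C', ι, _, _, len', hlen', J, hcol, hdeg, hli, hP⟩ := h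
  have hcount : ∀ i : ℕ, (Finset.univ.filter fun c => i < ℓ c).card =
      (Finset.univ.filter fun c => i < len' c).card := by
    intro i
    by_cases hi : i < n
    · rw [hcol ⟨i, hi⟩, ← hη]
    · have e1 : (Finset.univ.filter fun c => i < ℓ c) = ∅ := by
        rw [Finset.filter_eq_empty_iff]
        intro c _
        have := hℓ c
        omega
      have e2 : (Finset.univ.filter fun c => i < len' c) = ∅ := by
        rw [Finset.filter_eq_empty_iff]
        intro c _
        have := hlen' c
        omega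
      rw [e1, e2, Finset.card_empty, Finset.card_empty]
  obtain ⟨ψ, hψ⟩ := exists_colEquiv ℓ len' hcount
  refine ⟨ι, inferInstance, fun β => pull ψ hψ (J β), ?_, ?_, hP⟩
  · intro β q
    have h1 := sum_pull ψ hψ (fun n (f : Fin n → Fin N) =>
      (Finset.univ.filter fun s => f s = q).card) (by intro f; rfl) (J β)
    rw [h1]
    exact hdeg β q
  · have h1 : ∀ β, ∏ c, dt (B := N) (m := n) (hℓ c) (pull ψ hψ (J β) c) =
        ∏ c, dt (B := N) (m := n) (hlen' c) (J β c) := by
      intro β
      let Φ : (i : ℕ) → (Fin i → Fin N) → ((Fin N → Fin n → ℂ) → ℂ) := fun i f =>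
        if h : i ≤ n then dt h f else 1
      have h2 := prod_pull ψ hψ Φ (by
        intro f
        simp only [Φ, Nat.zero_le, dif_pos]
        funext z
        simp [dt]) (J β)
      have h3 : ∀ c, Φ (ℓ c) (pull ψ hψ (J β) c) =
          dt (B := N) (m := n) (hℓ c) (pull ψ hψ (J β) c) := by
        intro c
        simp only [Φ]
        rw [dif_pos (hℓ c)]
      have h4 : ∀ c, Φ (len' c) (J β c) = dt (hlen' c) (J β c) := by
        intro c
        simp only [Φ]
        rw [dif_pos (hlen' c)]
      rw [Finset.prod_congr rfl (fun c _ => h3 c), Finset.prod_congr rfl (fun c _ => h4 c)] at h2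
      exact h2
    simp only [h1]
    exact hli

/-- **(G3)** Transfer: one frame with equal types for all free letters and a family for the lower
part. -/
theorem transfer7 {m R N b k k' P : ℕ} {T : Type} [Fintype T] {cls : T → ℕ} (hR : R ≤ m)
    (hcls : ∀ t, cls t < R) {C : Type} [Fintype C] (Fr : Top7 m R N T cls C) (t : ℕ → ℕ)
    (lam : Fin m → ℕ) (hcard : Fintype.card T + N = b)
    (hrows : ∀ i : Fin m, (Finset.univ.filter fun c => (i : ℕ) < Fr.len c).card = lam i)
    (htop : ∀ x, Fr.inc (Sum.inl x) = k)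
    (hpt : ∀ q, ∑ i ∈ Finset.range R, Fr.typ q i + k' = k)
    (hF : ∀ (lo : (c : C) → Fin (Fr.len c - R) → Fin N),
      (∀ q, ∑ c, (Finset.univ.filter fun s => lo c s = q).card = k') → Fr.Forced t lo)
    (ht : ∀ i < R, ∑ q, Fr.typ q i = t i)
    (hconst : ∀ q q', ∀ i < R, Fr.typ q i = Fr.typ q' i)
    (hfam : T6.Family k' N (m - R) (low R lam) P) :
    P ≤ plethMult b k m lam := by
  have hη : ∀ i : Fin (m - R), (Finset.univ.filter fun c => (i : ℕ) < Fr.len c - R).card =
      low R lam i := by
    intro i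
    have hi := i.2
    rw [T4.low, ex_of_lt lam (by omega : R + (i : ℕ) < m), ← hrows]
    congr 1
    ext c
    simp only [Finset.mem_filter, Finset.mem_univ, true_and]
    omega
  obtain ⟨ι, _, J, hJ, hli, hP⟩ := family_pull hfam (fun c => Fr.len c - R)
    (fun c => Nat.sub_le_sub_right (Fr.len_le c) R) hη
  have e : Fin b ≃ T ⊕ Fin N := (Fintype.equivFinOfCardEq (by simpa using hcard)).symm
  refine hP.trans (plethMult_ge_fill (fun _ : ι => C) (fun _ => Fr.len) (fun _ => Fr.len_le)
    (fun β c j => e.symm (Fr.J c (J β c) j)) (fun _ => hrows) (fun β j => Fr.deg e (J β) htop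
      (fun q => by rw [hJ β q, Top7.inc_inr]; exact hpt q) j) ?_)
  exact linInd7_const hcls Fr J t (fun β => hF (J β) (hJ β)) ht hconst e hli

end Vale.Agent.P181.T7
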