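import Vale.Agent.P181.H699.Transfer
import Mathlib.GroupTheory.Perm.Fin

set_option autoImplicit false

/-!
# P181, T7: transfer with one special free letter
-/

open scoped Classical

namespace Vale.Agent.P181.T7

open Vale.Agent.P181 Vale.Agent.P181.H280 Vale.Agent.P181.FR Vale.Agent.P181.H188W
open Vale.Agent.P181.T4 Vale.Agent.P181.H463 Vale.Agent.P181.H699 Vale.Agent.P181.H498

/-! ### Leading coefficients -/

/-- Coefficient of a product at the sum of degree bounds. -/
lemma coeff_prod_le {ι : Type*} (s : Finset ι) (f : ι → Polynomial ℂ) (n : ι → ℕ)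
    (h : ∀ i ∈ s, (f i).natDegree ≤ n i) :
    (∏ i ∈ s, f i).natDegree ≤ ∑ i ∈ s, n i ∧
      (∏ i ∈ s, f i).coeff (∑ i ∈ s, n i) = ∏ i ∈ s, (f i).coeff (n i) := by
  induction s using Finset.induction_on with
  | empty => simp
  | insert a s ha ih =>
    obtain ⟨h1, h2⟩ := ih (fun i hi => h i (Finset.mem_insert_of_mem hi))
    have h3 := h a (Finset.mem_insert_self a s)
    rw [Finset.prod_insert ha, Finset.sum_insert ha, Finset.prod_insert ha]
    constructor
    · exact (Polynomial.natDegree_mul_le).trans (add_le_add h3 h1)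
    · rw [Polynomial.coeff_mul_add_eq_of_natDegree_le h3 h1, h2]

/-- A matrix of constants with possibly one last row `1, X, X^2, …`. -/
lemma det_X {n h : ℕ} (h1 : h ≤ n) (h2 : n ≤ h + 1) (a : ℕ → ℕ → ℂ) :
    let A : Matrix (Fin n) (Fin n) (Polynomial ℂ) := Matrix.of fun j k =>
      if (j : ℕ) < h then Polynomial.C (a j k) else Polynomial.X ^ (k : ℕ)
    A.det.natDegree ≤ (n - h) * h ∧
      A.det.coeff ((n - h) * h) = Matrix.det (Matrix.of fun j k : Fin h => a j k) := by
  intro A
  rcases Nat.lt_or_ge h n with hlt | hge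
  · obtain rfl : n = h + 1 := by omega
    have hdet : A.det = ∑ k : Fin (h + 1), Polynomial.C ((-1) ^ (h + (k : ℕ)) *
        Matrix.det (Matrix.of fun j i : Fin h => a j (k.succAbove i))) *
        Polynomial.X ^ (k : ℕ) := by
      rw [Matrix.det_succ_row A (Fin.last h)]
      apply Finset.sum_congr rfl
      intro k _
      have e1 : A (Fin.last h) k = Polynomial.X ^ (k : ℕ) := by
        simp [A]
      have e2 : (A.submatrix (Fin.last h).succAbove k.succAbove).det =
          Polynomial.C (Matrix.det (Matrix.of fun j i : Fin h => a j (k.succAbove i))) := by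
        rw [RingHom.map_det]
        congr 1
        ext j i
        simp [A, Fin.succAbove_last]
      rw [e1, e2, Fin.val_last, Polynomial.C_mul]
      have e3 : Polynomial.C ((-1 : ℂ) ^ (h + (k : ℕ))) = (-1) ^ (h + (k : ℕ)) := by
        rw [map_pow, map_neg, map_one]
      rw [e3]
      ring
    have hn : (h + 1 - h) * h = h := by
      rw [Nat.add_sub_cancel_left, one_mul]
    rw [hn]
    constructor
    · rw [hdet]
      apply Polynomial.natDegree_sum_le_of_forall_le
      intro k _
      refine (Polynomial.natDegree_C_mul_X_pow_le _ _).trans ?_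
      have := k.2
      omega
    · rw [hdet, Polynomial.finsetSum_coeff, Finset.sum_eq_single (Fin.last h)]
      · rw [Polynomial.coeff_C_mul_X_pow, if_pos (by simp), Fin.val_last]
        have e4 : (-1 : ℂ) ^ (h + h) = 1 := by
          rw [← two_mul, pow_mul]
          norm_num
        rw [e4, one_mul]
        congr 1
        ext j i
        simp [Fin.succAbove_last]
      · intro k _ hk
        rw [Polynomial.coeff_C_mul_X_pow, if_neg]
        intro h5
        apply hk
        exact Fin.ext (by simpa using h5.symm)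
      · intro h5
        exact absurd (Finset.mem_univ _) h5
  · obtain rfl : n = h := by omega
    have hn : (n - n) * n = 0 := by simp
    have hA : A = (Matrix.of fun j k : Fin n => a j k).map Polynomial.C := by
      ext1 j k
      simp [A]
    have hdet : A.det = Polynomial.C (Matrix.det (Matrix.of fun j k : Fin n => a j k)) := by
      rw [hA, RingHom.map_det]
      rfl
    rw [hn, hdet]
    constructor
    · simp
    · simp

/-! ### The special letter -/

section special

variable {N n : ℕ} {C : Type} [Fintype C]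

/-- The filling with the special letter `0` below the letters `J`. -/
def loz (ℓ ℓ' : C → ℕ) (J : (c : C) → Fin (ℓ' c) → Fin N) (c : C) (j : Fin (ℓ c)) :
    Fin (N + 1) :=
  if h : (j : ℕ) < ℓ' c then (J c ⟨j, h⟩).succ else 0

/-- Linear independence after adding the special letter `0` as the last letter of some columns. -/
theorem linInd_loz {ι : Type*} (ℓ ℓ' : C → ℕ) (hℓ : ∀ c, ℓ c ≤ n) (h1 : ∀ c, ℓ' c ≤ ℓ c)
    (h2 : ∀ c, ℓ c ≤ ℓ' c + 1) (J : ι → (c : C) → Fin (ℓ' c) → Fin N)
    (S : Finset (Equiv.Perm (Fin (N + 1)))) (hS : ∀ τ, τ ∈ S ↔ τ 0 = 0)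
    (hli : LinearIndependent ℂ (fun (β : ι) (p : Fin N → Fin n → ℂ) =>
      ∑ s : Equiv.Perm (Fin N), (∏ c, dt ((h1 c).trans (hℓ c)) (J β c)) (fun j => p (s j)))) :
    LinearIndependent ℂ (fun (β : ι) (z : Fin (N + 1) → Fin n → ℂ) =>
      ∑ τ ∈ S, (∏ c, dt (hℓ c) (loz ℓ ℓ' (J β) c)) (fun q => z (τ q))) := by
  have hsum : ∀ F : Equiv.Perm (Fin (N + 1)) → ℂ, ∑ τ ∈ S, F τ =
      ∑ σ : Equiv.Perm (Fin N), F (Equiv.Perm.decomposeFin.symm (0, σ)) := by
    intro F
    symm
    apply Finset.sum_bij (fun (σ : Equiv.Perm (Fin N)) _ => Equiv.Perm.decomposeFin.symm (0, σ))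
    · intro σ _
      rw [hS]
      simp
    · intro σ _ σ' _ h
      have := Equiv.Perm.decomposeFin.symm.injective h
      simpa using this
    · intro τ hτ
      rw [hS] at hτ
      refine ⟨(Equiv.Perm.decomposeFin τ).2, Finset.mem_univ _, ?_⟩
      have h3 : (Equiv.Perm.decomposeFin τ).1 = 0 := by
        have h4 := Equiv.Perm.decomposeFin_symm_apply_zero (Equiv.Perm.decomposeFin τ).1
          (Equiv.Perm.decomposeFin τ).2
        rw [Prod.mk.eta, Equiv.symm_apply_apply] at h4
        rw [← h4, hτ]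
      rw [← h3, Prod.mk.eta, Equiv.symm_apply_apply]
    · intro σ _
      rfl
  rw [linearIndependent_iff'] at hli ⊢
  intro s g hg
  apply hli s g
  funext p
  -- the entries of the matrices
  set a : ι → Equiv.Perm (Fin N) → C → ℕ → ℕ → ℂ := fun β σ c j k =>
    if h : j < ℓ' c ∧ k < n then p (σ (J β c ⟨j, h.1⟩)) ⟨k, h.2⟩ else 0 with ha
  set A : ι → Equiv.Perm (Fin N) → (c : C) → Matrix (Fin (ℓ c)) (Fin (ℓ c)) (Polynomial ℂ) :=
    fun β σ c => Matrix.of fun j k =>
      if (j : ℕ) < ℓ' c then Polynomial.C (a β σ c j k) else Polynomial.X ^ (k : ℕ) with hA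
  have hAe : ∀ β σ c (j k : Fin (ℓ c)), A β σ c j k =
      if (j : ℕ) < ℓ' c then Polynomial.C (a β σ c j k) else Polynomial.X ^ (k : ℕ) :=
    fun _ _ _ _ _ => rfl
  have hdet : ∀ β σ c, (A β σ c).det.natDegree ≤ (ℓ c - ℓ' c) * ℓ' c ∧
      (A β σ c).det.coeff ((ℓ c - ℓ' c) * ℓ' c) =
        Matrix.det (Matrix.of fun j k : Fin (ℓ' c) => a β σ c j k) :=
    fun β σ c => det_X (h1 c) (h2 c) (a β σ c)
  set Q : Polynomial ℂ := ∑ β ∈ s, Polynomial.C (g β) *
    ∑ σ : Equiv.Perm (Fin N), ∏ c, (A β σ c).det with hQ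
  have hQ0 : Q = 0 := by
    apply Polynomial.funext
    intro x
    rw [Polynomial.eval_zero, hQ, Polynomial.eval_finsetSum]
    have h3 := congrFun hg (Fin.cons (fun i : Fin n => x ^ (i : ℕ)) p)
    rw [Finset.sum_apply, Pi.zero_apply] at h3
    rw [← h3]
    apply Finset.sum_congr rfl
    intro β _
    rw [Polynomial.eval_mul, Polynomial.eval_C, Pi.smul_apply, smul_eq_mul, hsum,
      Polynomial.eval_finsetSum]
    congr 1
    apply Finset.sum_congr rfl
    intro σ _
    rw [Polynomial.eval_prod, Finset.prod_apply]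
    apply Finset.prod_congr rfl
    intro c _
    unfold dt
    rw [← Polynomial.coe_evalRingHom, RingHom.map_det]
    congr 1
    ext j k
    rw [RingHom.mapMatrix_apply, Matrix.map_apply, Matrix.of_apply, hAe]
    have hk : (k : ℕ) < n := lt_of_lt_of_le k.2 (hℓ c)
    unfold loz
    by_cases hj : (j : ℕ) < ℓ' c
    · rw [if_pos hj, dif_pos hj]
      beta_reduce
      rw [Equiv.Perm.decomposeFin_symm_apply_succ, Equiv.swap_self,
        Equiv.refl_apply, Fin.cons_succ, Polynomial.coe_evalRingHom, Polynomial.eval_C, ha]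
      simp only
      rw [dif_pos ⟨hj, hk⟩]
      rfl
    · rw [if_neg hj, dif_neg hj]
      beta_reduce
      rw [Equiv.Perm.decomposeFin_symm_apply_zero, Fin.cons_zero,
        Polynomial.coe_evalRingHom, Polynomial.eval_pow, Polynomial.eval_X]
      rfl
  have h3 : Q.coeff (∑ c, (ℓ c - ℓ' c) * ℓ' c) = 0 := by rw [hQ0, Polynomial.coeff_zero]
  rw [hQ, Polynomial.finsetSum_coeff] at h3
  rw [Finset.sum_apply, Pi.zero_apply, ← h3]
  apply Finset.sum_congr rfl
  intro β _
  rw [Polynomial.coeff_C_mul, Pi.smul_apply, smul_eq_mul, Polynomial.finsetSum_coeff]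
  congr 1
  apply Finset.sum_congr rfl
  intro σ _
  rw [(coeff_prod_le Finset.univ (fun c => (A β σ c).det) (fun c => (ℓ c - ℓ' c) * ℓ' c)
    (fun c _ => (hdet β σ c).1)).2, Finset.prod_apply]
  apply Finset.prod_congr rfl
  intro c _
  rw [(hdet β σ c).2]
  unfold dt
  congr 1
  ext j k
  rw [Matrix.of_apply, Matrix.of_apply, ha]
  have hk : (k : ℕ) < n := by
    have := k.2
    have := h1 c
    have := hℓ c
    omega
  simp only
  rw [dif_pos ⟨j.2, hk⟩]
  rfl

end special

lemma card_loz_succ {N : ℕ} {C : Type} {ℓ ℓ' : C → ℕ} (h1 : ∀ c, ℓ' c ≤ ℓ c)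
    (J : (c : C) → Fin (ℓ' c) → Fin N) (c : C) (q : Fin N) :
    (Finset.univ.filter fun j => loz ℓ ℓ' J c j = q.succ).card =
      (Finset.univ.filter fun s => J c s = q).card := by
  symm
  apply Finset.card_bij (fun s _ => Fin.castLE (h1 c) s)
  · intro s hs
    rw [Finset.mem_filter] at hs ⊢
    refine ⟨Finset.mem_univ _, ?_⟩
    have : ((Fin.castLE (h1 c) s : Fin (ℓ c)) : ℕ) < ℓ' c := s.2
    rw [loz, dif_pos this, Fin.succ_inj]
    exact hs.2
  · intro s _ s' _ h
    have := congrArg Fin.val h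
    exact Fin.ext this
  · intro j hj
    rw [Finset.mem_filter] at hj
    have h2 := hj.2
    unfold loz at h2
    by_cases hlt : (j : ℕ) < ℓ' c
    · rw [dif_pos hlt, Fin.succ_inj] at h2
      exact ⟨⟨j, hlt⟩, by rw [Finset.mem_filter]; exact ⟨Finset.mem_univ _, h2⟩, Fin.ext rfl⟩
    · rw [dif_neg hlt] at h2
      exact absurd h2.symm (Fin.succ_ne_zero q)

lemma card_loz_zero {N : ℕ} {C : Type} {ℓ ℓ' : C → ℕ} (h1 : ∀ c, ℓ' c ≤ ℓ c)
    (J : (c : C) → Fin (ℓ' c) → Fin N) (c : C) :
    (Finset.univ.filter fun j => loz ℓ ℓ' J c j = 0).card = ℓ c - ℓ' c := by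
  have h2 : (Finset.univ.filter fun j => loz ℓ ℓ' J c j = 0) =
      Finset.univ.filter fun j : Fin (ℓ c) => ¬ (j : ℕ) < ℓ' c := by
    ext j
    simp only [Finset.mem_filter, Finset.mem_univ, true_and]
    unfold loz
    constructor
    · intro h hlt
      rw [dif_pos hlt] at h
      exact Fin.succ_ne_zero _ h
    · intro h
      rw [dif_neg h]
  have h3 := Finset.card_filter_add_card_filter_not (s := (Finset.univ : Finset (Fin (ℓ c))))
    (fun j => (j : ℕ) < ℓ' c)
  rw [h2]
  have h4 : (Finset.univ.filter fun j : Fin (ℓ c) => (j : ℕ) < ℓ' c).card = ℓ' c := by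
    have h5 : (Finset.univ.filter fun j : Fin (ℓ c) => (j : ℕ) < ℓ' c) =
        (Finset.univ : Finset (Fin (ℓ' c))).map (Fin.castLEEmb (h1 c)) := by
      ext j
      simp only [Finset.mem_filter, Finset.mem_univ, true_and, Finset.mem_map]
      constructor
      · intro h
        exact ⟨⟨j, h⟩, Fin.ext rfl⟩
      · rintro ⟨s, rfl⟩
        exact s.2
    rw [h5, Finset.card_map, Finset.card_univ, Fintype.card_fin]
  rw [Finset.card_univ, Fintype.card_fin] at h3
  omega

/-- **(G3z)** Transfer with one special free letter `0`: it serves the last row of the columns in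
`Z`; the other free letters have equal types and serve the rest of the lower part according to a
family. -/
theorem transfer7z {m R N b k k' P : ℕ} {T : Type} [Fintype T] {cls : T → ℕ}
    (hcls : ∀ t, cls t < R) {C : Type} [Fintype C] (Fr : Top7 m R (N + 1) T cls C) (t : ℕ → ℕ)
    (lam : Fin m → ℕ) (hcard : Fintype.card T + (N + 1) = b)
    (hrows : ∀ i : Fin m, (Finset.univ.filter fun c => (i : ℕ) < Fr.len c).card = lam i)
    (htop : ∀ x, Fr.inc (Sum.inl x) = k) (Z : C → Prop) (hZ : ∀ c, Z c → R < Fr.len c)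
    (η : Fin (m - R) → ℕ)
    (hη : ∀ i : Fin (m - R), (Finset.univ.filter fun c =>
      (i : ℕ) < Fr.len c - R - if Z c then 1 else 0).card = η i)
    (hpt : ∀ q : Fin N, ∑ i ∈ Finset.range R, Fr.typ q.succ i + k' = k)
    (hpt0 : ∑ i ∈ Finset.range R, Fr.typ 0 i + (Finset.univ.filter Z).card = k)
    (hF : ∀ (lo : (c : C) → Fin (Fr.len c - R) → Fin (N + 1)),
      (∀ q : Fin N, ∑ c, (Finset.univ.filter fun s => lo c s = q.succ).card = k') →
      (∑ c, (Finset.univ.filter fun s => lo c s = 0).card = (Finset.univ.filter Z).card) →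
      Fr.Forced t lo)
    (ht : ∀ i < R, ∑ q, Fr.typ q i = t i)
    (hconst : ∀ q q' : Fin N, ∀ i < R, Fr.typ q.succ i = Fr.typ q'.succ i)
    (hne : ∀ q : Fin N, ∃ i < R, Fr.typ q.succ i ≠ Fr.typ 0 i)
    (hfam : T6.Family k' N (m - R) η P) :
    P ≤ plethMult b k m lam := by
  set ℓ : C → ℕ := fun c => Fr.len c - R with hℓ
  set ℓ' : C → ℕ := fun c => Fr.len c - R - if Z c then 1 else 0 with hℓ'
  have hℓm : ∀ c, ℓ c ≤ m - R := fun c => Nat.sub_le_sub_right (Fr.len_le c) R
  have h1 : ∀ c, ℓ' c ≤ ℓ c := fun c => Nat.sub_le _ _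
  have h2 : ∀ c, ℓ c ≤ ℓ' c + 1 := by
    intro c
    simp only [hℓ, hℓ']
    split_ifs <;> omega
  obtain ⟨ι, _, J, hJ, hli, hP⟩ := family_pull hfam ℓ' (fun c => (h1 c).trans (hℓm c)) hη
  have hS : ∀ τ : Equiv.Perm (Fin (N + 1)), τ ∈ Finset.univ.filter
      (fun τ : Equiv.Perm (Fin (N + 1)) => ∀ q, ∀ i < R, Fr.typ q i = Fr.typ (τ q) i) ↔
      τ 0 = 0 := by
    intro τ
    rw [Finset.mem_filter]
    constructor
    · rintro ⟨-, h⟩
      by_contra h0
      obtain ⟨q, hq⟩ := Fin.exists_succ_eq.2 h0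
      obtain ⟨i, hi, hne'⟩ := hne q
      apply hne'
      rw [h 0 i hi, hq]
    · intro h
      refine ⟨Finset.mem_univ _, fun q i hi => ?_⟩
      rcases Fin.eq_zero_or_eq_succ q with rfl | ⟨q', rfl⟩
      · rw [h]
      · have h3 : τ q'.succ ≠ 0 := by
          intro h4
          have := τ.injective (h4.trans h.symm)
          exact Fin.succ_ne_zero _ this
        obtain ⟨q'', hq''⟩ := Fin.exists_succ_eq.2 h3
        rw [← hq'']
        exact hconst _ _ i hi
  have hcs : ∀ β (q : Fin N), ∑ c, (Finset.univ.filter fun s => loz ℓ ℓ' (J β) c s = q.succ).card =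
      k' := by
    intro β q
    rw [← hJ β q]
    exact Finset.sum_congr rfl fun c _ => card_loz_succ h1 (J β) c q
  have hc0 : ∀ β, ∑ c, (Finset.univ.filter fun s => loz ℓ ℓ' (J β) c s = 0).card =
      (Finset.univ.filter Z).card := by
    intro β
    rw [Finset.card_filter]
    apply Finset.sum_congr rfl
    intro c _
    rw [card_loz_zero h1]
    simp only [hℓ, hℓ']
    by_cases hc : Z c
    · have := hZ c hc
      rw [if_pos hc]
      omega
    · rw [if_neg hc]
      omega
  have e : Fin b ≃ T ⊕ Fin (N + 1) := (Fintype.equivFinOfCardEq (by simpa using hcard)).symm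
  refine hP.trans (plethMult_ge_fill (fun _ : ι => C) (fun _ => Fr.len) (fun _ => Fr.len_le)
    (fun β c j => e.symm (Fr.J c (loz ℓ ℓ' (J β) c) j)) (fun _ => hrows)
    (fun β j => Fr.deg e (loz ℓ ℓ' (J β)) htop (fun q => ?_) j) ?_)
  · rw [Top7.inc_inr]
    rcases Fin.eq_zero_or_eq_succ q with rfl | ⟨q', rfl⟩
    · rw [hc0 β]
      exact hpt0
    · rw [hcs β q']
      exact hpt q'
  · have h3 := linInd7 (U := Unit) (ι := fun _ => ι) hcls (fun _ => C) (fun _ => Fr)
      (fun _ β => loz ℓ ℓ' (J β)) t (fun _ β => hF _ (hcs β) (hc0 β)) (fun _ => ht)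
      (fun _ _ _ => rfl) e (fun _ => linInd_loz ℓ ℓ' hℓm h1 h2 J _ hS hli)
    exact h3.comp (fun β => (⟨(), β⟩ : Σ _ : Unit, ι)) (fun β β' h => by simpa using h)

end Vale.Agent.P181.T7
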